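import Crest.Agent.N325.P2.DropD

/-!
# Row 325, part II (helper75): DROP — the change of the credits
-/

set_option autoImplicit false
open Finset

namespace Crest.Agent.N325.P2

open Crest.Agent.N325.Tw Crest.Agent.N325.Ip Crest.Agent.N325.Mt

namespace Cx
variable {T : Type} (X : Cx T)

/-- the part of the credits that belongs to the vertex `v` -/
noncomputable def ψv (d : Dt) (v : ℕ) : ℝ :=
  -(if isC X.G d v then (X.C.Z * (d.cw.get v + 1) : ℝ) * (lM X.P X.Bd - Real.log (d.cw.get v + 1))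
    else 0) + (if d.st.get v = 0 then 8 * X.C.Z - 2 * X.C.Z * lM X.P X.Bd else 0) +
  (if d.st.get v = 1 then (4 * X.C.Z : ℝ) else 0) +
  (if d.st.get v = 2 then ((X.C.K - Nat.log 2 (d.cw.get (d.cls.get v)) : ℕ) : ℝ) else 0)

theorem Psi_eq (d : Dt) : X.Ψ d = 2 * X.C.Z * X.G.n * X.Lg + ∑ v ∈ range X.G.n, X.ψv d v +
    X.C.Z * d.Q.length + X.Au * ((ex (range X.G.n) d.mt.get : ℝ) - X.xm) := by
  simp only [Ψ, offs, nS, Th, ψv, sum_add_distrib, sum_neg_distrib, ← sum_filter, sum_const,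
    nsmul_eq_mul, Nat.cast_sum]
  ring

variable {X} {d d' : Dt} {Y : Finset ℕ}

theorem _root_.Crest.Agent.N325.P2.Dr.isC_iff {G : Gf} (hY : ∀ c ∈ Y, isC G d c) {v : ℕ}
    (k : Dr G d Y v) : isC G d v ↔ v ∈ Y := by
  refine ⟨fun j => ?_, hY v⟩
  rcases k.2 with i | i
  · exact j.2.2 ▸ i.2
  · have := j.2.1; omega

theorem ψv_off (p : DrD X.G d d' Y) (h : Cmb X.G d) {v : ℕ} (hv : v < X.G.n)
    (k : ¬Dr X.G d Y v) : X.ψv d' v = X.ψv d v := by
  obtain ⟨e1, e2⟩ := p.off v hv k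
  have e3 : isC X.G d' v ↔ isC X.G d v := by rw [isC, isC, e1, e2]
  unfold ψv
  rw [e1, e2]
  congr 1
  · congr 3
    by_cases j : isC X.G d v
    · rw [if_pos j, if_pos (e3.2 j), p.cl v j fun i => k ⟨hv, Or.inl ⟨j.2.1, j.2.2.symm ▸ i⟩⟩]
    · rw [if_neg j, if_neg (mt e3.1 j)]
  · split_ifs with j
    · rw [p.cl _ (h.out v hv j) fun i => k ⟨hv, Or.inl ⟨j, i⟩⟩]
    · rfl

theorem ψv_dr (hY : ∀ c ∈ Y, isC X.G d c) {v : ℕ} (k : Dr X.G d Y v) :
    0 ≤ X.ψv d v + if v ∈ Y then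
      (X.C.Z * wtC d v : ℝ) * (lM X.P X.Bd - Real.log (wtC d v)) else 0 := by
  have e0 : d.st.get v ≠ 0 := by rcases k.2 with i | i <;> omega
  have a : (0 : ℝ) ≤ if d.st.get v = 1 then (4 * X.C.Z : ℝ) else 0 := by positivity
  have b : (0 : ℝ) ≤ if d.st.get v = 2 then
    ((X.C.K - Nat.log 2 (d.cw.get (d.cls.get v)) : ℕ) : ℝ) else 0 := by positivity
  unfold ψv wtC
  rw [if_neg e0]
  by_cases j : v ∈ Y
  · rw [if_pos j, if_pos (hY v j)]; push_cast; linarith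
  · rw [if_neg j, if_neg (mt (k.isC_iff hY).1 j)]; linarith

/-- **the credits after DROP**, with `q` new entries of the work list -/
theorem Psi_drop' (p : DrD X.G d d' Y) (h : Cmb X.G d) (hY : ∀ c ∈ Y, isC X.G d c) {q : ℕ}
    (hq : d'.Q.length ≤ d.Q.length + q) :
    X.Ψ d' + #(drU X.G d Y) * (2 * X.C.Z * lM X.P X.Bd) +
        #(drR X.G d Y) * (2 * X.C.Z * lM X.P X.Bd) ≤
      X.Ψ d + ∑ c ∈ Y, (X.C.Z * wtC d c : ℝ) * (lM X.P X.Bd - Real.log (wtC d c)) +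
        8 * X.C.Z * #(drU X.G d Y) + X.C.Z * q +
        #(drR X.G d Y) * (2 * X.C.Z * Real.log 2 + X.C.K) := by
  have key : ∑ v ∈ range X.G.n, (X.ψv d' v +
      (if Dr X.G d Y v ∧ d.mt.get v ≠ v then 2 * X.C.Z * lM X.P X.Bd - 8 * X.C.Z else 0) +
      (if Dr X.G d Y v ∧ d.mt.get v = v then
        2 * X.C.Z * lM X.P X.Bd - (2 * X.C.Z * Real.log 2 + X.C.K) else 0)) ≤
      ∑ v ∈ range X.G.n, (X.ψv d v + if v ∈ Y then
        (X.C.Z * wtC d v : ℝ) * (lM X.P X.Bd - Real.log (wtC d v)) else 0) := by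
    refine sum_le_sum fun v hv => ?_
    rw [mem_range] at hv
    by_cases k : Dr X.G d Y v
    · refine le_trans (le_of_eq ?_) (ψv_dr hY k)
      by_cases r : d.mt.get v = v
      · obtain ⟨e1, e2, -, e3⟩ := p.root v k r
        rw [if_neg fun j => j.2 r, if_pos ⟨k, r⟩, ψv, if_pos ⟨hv, e1, e2⟩, e1, e2, e3]
        norm_num
        ring
      · have e := p.unl v k r
        rw [if_pos ⟨k, r⟩, if_neg fun j => r j.2, ψv,
          if_neg fun j : isC X.G d' v => by have := j.2.1; omega, e]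
        norm_num
    · rw [if_neg fun j => k j.1, if_neg fun j => k j.1, ψv_off p h hv k,
        if_neg fun j => k ⟨hv, Or.inl ⟨(hY v j).2.1, (hY v j).2.2.symm ▸ j⟩⟩]
      simp
  have eY : (range X.G.n).filter (· ∈ Y) = Y := by
    ext v; simp only [mem_filter, mem_range]; exact and_iff_right_of_imp fun j => (hY v j).1
  simp only [sum_add_distrib, ← sum_filter, sum_const, nsmul_eq_mul, eY] at key
  have : (X.C.Z : ℝ) * d'.Q.length ≤ X.C.Z * (d.Q.length + q) :=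
    mul_le_mul_of_nonneg_left (by exact_mod_cast hq) (Nat.cast_nonneg _)
  rw [Psi_eq, Psi_eq, p.mt, drU, drR]
  linarith

/-- **the credits after DROP** -/
theorem Psi_drop (p : DrD X.G d d' Y) (h : Cmb X.G d) (hY : ∀ c ∈ Y, isC X.G d c) :
    X.Ψ d' + #(drU X.G d Y) * (2 * X.C.Z * lM X.P X.Bd) +
        #(drR X.G d Y) * (2 * X.C.Z * lM X.P X.Bd) ≤
      X.Ψ d + ∑ c ∈ Y, (X.C.Z * wtC d c : ℝ) * (lM X.P X.Bd - Real.log (wtC d c)) +
        8 * X.C.Z * #(drU X.G d Y) + 6 * X.C.Z * (#(drU X.G d Y) + #(drR X.G d Y)) +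
        #(drR X.G d Y) * (2 * X.C.Z * Real.log 2 + X.C.K) := by
  obtain ⟨q, e, k⟩ := p.q
  have := Psi_drop' p h hY (q := 6 * (#(drU X.G d Y) + #(drR X.G d Y)))
    (by rw [e, List.length_append]; omega)
  push_cast at this
  linarith

end Cx

end Crest.Agent.N325.P2
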