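import Crest.Agent.N325.P2.DropD
import Crest.Agent.N325.Lst.ListR

/-!
# Row 325, part II (helper75): dropping classes, the combinatorial side

The members of the classes `Y` and the inner mates of their bases become unlabelled; an exposed
base stays as a class of its own.
-/

set_option autoImplicit false
open Finset

namespace Crest.Agent.N325.P2

open Crest.Agent.N325.Tw Crest.Agent.N325.Ip Crest.Agent.N325.Mt Crest.Agent.N325.Bf

/-- the vertices touched with the class `c` -/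
def drC (d : Dt) (c : ℕ) : List ℕ :=
  if d.mt.get (d.bs.get c) = d.bs.get c then d.mem.get c else d.mt.get (d.bs.get c) :: d.mem.get c
/-- the touched vertices -/
def drW (d : Dt) (Y : List ℕ) : List ℕ := Y.flatMap (drC d)
/-- the darts out of `W` -/
def drO (G : Gf) (W : List ℕ) : List ℕ := W.flatMap G.adj.get
/-- ids of the arcs at `W`, of the ghosts of the neighbours and of the sinks of their classes -/
def drI (G : Gf) (d : Dt) (W : List ℕ) : List ℕ :=
  (W.flatMap fun v => [5 * v + 1, 5 * v + 2, 5 * v + 3, 5 * v + 4]).reverse ++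
    (drO G W).flatMap fun o => [5 * o, 5 * rv o, 5 * G.hd o + 3, 5 * d.cls.get (G.hd o) + 2]

/-- the new data, given the touched vertices -/
def drD (G : Gf) (d : Dt) (W : List ℕ) : R Dt :=
  flatMapP G.adj.get W >>= fun O => mapP rv O >>= fun O' =>
  flatMapP (fun v => if d.mt.get v = v then G.adj.get v else []) W >>= fun O'' =>
  setAllP (fun v => if d.mt.get v = v then 2 else 0) W d.st >>= fun st =>
  setAllP (fun v => v) W d.cls >>= fun cls =>
  setAllP (fun v => [v]) W d.mem >>= fun mem =>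
  setAllP (fun _ => 1) W d.cw >>= fun cw =>
  setAllP (fun v => v) W d.bs >>= fun bs =>
  setAllP (fun _ => false) O d.pr >>= fun p1 => setAllP (fun _ => false) O' p1 >>= fun p2 =>
  revAppL O' d.Q >>= fun q1 => revAppL O'' q1 >>= fun q2 =>
  pure ⟨st, cls, mem, cw, bs, d.mt, p2, q2⟩

/-- the ids -/
def drL (G : Gf) (d : Dt) (W : List ℕ) : R (List ℕ) :=
  flatMapL (fun v => nat (5 * v) >>= fun i => pure [i + 1, i + 2, i + 3, i + 4]) W >>= fun L1 =>
  flatMapP G.adj.get W >>= fun O =>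
  flatMapL (fun o => nat (5 * o) >>= fun a => nat (5 * rv o) >>= fun b =>
    nat (5 * G.hd o) >>= fun c => nat (5 * d.cls.get (G.hd o)) >>= fun e =>
    pure [a, b, c + 3, e + 2]) O >>= fun L2 => revAppL L1 L2

/-- **drop** the classes `Y`: new data, touched vertices, touched ids -/
def drp (G : Gf) (d : Dt) (Y : List ℕ) : R (Dt × List ℕ × List ℕ) :=
  flatMapP (drC d) Y >>= fun W => drD G d W >>= fun d' => drL G d W >>= fun L => pure (d', W, L)

/-- description of the new data -/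
structure Drp (G : Gf) (d : Dt) (W : List ℕ) (d' : Dt) : Prop where
  st : ∀ v, d'.st.get v = if v ∈ W then (if d.mt.get v = v then 2 else 0) else d.st.get v
  cls : ∀ v, d'.cls.get v = if v ∈ W then v else d.cls.get v
  mem : ∀ v, d'.mem.get v = if v ∈ W then [v] else d.mem.get v
  cw : ∀ v, d'.cw.get v = if v ∈ W then 1 else d.cw.get v
  bs : ∀ v, d'.bs.get v = if v ∈ W then v else d.bs.get v
  mt : d'.mt = d.mt
  pr : ∀ o < G.nd, d'.pr.get o = true ↔ d.pr.get o = true ∧ G.tl.get o ∉ W ∧ G.hd o ∉ W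
  Q : ∃ n, d'.Q = n ++ d.Q ∧ (∀ o ∈ n, o < G.nd) ∧
    n.length ≤ 3 * W.length + 3 * W.countP (fun v => d.mt.get v = v) ∧
    (∀ o < G.nd, G.hd o ∈ W → o ∈ n) ∧
    ∀ o < G.nd, G.tl.get o ∈ W → d.mt.get (G.tl.get o) = G.tl.get o → o ∈ n

/-- `W` is a union of classes together with the inner mates of their bases -/
structure Wk (G : Gf) (d : Dt) (W : List ℕ) : Prop where
  lt : ∀ v ∈ W, v < G.n ∧ d.st.get v ≠ 0
  out : ∀ v < G.n, d.st.get v = 2 → (v ∈ W ↔ d.cls.get v ∈ W)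
  inn : ∀ v < G.n, d.st.get v = 1 → (v ∈ W ↔ d.mt.get v ∈ W)

variable {g : Gl} {G : Gf} {d d' : Dt} {Y W : List ℕ}

theorem mem_drC (h : Cmb G d) {c v : ℕ} (hc : isC G d c) : v ∈ drC d c ↔
    v < G.n ∧ (d.st.get v = 2 ∧ d.cls.get v = c ∨
      d.st.get v = 1 ∧ d.cls.get (d.mt.get v) = c) := by
  obtain ⟨b1, b2⟩ := h.bs c hc
  obtain ⟨b3, b4, b5⟩ := (h.mem c hc _).1 b1
  have key : v < G.n → d.st.get v = 1 → d.cls.get (d.mt.get v) = c →
      d.mt.get (d.bs.get c) = v := fun h1 h2 h3 => by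
    rw [← h3, (h.inn v h1 h2).2, h.mt_mt h1]
  unfold drC
  split_ifs with e
  · rw [h.mem c hc]
    refine ⟨fun k => ⟨k.1, Or.inl k.2⟩, fun k => ⟨k.1, k.2.resolve_right fun j => ?_⟩⟩
    have := key k.1 j.1 j.2
    rw [e] at this
    rw [this] at b4; omega
  · rw [List.mem_cons, h.mem c hc]
    constructor
    · rintro (rfl | k)
      · exact ⟨h.mt_lt b3, Or.inr ⟨b2.resolve_left e, by rw [h.mt_mt b3, b5]⟩⟩
      · exact ⟨k.1, Or.inl k.2⟩
    · rintro ⟨k1, k | k⟩
      · exact Or.inr ⟨k1, k⟩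
      · exact Or.inl (key k1 k.1 k.2).symm

theorem mem_drW (h : Cmb G d) (hY : ∀ c ∈ Y, isC G d c) {v : ℕ} : v ∈ drW d Y ↔
    v < G.n ∧ (d.st.get v = 2 ∧ d.cls.get v ∈ Y ∨
      d.st.get v = 1 ∧ d.cls.get (d.mt.get v) ∈ Y) := by
  rw [drW, List.mem_flatMap]
  constructor
  · rintro ⟨c, hc, k⟩
    obtain ⟨k1, k | k⟩ := (mem_drC h (hY c hc)).1 k
    · exact ⟨k1, Or.inl ⟨k.1, k.2 ▸ hc⟩⟩
    · exact ⟨k1, Or.inr ⟨k.1, k.2 ▸ hc⟩⟩
  · rintro ⟨k1, k | k⟩
    · exact ⟨_, k.2, (mem_drC h (hY _ k.2)).2 ⟨k1, Or.inl ⟨k.1, rfl⟩⟩⟩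
    · exact ⟨_, k.2, (mem_drC h (hY _ k.2)).2 ⟨k1, Or.inr ⟨k.1, rfl⟩⟩⟩

theorem nodup_drC (h : Cmb G d) {c : ℕ} (hc : isC G d c) : (drC d c).Nodup := by
  unfold drC
  split_ifs with e
  · exact h.nodup c hc
  · refine List.nodup_cons.2 ⟨fun k => ?_, h.nodup c hc⟩
    have := ((h.mem c hc _).1 k).2.1
    have := (h.bs c hc).2.resolve_left e
    omega

theorem nodup_drW (h : Cmb G d) (hY : ∀ c ∈ Y, isC G d c) (hn : Y.Nodup) : (drW d Y).Nodup := by
  refine List.nodup_flatMap.2 ⟨fun c hc => nodup_drC h (hY c hc),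
    List.Pairwise.imp_of_mem ?_ hn⟩
  intro a b ha hb ne v k1 k2
  obtain ⟨-, k1⟩ := (mem_drC h (hY a ha)).1 k1
  obtain ⟨-, k2⟩ := (mem_drC h (hY b hb)).1 k2
  omega

/-- the classes inside the touched set -/
theorem isC_drW (h : Cmb G d) (hY : ∀ c ∈ Y, isC G d c) {c : ℕ} :
    c ∈ drW d Y ∧ isC G d c ↔ c ∈ Y := by
  rw [mem_drW h hY]
  constructor
  · rintro ⟨⟨-, k | k⟩, k1, k2, k3⟩
    · exact k3 ▸ k.2
    · omega
  · intro k
    obtain ⟨k1, k2, k3⟩ := hY c k
    exact ⟨⟨k1, Or.inl ⟨k2, k3.symm ▸ k⟩⟩, k1, k2, k3⟩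

theorem wk_drW (h : Cmb G d) (hY : ∀ c ∈ Y, isC G d c) : Wk G d (drW d Y) where
  lt v hv := by
    obtain ⟨k1, k | k⟩ := (mem_drW h hY).1 hv <;> exact ⟨k1, by omega⟩
  out v hv e := by
    have := h.out v hv e
    rw [← and_iff_left this (a := d.cls.get v ∈ drW d Y), isC_drW h hY, mem_drW h hY]
    exact ⟨fun k => k.2.elim (·.2) fun j => by omega, fun k => ⟨hv, Or.inl ⟨e, k⟩⟩⟩
  inn v hv e := by
    have := (h.inn v hv e).1
    rw [mem_drW h hY, mem_drW h hY]
    exact ⟨fun k => ⟨h.mt_lt hv, Or.inl ⟨this, k.2.elim (fun j => by omega) (·.2)⟩⟩,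
      fun k => ⟨hv, Or.inr ⟨e, k.2.elim (·.2) fun j => by omega⟩⟩⟩

theorem Wk.mt_mem (w : Wk G d W) (h : Cmb G d) {v : ℕ} (hv : v ∈ W) : d.mt.get v ∈ W := by
  obtain ⟨h1, h2⟩ := w.lt v hv
  have := h.st_le v h1
  by_cases e : d.st.get v = 1
  · exact (w.inn v h1 e).1 hv
  have e2 : d.st.get v = 2 := by omega
  have hc := h.out v h1 e2
  by_cases b : v = d.bs.get (d.cls.get v)
  · rcases (h.bs _ hc).2 with k | k <;> rw [← b] at k
    · rwa [k]
    · exact (w.inn _ (h.mt_lt h1) k).2 (by rwa [h.mt_mt h1])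
  · obtain ⟨k1, k2, k3⟩ := (h.mem _ hc _).1
      (h.inside _ hc v ((h.mem _ hc v).2 ⟨h1, e2, rfl⟩) b).1
    exact (w.out _ k1 k2).2 (k3 ▸ (w.out v h1 e2).1 hv)

theorem Wk.mt_not (w : Wk G d W) (h : Cmb G d) {v : ℕ} (h1 : v < G.n) (hv : v ∉ W) :
    d.mt.get v ∉ W := fun k => hv (h.mt_mt h1 ▸ w.mt_mem h k)

theorem Drp.isC_iff (p : Drp G d W d') (w : Wk G d W) {c : ℕ} :
    isC G d' c ↔ (c ∈ W ∧ d.mt.get c = c) ∨ (c ∉ W ∧ isC G d c) := by
  unfold isC
  rw [p.st, p.cls]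
  by_cases e : c ∈ W
  · have := (w.lt c e).1
    by_cases r : d.mt.get c = c <;> simp [e, r, this]
  · simp [e]

theorem Drp.cmb (p : Drp G d W d') (w : Wk G d W) (h : Cmb G d) : Cmb G d' where
  isM := p.mt ▸ h.isM
  st_le v hv := by
    have := h.st_le v hv
    rw [p.st]; split_ifs <;> omega
  cls_ne v hv e := by
    rw [p.st] at e; rw [p.cls]
    split_ifs at e ⊢ with k
    exacts [rfl, rfl, h.cls_ne v hv e]
  unl v hv e := by
    rw [p.st] at e; rw [p.st, p.mt]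
    by_cases k : v ∈ W
    · have r : d.mt.get v ≠ v := fun r => by simp [k, r] at e
      rw [if_pos (w.mt_mem h k), h.mt_mt hv, if_neg r.symm]
      exact ⟨rfl, r⟩
    · rw [if_neg k] at e
      rw [if_neg (w.mt_not h hv k)]
      exact h.unl v hv e
  inn v hv e := by
    rw [p.st] at e
    have k : v ∉ W := fun k => by rw [if_pos k] at e; split_ifs at e; omega
    rw [if_neg k] at e
    have k2 := w.mt_not h hv k
    obtain ⟨i1, i2⟩ := h.inn v hv e
    rw [p.st, p.mt, p.cls, if_neg k2, if_neg k2, p.bs,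
      if_neg fun j => k2 ((w.out _ (h.mt_lt hv) i1).2 j)]
    exact ⟨i1, i2⟩
  out v hv e := by
    rw [p.st] at e; rw [p.cls, p.isC_iff w]
    by_cases k : v ∈ W
    · rw [if_pos k] at e ⊢
      exact Or.inl ⟨k, by by_contra r; simp [r] at e⟩
    · rw [if_neg k] at e ⊢
      exact Or.inr ⟨fun j => k ((w.out v hv e).2 j), h.out v hv e⟩
  nodup c hc := by
    rw [p.mem]
    rcases (p.isC_iff w).1 hc with k | k
    · simp [k.1]
    · rw [if_neg k.1]; exact h.nodup c k.2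
  mem c hc v := by
    rw [p.mem, p.st, p.cls]
    rcases (p.isC_iff w).1 hc with k | k
    · rw [if_pos k.1, List.mem_singleton]
      constructor
      · rintro rfl
        exact ⟨(w.lt _ k.1).1, by simp [k.1, k.2], by simp [k.1]⟩
      · rintro ⟨k1, k2, k3⟩
        by_cases j : v ∈ W
        · rwa [if_pos j] at k3
        · rw [if_neg j] at k2 k3
          exact absurd ((w.out v k1 k2).2 (k3 ▸ k.1)) j
    · rw [if_neg k.1, h.mem c k.2]
      refine and_congr_right fun k1 => ?_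
      by_cases j : v ∈ W
      · rw [if_pos j, if_pos j]
        exact ⟨fun i => absurd (i.2 ▸ (w.out v k1 i.1).1 j) k.1, fun i => absurd (i.2 ▸ j) k.1⟩
      · rw [if_neg j, if_neg j]
  cw c hc := by
    rw [p.mem, p.cw]
    rcases (p.isC_iff w).1 hc with k | k
    · simp [k.1]
    · rw [if_neg k.1, if_neg k.1]; exact h.cw c k.2
  bs c hc := by
    rw [p.mem, p.bs, p.mt]
    rcases (p.isC_iff w).1 hc with k | k
    · simp [k.1, k.2]
    · rw [if_neg k.1, if_neg k.1]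
      obtain ⟨b1, b2⟩ := h.bs c k.2
      obtain ⟨b3, b4, b5⟩ := (h.mem c k.2 _).1 b1
      rw [p.st, if_neg (w.mt_not h b3 fun j => k.1 (b5 ▸ (w.out _ b3 b4).1 j))]
      exact ⟨b1, b2⟩
  inside c hc v hv ne := by
    rw [p.mem] at hv ⊢; rw [p.bs] at ne; rw [p.mt]
    rcases (p.isC_iff w).1 hc with k | k
    · rw [if_pos k.1] at hv ne
      exact absurd (List.mem_singleton.1 hv) ne
    · rw [if_neg k.1] at hv ne ⊢
      exact h.inside c k.2 v hv ne
  fc c hc := by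
    rw [p.mem]
    rcases (p.isC_iff w).1 hc with k | k
    · rw [if_pos k.1]; simpa using FC.single c
    · rw [if_neg k.1]; exact h.fc c k.2
  pr o ho e := by
    obtain ⟨k1, k2, k3⟩ := (p.pr o ho).1 e
    rw [p.st, p.st, if_neg k2, if_neg k3, p.mt]
    exact h.pr o ho k1

theorem Drp.qok (p : Drp G d W d') (h : QOk G d) : QOk G d' := by
  obtain ⟨n, e, n1, -, n2, n3⟩ := p.Q
  refine ⟨fun o ho => ?_, fun o ho => ?_⟩
  · rw [e] at ho
    exact (List.mem_append.1 ho).elim (n1 o) (h.lt o)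
  rw [e]
  by_cases k1 : G.hd o ∈ W
  · exact Or.inl (List.mem_append_left _ (n2 o ho k1))
  by_cases k2 : G.tl.get o ∈ W
  · by_cases r : d.mt.get (G.tl.get o) = G.tl.get o
    · exact Or.inl (List.mem_append_left _ (n3 o ho k2 r))
    · exact Or.inr (Or.inl (Or.inl (by rw [p.st]; simp [k2, r])))
  unfold Done
  rw [p.st, p.st, p.cls, p.cls, p.mt, p.pr o ho]
  simp only [if_neg k1, if_neg k2]
  rcases h.cmp o ho with k | (k | k | k) | k
  · exact Or.inl (List.mem_append_right _ k)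
  · exact Or.inr (Or.inl (Or.inl k))
  · exact Or.inr (Or.inl (Or.inr (Or.inl ⟨k, k2, k1⟩)))
  · exact Or.inr (Or.inl (Or.inr (Or.inr k)))
  · exact Or.inr (Or.inr ⟨k.1, List.mem_append_right _ k.2⟩)

theorem mem_drO (hG : G.WF) (hW : ∀ v ∈ W, v < G.n) {o : ℕ} :
    o ∈ drO G W ↔ o < G.nd ∧ G.tl.get o ∈ W := by
  rw [drO, List.mem_flatMap]
  exact ⟨fun ⟨v, hv, k⟩ => have := (hG.mem v (hW v hv) o).1 k; ⟨this.1, this.2 ▸ hv⟩,
    fun k => ⟨_, k.2, (hG.mem _ (hW _ k.2) o).2 ⟨k.1, rfl⟩⟩⟩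

theorem length_drO (hG : G.WF) (W : List ℕ) : (drO G W).length ≤ 3 * W.length := by
  induction W with
  | nil => simp [drO]
  | cons v W ih =>
    have := hG.deg v
    simp only [drO, List.flatMap_cons, List.length_append, List.length_cons] at ih ⊢
    omega

theorem mem_drI (hG : G.WF) (hW : ∀ v ∈ W, v < G.n) {e : ℕ} : e ∈ drI G d W ↔
    (e % 5 ≠ 0 ∧ e / 5 ∈ W) ∨ ∃ o < G.nd, G.tl.get o ∈ W ∧
      (e = 5 * o ∨ e = 5 * rv o ∨ e = 5 * G.hd o + 3 ∨ e = 5 * d.cls.get (G.hd o) + 2) := by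
  simp only [drI, List.mem_append, List.mem_reverse, List.mem_flatMap, List.mem_cons,
    List.not_mem_nil, or_false]
  refine or_congr ⟨?_, fun k => ⟨_, k.2, by omega⟩⟩ ⟨fun ⟨o, k1, k2⟩ => ?_, fun ⟨o, k1, k2, k3⟩ => ?_⟩
  · rintro ⟨v, hv, k⟩
    exact ⟨by omega, (show v = e / 5 by omega) ▸ hv⟩
  · have := (mem_drO hG hW).1 k1
    exact ⟨o, this.1, this.2, k2⟩
  · exact ⟨o, (mem_drO hG hW).2 ⟨k1, k2⟩, k3⟩

theorem length_drI (hG : G.WF) (d : Dt) (W : List ℕ) : (drI G d W).length ≤ 16 * W.length := by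
  have := length_drO hG W
  simp only [drI, List.length_append, List.length_reverse, List.length_flatMap, List.length_cons,
    List.length_nil, List.map_const', List.sum_replicate, smul_eq_mul]
  omega

/-- nothing changes off the touched ids -/
theorem Drp.off (p : Drp G d W d') (w : Wk G d W) (hG : G.WF) (h : Cmb G d) (D : ℕ) (C : Cf)
    {e : ℕ} (he : e ∉ drI G d W) :
    (has G d' e ↔ has G d e) ∧ (has G d e → arcOf D C G d' e = arcOf D C G d e) := by
  rw [mem_drI hG fun v hv => (w.lt v hv).1, not_or] at he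
  obtain ⟨h1, h2⟩ := he
  unfold has arcOf
  by_cases e0 : e % 5 = 0
  · simp only [if_pos e0]
    by_cases lt : e / 5 < G.nd
    · have k1 : G.tl.get (e / 5) ∉ W := fun k => h2 ⟨_, lt, k, Or.inl (by omega)⟩
      have k2 : G.hd (e / 5) ∉ W := fun k =>
        h2 ⟨_, hG.rv_lt lt, k, Or.inr (Or.inl (by rw [rv_rv]; omega))⟩
      rw [p.pr _ lt]
      exact ⟨by simp [k1, k2], fun _ => by rw [aP, aP, p.cls, if_neg k1]⟩
    · simp [lt]
  have k : e / 5 ∉ W := fun k => h1 ⟨e0, k⟩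
  simp only [if_neg e0]
  rw [p.isC_iff w, p.st, p.cw, p.mt, if_neg k, if_neg k]
  refine ⟨by simp [k], ?_⟩
  split_ifs with e1
  · intro j
    rw [aE, aE, p.mt, p.cls, if_neg (w.mt_not h j.1 k)]
  all_goals exact fun _ => rfl

theorem sp_drD (hG : G.WF) (hW : ∀ v ∈ W, v < G.n) :
    Sp g (drD G d W) fun r t => Drp G d W r ∧ t ≤ 39 * W.length + 15 := by
  have l1 := length_drO hG W
  have l2 : (W.flatMap fun v => if d.mt.get v = v then G.adj.get v else []).length ≤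
      3 * W.countP (fun v => d.mt.get v = v) := by
    clear hW l1
    induction W with
    | nil => simp
    | cons v W ih =>
      have := hG.deg v
      rw [List.flatMap_cons, List.length_append, List.countP_cons]
      by_cases r : d.mt.get v = v
      · rw [if_pos r, if_pos (decide_eq_true r)]; omega
      · rw [if_neg r, List.length_nil]; omega
  have l3 := List.countP_le_length (p := fun v => decide (d.mt.get v = v)) (l := W)
  refine (sp_flatMapP _ W).bind fun O t1 ⟨e1, k1⟩ => (sp_mapP rv O).bind fun O' t2 ⟨e2, k2⟩ =>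
    (sp_flatMapP _ W).bind fun O'' t3 ⟨e3, k3⟩ => (sp_setAllP _ W _).bind fun st t4 ⟨e4, k4⟩ =>
    (sp_setAllP _ W _).bind fun cls t5 ⟨e5, k5⟩ => (sp_setAllP _ W _).bind fun mem t6 ⟨e6, k6⟩ =>
    (sp_setAllP _ W _).bind fun cw t7 ⟨e7, k7⟩ => (sp_setAllP _ W _).bind fun bs t8 ⟨e8, k8⟩ =>
    (sp_setAllP _ O _).bind fun p1 t9 ⟨e9, k9⟩ => (sp_setAllP _ O' _).bind fun p2 t10 ⟨e10, k10⟩ =>
    (sp_revAppL O' _).bind fun q1 t11 ⟨e11, k11⟩ => (sp_revAppL O'' _).bind fun q2 t12 ⟨e12, k12⟩ =>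
    sp_pure.2 ?_
  have mO : ∀ o, o ∈ O ↔ o < G.nd ∧ G.tl.get o ∈ W := fun o => e1 ▸ mem_drO hG hW
  have mO' : ∀ o, o ∈ O' ↔ o < G.nd ∧ G.hd o ∈ W := fun o => by
    rw [e2, List.mem_map]
    exact ⟨fun ⟨x, k, j⟩ => j ▸ ⟨hG.rv_lt ((mO x).1 k).1, by rw [Gf.hd_rv]; exact ((mO x).1 k).2⟩,
      fun k => ⟨rv o, (mO _).2 ⟨hG.rv_lt k.1, k.2⟩, rv_rv o⟩⟩
  have lO : O.length ≤ 3 * W.length := e1 ▸ l1
  have lO' : O'.length = O.length := by rw [e2, List.length_map]
  rw [← e3] at l2 k3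
  rw [← e1] at k1
  refine ⟨⟨e4, e5, e6, e7, e8, rfl, fun o ho => ?_, O''.reverse ++ O'.reverse,
    by rw [e12, e11, List.append_assoc], fun o ho => ?_, by simp; omega, fun o ho k => ?_,
    fun o ho k r => ?_⟩, by omega⟩
  · show p2.get o = true ↔ _
    rw [e10, e9]
    by_cases j1 : G.tl.get o ∈ W <;> by_cases j2 : G.hd o ∈ W <;> simp [mO, mO', j1, j2, ho]
  · rcases List.mem_append.1 ho with k | k <;> rw [List.mem_reverse] at k
    · rw [e3, List.mem_flatMap] at k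
      obtain ⟨v, hv, k⟩ := k
      split_ifs at k
      · exact ((hG.mem v (hW v hv) o).1 k).1
      · simp at k
    · exact ((mO' o).1 k).1
  · exact List.mem_append_right _ (List.mem_reverse.2 ((mO' o).2 ⟨ho, k⟩))
  · refine List.mem_append_left _ (List.mem_reverse.2 ?_)
    rw [e3, List.mem_flatMap]
    exact ⟨_, k, by rw [if_pos r]; exact (hG.mem _ (hW _ k) o).2 ⟨ho, rfl⟩⟩

theorem sp_drL (hG : G.WF) (h : Cmb G d) (hW : ∀ v ∈ W, v < G.n) (hg : 15 * G.n ≤ g.X) :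
    Sp g (drL G d W) fun r t => r = drI G d W ∧ t ≤ 56 * W.length + 7 := by
  have l1 := length_drO hG W
  have := hG.nd_le
  refine (sp_flatMapL (fun v => [5 * v + 1, 5 * v + 2, 5 * v + 3, 5 * v + 4]) (fun _ => 0)
    fun v hv => ?_).bind fun L1 t1 ⟨e1, k1⟩ => (sp_flatMapP _ W).bind fun O t2 ⟨e2, k2⟩ =>
    (sp_flatMapL (fun o => [5 * o, 5 * rv o, 5 * G.hd o + 3, 5 * d.cls.get (G.hd o) + 2])
      (fun _ => 0) fun o ho => ?_).bind fun L2 t3 ⟨e3, k3⟩ =>
    (sp_revAppL L1 L2).mono fun r t ⟨e4, k4⟩ => ⟨by rw [e4, e3, e2, e1]; rfl, ?_⟩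
  · have := hW v hv
    exact ⟨by omega, rfl, le_rfl⟩
  · have k := ((mem_drO hG hW).1 (e2 ▸ ho)).1
    have := hG.rv_lt k
    have := hG.hd_lt k
    have := h.cls_lt this
    exact ⟨by omega, by omega, by omega, by omega, rfl, le_rfl⟩
  · rw [e1] at k4
    rw [← e2] at k2
    have : O.length ≤ 3 * W.length := e2 ▸ l1
    simp only [List.length_flatMap, List.length_cons, List.length_nil, List.map_const',
      List.sum_replicate, smul_eq_mul] at k1 k3 k4
    omega

theorem length_drW (h : Cmb G d) (hY : ∀ c ∈ Y, isC G d c) :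
    (drW d Y).length + (drW d Y).countP (fun v => d.mt.get v = v) = On.wsum (wtC d) Y := by
  induction Y with
  | nil => rfl
  | cons c Y ih =>
    have hc := hY c List.mem_cons_self
    have ih := ih fun x hx => hY x (List.mem_cons_of_mem _ hx)
    obtain ⟨b1, b2⟩ := h.bs c hc
    have c1 : ∀ v ∈ d.mem.get c, d.mt.get v = v → v = d.bs.get c := fun v hv e => by
      by_contra k; exact (h.inside c hc v hv k).2 e
    have : (drC d c).length + (drC d c).countP (fun v => d.mt.get v = v) = wtC d c := by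
      rw [wtC, h.cw c hc, drC]
      split_ifs with e
      · rw [← List.count_eq_one_of_mem (h.nodup c hc) b1, List.count]
        congr 1
        refine List.countP_congr fun v hv => ?_
        simp only [decide_eq_true_eq, beq_iff_eq]
        exact ⟨c1 v hv, fun k => k ▸ e⟩
      · rw [List.countP_eq_zero.2, List.length_cons]
        intro v hv k
        rw [decide_eq_true_eq] at k
        rcases List.mem_cons.1 hv with rfl | hv
        · rw [h.mt_mt ((h.mem c hc _).1 b1).1] at k; exact e k.symm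
        · exact e (c1 v hv k ▸ k)
    simp only [drW, On.wsum, List.flatMap_cons, List.length_append, List.countP_append,
      List.map_cons, List.sum_cons] at ih ⊢
    omega

theorem dr_iff (h : Cmb G d) (hY : ∀ c ∈ Y, isC G d c) {v : ℕ} :
    Dr G d Y.toFinset v ↔ v ∈ drW d Y := by
  rw [mem_drW h hY, Dr, List.mem_toFinset, List.mem_toFinset]

theorem card_drR (h : Cmb G d) (hY : ∀ c ∈ Y, isC G d c) (hn : Y.Nodup) :
    #(drR G d Y.toFinset) = (drW d Y).countP (fun v => d.mt.get v = v) := by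
  rw [List.countP_eq_length_filter, ← List.toFinset_card_of_nodup ((nodup_drW h hY hn).filter _)]
  congr 1
  ext v
  simp only [drR, mem_filter, mem_range, dr_iff h hY, List.mem_toFinset, List.mem_filter,
    decide_eq_true_eq]
  exact and_iff_right_of_imp fun k => ((mem_drW h hY).1 k.1).1

theorem card_drUR (h : Cmb G d) (hY : ∀ c ∈ Y, isC G d c) (hn : Y.Nodup) :
    #(drU G d Y.toFinset) + #(drR G d Y.toFinset) = (drW d Y).length := by
  rw [← List.toFinset_card_of_nodup (nodup_drW h hY hn), ← card_union_of_disjoint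
    (disjoint_left.2 fun v a b => (mem_filter.1 a).2.2 (mem_filter.1 b).2.2)]
  congr 1
  ext v
  simp only [drU, drR, mem_union, mem_filter, mem_range, dr_iff h hY, List.mem_toFinset]
  exact ⟨fun k => k.elim (·.2.1) (·.2.1), fun k => (em (d.mt.get v = v)).symm.imp
    (fun j => ⟨((mem_drW h hY).1 k).1, k, j⟩) fun j => ⟨((mem_drW h hY).1 k).1, k, j⟩⟩

/-- `#U + 2 #R` is the weight of the dropped classes -/
theorem card_dr (h : Cmb G d) (hY : ∀ c ∈ Y, isC G d c) (hn : Y.Nodup) :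
    #(drU G d Y.toFinset) + 2 * #(drR G d Y.toFinset) = On.wsum (wtC d) Y := by
  have := card_drUR h hY hn
  have := card_drR h hY hn
  have := length_drW h hY
  omega

theorem Drp.drD (p : Drp G d (drW d Y) d') (h : Cmb G d) (hq : QOk G d)
    (hY : ∀ c ∈ Y, isC G d c) (hn : Y.Nodup) : DrD G d d' Y.toFinset where
  mt := p.mt
  off v _ k := by rw [dr_iff h hY] at k; rw [p.st, p.cls, if_neg k, if_neg k]; exact ⟨rfl, rfl⟩
  cl c hc k := by
    rw [p.cw, if_neg fun j => k (List.mem_toFinset.2 ((isC_drW h hY).1 ⟨j, hc⟩))]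
  unl v k r := by rw [dr_iff h hY] at k; rw [p.st, if_pos k, if_neg r]
  root v k r := by
    rw [dr_iff h hY] at k
    rw [p.st, p.cls, p.mem, p.cw, if_pos k, if_pos k, if_pos k, if_pos k, if_pos r]
    exact ⟨rfl, rfl, rfl, rfl⟩
  pr o ho := by rw [p.pr o ho, dr_iff h hY, dr_iff h hY]
  q := by
    obtain ⟨n, e, -, k, -⟩ := p.Q
    have := List.countP_le_length (p := fun v => decide (d.mt.get v = v)) (l := drW d Y)
    exact ⟨n, e, by rw [card_drUR h hY hn]; omega⟩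
  cmb := p.cmb (wk_drW h hY) h
  qok := p.qok hq

/-- only the new data -/
def drp0 (G : Gf) (d : Dt) (Y : List ℕ) : R (Dt × List ℕ) :=
  flatMapP (drC d) Y >>= fun W => drD G d W >>= fun d' => pure (d', W)

theorem length_le_wsum (d : Dt) (Y : List ℕ) : Y.length ≤ On.wsum (wtC d) Y := by
  induction Y with
  | nil => exact Nat.zero_le _
  | cons c Y ih => simp only [On.wsum, List.length_cons, List.map_cons, List.sum_cons, wtC] at ih ⊢; omega

theorem sp_drp0 (hG : G.WF) (h : Cmb G d) (hq : QOk G d) (hY : ∀ c ∈ Y, isC G d c)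
    (hn : Y.Nodup) : Sp g (drp0 G d Y) fun r t => r.2 = drW d Y ∧ Drp G d r.2 r.1 ∧
      DrD G d r.1 Y.toFinset ∧ t ≤ 43 * On.wsum (wtC d) Y + 17 := by
  have := length_drW h hY
  have := length_le_wsum d Y
  refine (sp_flatMapP _ Y).bind fun W t1 ⟨e1, k1⟩ => ?_
  obtain rfl : W = drW d Y := e1
  refine (sp_drD hG fun v hv => ((mem_drW h hY).1 hv).1).bind fun d' t2 ⟨e2, k2⟩ =>
    sp_pure.2 ⟨rfl, e2, e2.drD h hq hY hn, ?_⟩
  change t1 ≤ 2 * (drW d Y).length + _ + _ at k1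
  omega

/-- **DROP, combinatorial side** -/
theorem sp_drp (hG : G.WF) (h : Cmb G d) (hq : QOk G d) (hY : ∀ c ∈ Y, isC G d c)
    (hn : Y.Nodup) (hg : 15 * G.n ≤ g.X) :
    Sp g (drp G d Y) fun r t => r.2.1 = drW d Y ∧ r.2.2 = drI G d r.2.1 ∧ Drp G d r.2.1 r.1 ∧
      DrD G d r.1 Y.toFinset ∧ t ≤ 99 * On.wsum (wtC d) Y + 24 := by
  have := length_drW h hY
  have := length_le_wsum d Y
  refine (sp_flatMapP _ Y).bind fun W t1 ⟨e1, k1⟩ => ?_
  obtain rfl : W = drW d Y := e1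
  have hW : ∀ v ∈ drW d Y, v < G.n := fun v hv => ((mem_drW h hY).1 hv).1
  refine (sp_drD hG hW).bind fun d' t2 ⟨e2, k2⟩ => (sp_drL hG h hW hg).bind fun L t3 ⟨e3, k3⟩ =>
    sp_pure.2 ⟨rfl, e3, e2, e2.drD h hq hY hn, ?_⟩
  change t1 ≤ 2 * (drW d Y).length + _ + _ at k1
  omega

end Crest.Agent.N325.P2
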