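import Crest.Agent.N325.P2.Defs
import Crest.Agent.N325.Op.Prog
import Crest.Agent.N325.Ip.Pot

/-!
# Row 325, part II (helper19): common tools of the events
-/

set_option autoImplicit false
open Finset

namespace Crest.Agent.N325.P2

open Crest.Agent.N325.Tw Crest.Agent.N325.Ip Crest.Agent.N325.Mt Crest.Agent.N325.Bf
  Crest.Agent.N325.Op

section ids
variable {D : ℕ} {C : Cf} {G : Gf} {d : Dt} {v : ℕ}

theorem id_cases (e : ℕ) : ∃ v, e = 5 * v ∨ e = 5 * v + 1 ∨ e = 5 * v + 2 ∨ e = 5 * v + 3 ∨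
    e = 5 * v + 4 := ⟨e / 5, by omega⟩
theorem has0 : has G d (5 * v) ↔ v < G.nd ∧ d.pr.get v = true := by simp [has]
theorem has1 : has G d (5 * v + 1) ↔ v < G.n ∧ (d.st.get v = 1 ∨ d.mt.get v = v) := by
  simp [has, show (5 * v + 1) % 5 = 1 by omega, show (5 * v + 1) / 5 = v by omega]
theorem has2 : has G d (5 * v + 2) ↔ isC G d v := by
  simp [has, show (5 * v + 2) % 5 = 2 by omega, show (5 * v + 2) / 5 = v by omega]
theorem has3 : has G d (5 * v + 3) ↔ v < G.n ∧ d.st.get v ≠ 2 := by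
  simp [has, show (5 * v + 3) % 5 = 3 by omega, show (5 * v + 3) / 5 = v by omega]
theorem has4 : has G d (5 * v + 4) ↔ v < G.n ∧ d.st.get v = 0 := by
  simp [has, show (5 * v + 4) % 5 = 4 by omega, show (5 * v + 4) / 5 = v by omega]
theorem arcOf0 : arcOf D C G d (5 * v) = aP C G d v := by simp [arcOf]
theorem arcOf1 : arcOf D C G d (5 * v + 1) = aE C d v := by
  simp [arcOf, show (5 * v + 1) % 5 = 1 by omega, show (5 * v + 1) / 5 = v by omega]
theorem arcOf2 : arcOf D C G d (5 * v + 2) = snkA C v (d.cw.get v + 1) := by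
  simp [arcOf, show (5 * v + 2) % 5 = 2 by omega, show (5 * v + 2) / 5 = v by omega]
theorem arcOf3 : arcOf D C G d (5 * v + 3) = aG C v := by
  simp [arcOf, show (5 * v + 3) % 5 = 3 by omega, show (5 * v + 3) / 5 = v by omega]
theorem arcOf4 : arcOf D C G d (5 * v + 4) = aU D C v := by
  simp [arcOf, show (5 * v + 4) % 5 = 4 by omega, show (5 * v + 4) / 5 = v by omega]
theorem arcOf_o1 (e : ℕ) : (arcOf D C G d e).o1 = 0 := by
  unfold arcOf; split_ifs <;> rfl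

theorem Gf.WF.rv_lt (h : G.WF) {o : ℕ} (k : o < G.nd) : rv o < G.nd := by
  have := h.even; unfold rv; split_ifs <;> omega
theorem Gf.WF.hd_lt (h : G.WF) {o : ℕ} (k : o < G.nd) : G.hd o < G.n := h.tl_lt _ (h.rv_lt k)
@[simp] theorem Gf.hd_rv (o : ℕ) : G.hd (rv o) = G.tl.get o := by rw [Gf.hd, rv_rv]
@[simp] theorem Gf.tl_rv (o : ℕ) : G.tl.get (rv o) = G.hd o := rfl
theorem Gf.WF.symm (h : G.WF) (a b : ℕ) (k : G.E a b) : G.E b a := by
  obtain ⟨o, a, rfl, rfl⟩ := k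
  exact ⟨rv o, h.rv_lt a, rfl, Gf.hd_rv o⟩
theorem Cmb.cls_lt (h : Cmb G d) (k : v < G.n) : d.cls.get v < G.n := by
  by_cases c : d.st.get v = 2
  · exact (h.out v k c).1
  · rw [h.cls_ne v k c]; exact k
theorem Cmb.mt_lt (h : Cmb G d) (k : v < G.n) : d.mt.get v < G.n :=
  mem_range.1 (h.isM.mem (mem_range.2 k))
theorem Cmb.mt_mt (h : Cmb G d) (k : v < G.n) : d.mt.get (d.mt.get v) = v :=
  h.isM.inv (mem_range.2 k)
theorem Cmb.cw_le (h : Cmb G d) (k : isC G d v) : 1 ≤ d.cw.get v ∧ d.cw.get v ≤ G.n := by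
  rw [h.cw v k]
  refine ⟨List.length_pos_of_mem (h.bs v k).1, ?_⟩
  rw [← List.toFinset_card_of_nodup (h.nodup v k)]
  exact (card_le_card fun u hu => mem_range.2 ((h.mem v k u).1 (List.mem_toFinset.1 hu)).1).trans
    (card_range _).le
/-- an exposed vertex is the base of its class -/
theorem Cmb.root (h : Cmb G d) (k : v < G.n) (e : d.mt.get v = v) :
    d.st.get v = 2 ∧ d.bs.get (d.cls.get v) = v := by
  have a := h.st_le v k
  have s : d.st.get v = 2 := by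
    by_contra c
    rcases (by omega : d.st.get v = 0 ∨ d.st.get v = 1) with z | z
    · exact (h.unl v k z).2 e
    · have := (h.inn v k z).1; rw [e] at this; exact c this
  refine ⟨s, by_contra fun c => ?_⟩
  have i := h.out v k s
  exact (h.inside _ i v ((h.mem _ i v).2 ⟨k, s, rfl⟩) (Ne.symm c)).2 e

variable {N : Net}
theorem Arcs.cons (h : Arcs D C G d N) : Cons N := cons_of_circ h.circ
theorem Arcs.of (m : ∀ e, e ∈ N.E ↔ has G d e) (a : ∀ e ∈ N.E, N.arc e = arcOf D C G d e)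
    (c : Cons N) : Arcs D C G d N := ⟨m, a, c.circ⟩
/-- the network after a list of operations with distinct ids -/
theorem Arcs.apps {d' : Dt} {l : List Ox} (h : Arcs D C G d N) (nd : (l.map Prod.fst).Nodup)
    (h1 : ∀ e, e ∉ l.map Prod.fst → (has G d' e ↔ has G d e) ∧
      (has G d e → arcOf D C G d' e = arcOf D C G d e))
    (h2 : ∀ o ∈ l, (has G d' o.1 ↔ o.2.2 ≠ none) ∧
      ∀ u, o.2.2 = some u → u.1 = arcOf D C G d' o.1)
    (h3 : ∀ v, v ≠ 0 → (l.map fun o => nw (ct v) o - old (ct v) N o.1).sum = 0) :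
    Arcs D C G d' (apps N l) := by
  refine .of (fun e => ?_) (fun e he => ?_) fun v hv => by rw [dv_apps nd, h.cons v hv, h3 v hv]; rfl
  · by_cases k : e ∈ l.map Prod.fst
    · obtain ⟨o, ho, rfl⟩ := List.mem_map.1 k
      rw [(apps_mem nd ho).1, (h2 o ho).1]
    · rw [(apps_ne k).1, h.mem, (h1 e k).1]
  · by_cases k : e ∈ l.map Prod.fst
    · obtain ⟨o, ho, rfl⟩ := List.mem_map.1 k
      obtain ⟨u, hu⟩ := Option.ne_none_iff_exists'.1 ((apps_mem nd ho).1.1 he)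
      rw [((apps_mem nd ho).2 u hu).1, (h2 o ho).2 u hu]
    · have := (apps_ne (N := N) k).1.1 he
      rw [(apps_ne k).2.1, h.arc e this, (h1 e k).2 ((h.mem e).1 this)]
end ids

namespace Cx
variable {T : Type} {X : Cx T} {s s' : Ip.St T} {N N' : Net} {n : List ℕ} {t : ℕ} {A : ℝ}
  {d d' : Dt}

section num
variable (h : X.Ok)
include h
theorem Ok.Z_pos : 20000 ≤ X.C.Z := by have := h.Z.1; omega
theorem Ok.s0_pos : 1 ≤ X.P.s0 := h.sm.1.trans h.sm.2.1
theorem Ok.lam_pos : 1 ≤ X.C.lam := h.s0_pos.trans h.sm.2.2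
/-- the small flow against the unit -/
theorem Ok.lam_le : 20000 * (X.C.Ph * X.C.Z * X.C.lam) ≤ X.P.D := by
  refine le_trans ?_ h.lam
  have := h.pb
  calc _ = 1000 * X.C.lam * (5 * X.C.Ph * X.C.Z) * 4 := by ring
    _ ≤ _ := Nat.mul_le_mul (Nat.mul_le_mul_left _ (by omega)) (by omega)
theorem Ok.PZ_pos : 20000 ≤ X.C.Ph * X.C.Z :=
  h.Z_pos.trans (Nat.le_mul_of_pos_left _ (lt_of_lt_of_le (by norm_num) h.Ph))
theorem Ok.lam_le' : 20000 * X.C.lam ≤ X.P.D := by
  have := h.lam_le; have := Nat.mul_le_mul_right X.C.lam h.PZ_pos; omega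
theorem Ok.D_pos : 1 ≤ X.P.D := by have := h.lam_le'; have := h.lam_pos; omega
theorem Ok.BD_le : 100 * (X.C.B + X.P.D) ≤ X.C.M :=
  le_trans (Nat.mul_le_mul_right _ (by omega)) h.M
theorem Ok.n_le_M : 100 * (X.G.n + 1) ≤ X.C.M :=
  le_trans (Nat.le_mul_of_pos_right _ (by have := h.D_pos; omega)) h.M
theorem Ok.M_le_X : X.C.M ≤ X.g.X := by
  refine le_trans ?_ h.gX
  have a : 1 ≤ X.C.M := by have := h.n_le_M; omega
  have b : 1 ≤ X.C.Z * X.C.Ph := by have := h.PZ_pos; rw [mul_comm] at this; omega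
  calc X.C.M ≤ X.C.M * (X.C.M * (X.C.Z * X.C.Ph)) :=
        Nat.le_mul_of_pos_right _ (Nat.mul_pos a b)
    _ = X.C.M * X.C.M * X.C.Z * X.C.Ph := by ring
    _ ≤ _ := Nat.le_self_pow two_ne_zero _
theorem Ok.Mu_le_X : X.Bd.Mu ≤ X.g.X := h.Mu ▸ h.M_le_X
theorem Ok.Lg_nonneg : 0 ≤ X.Lg :=
  Real.log_nonneg (by have := h.n_le_M; rw [← h.Mu]; exact_mod_cast (by omega : 1 ≤ X.C.M))
theorem Ok.Lg_le : 100 * (X.Lg + 1) ≤ X.C.Z := h.Z.2
theorem Ok.log_le : Real.log ((X.Bd.Mu : ℝ) / X.P.s0) ≤ X.Lg := by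
  have a : (1 : ℝ) ≤ X.P.s0 := by exact_mod_cast h.s0_pos
  have b : (1 : ℝ) ≤ X.Bd.Mu := by
    have := h.n_le_M; rw [← h.Mu]; exact_mod_cast (by omega : 1 ≤ X.C.M)
  exact Real.log_le_log (by positivity) (div_le_self (by linarith) a)
theorem Ok.κ_le : 25000 * (X.k.AU + X.k.AQ + X.k.cl + 1) ≤ X.κ := by
  have := h.κ
  have a : 5 ^ 2 ≤ (X.C.K + 5) ^ 2 := Nat.pow_le_pow_left (by omega) 2
  have b := Nat.mul_le_mul_left (1000 * (X.k.AU + X.k.AQ + X.k.cl + 1)) a
  calc _ = 1000 * (X.k.AU + X.k.AQ + X.k.cl + 1) * 5 ^ 2 := by ring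
    _ ≤ _ := b.trans ((Nat.le_add_left _ _).trans this)
theorem Ok.AU_le : 25000 * ((X.k.AU : ℝ) + 1) ≤ X.κ := by
  have := h.κ_le; exact_mod_cast (by omega : 25000 * (X.k.AU + 1) ≤ X.κ)

/-- the arcs respect the bounds of the layer -/
theorem Ok.arc (c : Cmb X.G d) {e : ℕ} (he : has X.G d e) :
    X.Bd.arc e (arcOf X.P.D X.C X.G d e) := by
  have := h.ids; have := h.nb; have := h.pb; have := h.cb; have := h.Mu; have := h.BD_le
  have := h.wf.nd_le; have := h.Z_pos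
  have z : X.C.Z * 2 ≤ X.C.Z * (X.G.n + 2) := Nat.mul_le_mul_left _ (by omega)
  obtain ⟨v, rfl | rfl | rfl | rfl | rfl⟩ := id_cases e
  · rw [has0] at he
    have := c.cls_lt (h.wf.tl_lt v he.1); have := h.wf.hd_lt he.1
    simp only [arcOf0, aP, capA, Bn.arc]; omega
  · rw [has1] at he
    have := c.cls_lt (c.mt_lt he.1)
    simp only [arcOf1, aE, capA, Bn.arc]; split_ifs <;> omega
  · rw [has2] at he
    have := c.cw_le he; have := he.1
    have : X.C.Z * (d.cw.get v + 1) ≤ X.C.Z * (X.G.n + 2) := Nat.mul_le_mul_left _ (by omega)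
    have : 1 ≤ X.C.Z * (d.cw.get v + 1) := Nat.mul_pos (by omega) (by omega)
    simp only [arcOf2, snkA, Bn.arc]; omega
  · rw [has3] at he
    simp only [arcOf3, aG, Bn.arc]; omega
  · rw [has4] at he
    simp only [arcOf4, aU, Bn.arc]; omega

theorem Ok.big {A : Arc} {x : ℤ} (o : A.o1 = 0) (a : (X.C.lam : ℤ) ≤ x)
    (b : x + X.C.lam ≤ A.o3) : Big X.P A x := by
  have := h.sm.2.2; unfold Big; omega
theorem Ok.dom {A : Arc} {x : ℤ} (b : Big X.P A x) : Dom X.Bd A x := by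
  have := h.sm.2.1; unfold Big at b; unfold Dom; omega
/-- a new arc without price -/
theorem Ok.bar_new {e : ℕ} {A : Arc} {x : ℤ} (hA : X.Bd.arc e A) (b : Big X.P A x) (p : A.p = 0) :
    bar X.P X.Bd A x ≤ (A.c1 + A.c2 + A.c3) * X.Lg := by
  have := bar_le h.D_pos hA b.1 b.2 h.s0_pos
  rw [p, Nat.cast_zero, zero_mul, zero_add] at this
  exact this.trans (mul_le_mul_of_nonneg_left h.log_le (by positivity))
end num

theorem IL.up (h : X.IL s N) (i : X.I s' N') (u : Up X.k X.Φ s s' N N' n t A) : X.IL s' N' :=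
  ⟨i, fun e he c => by
    rw [u.log, List.mem_append]
    by_cases k : e ∈ n
    · exact .inl k
    · obtain ⟨a, b, -⟩ := u.chg e he k
      rw [b, u.rf e k] at c
      exact .inr (h.2 e a c)⟩
theorem Pt_up (u : Up X.k X.Φ s s' N N' n t A) : t + X.Pt s' ≤ X.Pt s + A := by
  have := u.time
  simp only [Pt, u.log, List.length_append]; push_cast; linarith
theorem phi_le_Pt : X.Φ s ≤ X.Pt s := le_add_of_nonneg_right (by positivity)
/-- room for `r` operations -/
theorem Room.le (h : X.Room (s, d)) {r : ℕ} (k : r ≤ X.Rm) :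
    X.Φ s + 2 * X.k.AU * r ≤ X.Bd.F := by
  have a : (r : ℝ) ≤ X.Rm := by exact_mod_cast k
  have := mul_le_mul_of_nonneg_left a (by positivity : (0 : ℝ) ≤ 2 * X.k.AU)
  have := phi_le_Pt (X := X) (s := s)
  unfold Room at h; linarith
theorem Inv.pos (h : X.Ok) (i : X.I s N) {e : ℕ} (he : e ∈ N.E) :
    0 < N.X e + (N.arc e).o1 ∧ 0 < (N.arc e).o3 - N.X e :=
  (h.ip.view i e he).2.2.1.pos h.sm.1
theorem Inv.bar_nonneg (h : X.Ok) (i : X.I s N) {e : ℕ} (he : e ∈ N.E) :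
    0 ≤ bar X.P X.Bd (N.arc e) (N.X e) :=
  Ip.bar_nonneg h.D_pos h.s0_pos (h.ip.view i e he).2.1 (Inv.pos h i he).1 (Inv.pos h i he).2

/-- an event: surgery on the layer, new data, and the balance of the potential -/
theorem Post.of (h : X.Inv (s, d) N) (i : X.I s' N')
    (u : Up X.k X.Φ s s' N N' n t A) (a : Arcs X.P.D X.C X.G d' N') (c : Cmb X.G d')
    (q : QOk X.G d')
    (b : A + X.κ * (1 + (pot X.P X.Bd N' + X.Ψ d') - (pot X.P X.Bd N + X.Ψ d)) ≤ 0) :
    X.Post (s, d) N (s', d') t :=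
  ⟨N', ⟨h.il.up i u, a, c, q⟩, by have := Pt_up u; simp only [Tot]; linarith⟩
/-- the same, with the time counted in units of `κ` -/
theorem Post.of' (h : X.Inv (s, d) N) (i : X.I s' N')
    (u : Up X.k X.Φ s s' N N' n t A) (a : Arcs X.P.D X.C X.G d' N') (c : Cmb X.G d')
    (q : QOk X.G d') {r : ℝ} (hA : A ≤ X.κ * r)
    (b : 1 + r + (pot X.P X.Bd N' + X.Ψ d') ≤ pot X.P X.Bd N + X.Ψ d) :
    X.Post (s, d) N (s', d') t :=
  Post.of h i u a c q (by
    have := mul_le_mul_of_nonneg_left b (Nat.cast_nonneg (α := ℝ) X.κ); linarith)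

/-- only the work list (and the flags) change -/
theorem Psi_Q (p : Arr Bool) (q : List ℕ) :
    X.Ψ { d with pr := p, Q := q } = X.Ψ d + X.C.Z * ((q.length : ℝ) - d.Q.length) := by
  have a : X.offs { d with pr := p, Q := q } = X.offs d := rfl
  have b : ∀ i, X.nS { d with pr := p, Q := q } i = X.nS d i := fun _ => rfl
  have c : X.Th { d with pr := p, Q := q } = X.Th d := rfl
  simp only [Ψ, a, b, c]; ring

end Cx

end Crest.Agent.N325.P2
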