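import Crest.Agent.N325.P2.Util
import Crest.Agent.N325.Du.Good

/-!
# Row 325, part II (helper61): the network of the machine has the shape `Du.Shp`
-/

set_option autoImplicit false
open Finset

namespace Crest.Agent.N325.P2

open Crest.Agent.N325.Tw Crest.Agent.N325.Ip Crest.Agent.N325.Mt Crest.Agent.N325.Bf
  Crest.Agent.N325.Du

/-- the shape of the network -/
def shp (C : Cf) (G : Gf) (d : Dt) : Du.Sh :=
  ⟨((range G.n).filter (d.st.get · ≠ 2)).image (· + 1),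
    ((range G.n).filter (isC G d)).image (· + 1),
    5 * C.Ph * C.Z, C.Z, C.B, C.M, C.Z * (G.n + 1), 3 * G.n + 1⟩

section cases
variable {D : ℕ} {C : Cf} {G : Gf} {d : Dt} {N : Net} {e v : ℕ}

theorem mem_shpH : v + 1 ∈ (shp C G d).H ↔ v < G.n ∧ d.st.get v ≠ 2 := by simp [shp]
theorem mem_shpC : v + 1 ∈ (shp C G d).C ↔ isC G d v := by
  simp only [shp, mem_image, mem_filter, mem_range, add_left_inj, exists_eq_right]
  exact ⟨fun k => k.2, fun k => ⟨k.1, k⟩⟩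
theorem of_shpH (k : v ∈ (shp C G d).H) : ∃ u, v = u + 1 ∧ u < G.n ∧ d.st.get u ≠ 2 := by
  obtain ⟨u, a, rfl⟩ := mem_image.1 k
  exact ⟨u, rfl, mem_shpH.1 k⟩
theorem of_shpC (k : v ∈ (shp C G d).C) : ∃ u, v = u + 1 ∧ isC G d u := by
  obtain ⟨u, a, rfl⟩ := mem_image.1 k
  exact ⟨u, rfl, mem_shpC.1 k⟩

/-- the five kinds of arcs -/
theorem Arcs.cases (h : Arcs D C G d N) (he : e ∈ N.E) :
    (∃ o, e = 5 * o ∧ o < G.nd ∧ d.pr.get o = true ∧ N.arc e = aP C G d o) ∨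
    (∃ v, e = 5 * v + 1 ∧ v < G.n ∧ (d.st.get v = 1 ∨ d.mt.get v = v) ∧ N.arc e = aE C d v) ∨
    (∃ c, e = 5 * c + 2 ∧ isC G d c ∧ N.arc e = snkA C c (d.cw.get c + 1)) ∨
    (∃ v, e = 5 * v + 3 ∧ v < G.n ∧ d.st.get v ≠ 2 ∧ N.arc e = aG C v) ∨
    (∃ v, e = 5 * v + 4 ∧ v < G.n ∧ d.st.get v = 0 ∧ N.arc e = aU D C v) := by
  have a := (h.mem e).1 he
  have b := h.arc e he
  unfold has at a
  unfold arcOf at b
  split_ifs at a b with h0 h1 h2 h3
  · exact .inl ⟨_, by omega, a.1, a.2, b⟩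
  · exact .inr (.inl ⟨_, by omega, a.1, a.2, b⟩)
  · exact .inr (.inr (.inl ⟨_, by omega, a, b⟩))
  · exact .inr (.inr (.inr (.inl ⟨_, by omega, a.1, a.2, b⟩)))
  · exact .inr (.inr (.inr (.inr ⟨_, by omega, a.1, a.2, b⟩)))

theorem Arcs.of_has (h : Arcs D C G d N) (k : has G d e) :
    e ∈ N.E ∧ N.arc e = arcOf D C G d e := ⟨(h.mem e).2 k, h.arc e ((h.mem e).2 k)⟩

theorem Arcs.plain (h : Arcs D C G d N) {o : ℕ} (ho : o < G.nd) (k : d.pr.get o = true) :
    5 * o ∈ N.E ∧ N.arc (5 * o) = aP C G d o := by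
  have e0 : 5 * o % 5 = 0 := by omega
  have e1 : 5 * o / 5 = o := by omega
  have := h.of_has (e := 5 * o) (by simp only [has, e0, e1]; exact ⟨ho, k⟩)
  simpa only [arcOf, e0, e1, if_true] using this

theorem Arcs.entry (h : Arcs D C G d N) (hv : v < G.n) (k : d.st.get v = 1 ∨ d.mt.get v = v) :
    5 * v + 1 ∈ N.E ∧ N.arc (5 * v + 1) = aE C d v := by
  have e0 : (5 * v + 1) % 5 = 1 := by omega
  have e1 : (5 * v + 1) / 5 = v := by omega
  have := h.of_has (e := 5 * v + 1) (by simp only [has, e0, e1]; exact ⟨hv, k⟩)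
  simpa [arcOf, e0, e1] using this

theorem Arcs.sink (h : Arcs D C G d N) (k : isC G d v) :
    5 * v + 2 ∈ N.E ∧ N.arc (5 * v + 2) = snkA C v (d.cw.get v + 1) := by
  have e0 : (5 * v + 2) % 5 = 2 := by omega
  have e1 : (5 * v + 2) / 5 = v := by omega
  have := h.of_has (e := 5 * v + 2) (by simp only [has, e0, e1]; exact k)
  simpa [arcOf, e0, e1] using this

theorem Arcs.ghost (h : Arcs D C G d N) (hv : v < G.n) (k : d.st.get v ≠ 2) :
    5 * v + 3 ∈ N.E ∧ N.arc (5 * v + 3) = aG C v := by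
  have e0 : (5 * v + 3) % 5 = 3 := by omega
  have e1 : (5 * v + 3) / 5 = v := by omega
  have := h.of_has (e := 5 * v + 3) (by simp only [has, e0, e1]; exact ⟨hv, k⟩)
  simpa [arcOf, e0, e1] using this

theorem Arcs.pend (h : Arcs D C G d N) (hv : v < G.n) (k : d.st.get v = 0) :
    5 * v + 4 ∈ N.E ∧ N.arc (5 * v + 4) = aU D C v := by
  have e0 : (5 * v + 4) % 5 = 4 := by omega
  have e1 : (5 * v + 4) / 5 = v := by omega
  have := h.of_has (e := 5 * v + 4) (by simp only [has, e0, e1]; exact ⟨hv, k⟩)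
  simpa [arcOf, e0, e1] using this

/-- exposed vertices are outer -/
theorem Cmb.root_st (h : Cmb G d) (hv : v < G.n) (k : d.mt.get v = v) : d.st.get v = 2 := by
  have a := h.st_le v hv
  have b := h.unl v hv
  have c := h.inn v hv
  rw [k] at b c
  omega

/-- the tail of an entry arc is the mate of the base of its head -/
theorem Cmb.entry (h : Cmb G d) (hv : v < G.n) (k : d.st.get v = 1 ∨ d.mt.get v = v) :
    isC G d (d.cls.get (d.mt.get v)) ∧ d.bs.get (d.cls.get (d.mt.get v)) = d.mt.get v := by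
  rcases k with k | k
  · exact ⟨h.out _ (h.mt_lt hv) (h.inn v hv k).1, (h.inn v hv k).2⟩
  · have s := h.root_st hv k
    have c := h.out v hv s
    rw [k]
    refine ⟨c, by_contra fun ne => ?_⟩
    exact (h.inside _ c v ((h.mem _ c v).2 ⟨hv, s, rfl⟩) (Ne.symm ne)).2 k

/-- the base of a class -/
theorem Cmb.base (h : Cmb G d) (hc : isC G d v) : d.bs.get v < G.n ∧ d.st.get (d.bs.get v) = 2 ∧
    d.cls.get (d.bs.get v) = v := (h.mem v hc _).1 (h.bs v hc).1

/-- the entry arc of a class -/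
theorem Cmb.ent (h : Cmb G d) (hc : isC G d v) : d.mt.get (d.bs.get v) < G.n ∧
    (d.st.get (d.mt.get (d.bs.get v)) = 1 ∨
      d.mt.get (d.mt.get (d.bs.get v)) = d.mt.get (d.bs.get v)) ∧
    d.cls.get (d.mt.get (d.mt.get (d.bs.get v))) = v := by
  obtain ⟨a, -, c⟩ := h.base hc
  refine ⟨h.mt_lt a, ?_, by rw [h.mt_mt a, c]⟩
  rcases (h.bs v hc).2 with k | k
  · exact .inr (by rw [k, k])
  · exact .inl k

theorem Arcs.kind (h : Arcs D C G d N) (c : Cmb G d) (w : G.WF) {P : Pm} (hD : P.D = D)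
    (he : e ∈ N.E) : (shp C G d).G (N.arc e) ∨ (shp C G d).U P (N.arc e) ∨
      (shp C G d).N (N.arc e) ∨ (shp C G d).K (N.arc e) ∨ (shp C G d).A (N.arc e) := by
  rcases h.cases he with ⟨o, -, a, b, q⟩ | ⟨v, -, a, b, q⟩ | ⟨v, -, a, q⟩ | ⟨v, -, a, b, q⟩ |
    ⟨v, -, a, b, q⟩ <;> rw [q]
  · obtain ⟨s1, s2, -⟩ := c.pr o a b
    exact .inr (.inr (.inr (.inr ⟨mem_shpC.2 (c.out _ (w.tl_lt o a) s1),
      mem_shpH.2 ⟨w.hd_lt a, s2⟩, rfl, rfl, rfl, rfl⟩)))
  · refine .inr (.inr (.inl ⟨?_, mem_shpC.2 (c.entry a b).1, rfl, rfl, rfl, rfl⟩))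
    by_cases k : d.mt.get v = v
    · exact .inr (if_pos k)
    · refine .inl ?_
      change (if _ then _ else _) ∈ _
      rw [if_neg k]
      exact mem_shpH.2 ⟨a, by have := b.resolve_right k; omega⟩
  · exact .inr (.inr (.inr (.inl ⟨mem_shpC.2 a, rfl, rfl,
      Nat.mul_le_mul_left _ (Nat.succ_le_succ (c.cw_le a).2), rfl, rfl⟩)))
  · exact .inl ⟨rfl, mem_shpH.2 ⟨a, b⟩, rfl, rfl, rfl, rfl⟩
  · exact .inr (.inl ⟨mem_shpH.2 ⟨a, by omega⟩, rfl, rfl, rfl, rfl, hD.symm, hD ▸ rfl⟩)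

/-- arcs out of a head -/
theorem Arcs.out_head (h : Arcs D C G d N) (c : Cmb G d) (w : G.WF) (s : d.st.get v ≠ 2)
    (he : e ∈ N.E) (k : (N.arc e).a = v + 1) :
    (e = 5 * v + 1 ∧ d.st.get v = 1) ∨ (e = 5 * v + 4 ∧ d.st.get v = 0) := by
  rcases h.cases he with ⟨o, -, a, b, q⟩ | ⟨u, r, a, b, q⟩ | ⟨u, -, a, q⟩ | ⟨u, -, a, b, q⟩ |
    ⟨u, r, a, b, q⟩ <;> rw [q] at k
  · have := (c.out _ (w.tl_lt o a) (c.pr o a b).1).2.1
    rw [Nat.succ_injective k] at this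
    exact absurd this s
  · change (if _ then _ else _) = _ at k
    split_ifs at k with k'
    obtain rfl := Nat.succ_injective k
    exact .inl ⟨r, b.resolve_right k'⟩
  · obtain rfl := Nat.succ_injective k
    exact absurd a.2.1 s
  · exact absurd k (Nat.succ_ne_zero v).symm
  · obtain rfl := Nat.succ_injective k
    exact .inr ⟨r, b⟩

/-- arcs into a head -/
theorem Arcs.in_head (h : Arcs D C G d N) (c : Cmb G d) (s : d.st.get v ≠ 2)
    (he : e ∈ N.E) (k : (N.arc e).b = v + 1) :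
    e = 5 * v + 3 ∨ ∃ o, e = 5 * o ∧ o < G.nd ∧ d.pr.get o = true ∧ G.hd o = v := by
  rcases h.cases he with ⟨o, r, a, b, q⟩ | ⟨u, r, a, b, q⟩ | ⟨u, -, a, q⟩ | ⟨u, r, a, b, q⟩ |
    ⟨u, r, a, b, q⟩ <;> rw [q] at k
  · exact .inr ⟨o, r, a, b, Nat.succ_injective k⟩
  · have := (c.entry a b).1.2.1
    rw [Nat.succ_injective k] at this
    exact absurd this s
  · exact absurd k (Nat.succ_ne_zero v).symm
  · obtain rfl := Nat.succ_injective k
    exact .inl r
  · exact absurd k (Nat.succ_ne_zero v).symm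

/-- the arc into a class -/
theorem Arcs.in_cls (h : Arcs D C G d N) (c : Cmb G d) (s : isC G d v)
    (he : e ∈ N.E) (k : (N.arc e).b = v + 1) : e = 5 * d.mt.get (d.bs.get v) + 1 := by
  rcases h.cases he with ⟨o, r, a, b, q⟩ | ⟨u, r, a, b, q⟩ | ⟨u, -, a, q⟩ | ⟨u, r, a, b, q⟩ |
    ⟨u, r, a, b, q⟩ <;> rw [q] at k
  · have := (c.pr o a b).2.1
    rw [show G.hd o = v from Nat.succ_injective k] at this
    exact absurd s.2.1 this
  · have := (c.entry a b).2
    rw [show d.cls.get (d.mt.get u) = v from Nat.succ_injective k] at this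
    rw [this, c.mt_mt a, r]
  · exact absurd k (Nat.succ_ne_zero v).symm
  · obtain rfl := Nat.succ_injective k
    exact absurd s.2.1 b
  · exact absurd k (Nat.succ_ne_zero v).symm

/-- arcs out of a class -/
theorem Arcs.out_cls (h : Arcs D C G d N) (s : isC G d v)
    (he : e ∈ N.E) (k : (N.arc e).a = v + 1) :
    e = 5 * v + 2 ∨ ∃ o, e = 5 * o ∧ o < G.nd ∧ d.pr.get o = true ∧ d.cls.get (G.tl.get o) = v := by
  have s2 := s.2.1
  rcases h.cases he with ⟨o, r, a, b, q⟩ | ⟨u, r, a, b, q⟩ | ⟨u, r, a, q⟩ | ⟨u, r, a, b, q⟩ |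
    ⟨u, r, a, b, q⟩ <;> rw [q] at k
  · exact .inr ⟨o, r, a, b, Nat.succ_injective k⟩
  · change (if _ then _ else _) = _ at k
    split_ifs at k with k'
    obtain rfl := Nat.succ_injective k
    have := b.resolve_right k'
    omega
  · obtain rfl := Nat.succ_injective k
    exact .inl r
  · exact absurd k (Nat.succ_ne_zero v).symm
  · obtain rfl := Nat.succ_injective k
    omega

theorem Arcs.o1_c3 (h : Arcs D C G d N) (he : e ∈ N.E) : (N.arc e).o1 = 0 ∧ (N.arc e).c3 = 1 := by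
  rcases h.cases he with ⟨o, -, a, b, q⟩ | ⟨v, -, a, b, q⟩ | ⟨v, -, a, q⟩ | ⟨v, -, a, b, q⟩ |
    ⟨v, -, a, b, q⟩ <;> rw [q] <;> exact ⟨rfl, rfl⟩

end cases

namespace Cx
variable {T : Type} {X : Cx T} {d : Dt} {N : Net} {s : Ip.St T}

/-- **the shape** -/
theorem Ok.shp (h : X.Ok) (hI : X.I s N) (ha : Arcs X.P.D X.C X.G d N) (hc : Cmb X.G d) :
    Shp (shp X.C X.G d) X.P X.Bd N where
  D := h.D_pos
  h0 := fun k => by obtain ⟨u, a, -⟩ := of_shpH k; omega
  c0 := fun k => by obtain ⟨u, a, -⟩ := of_shpC k; omega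
  dj := disjoint_left.2 fun v a b => by
    obtain ⟨u, rfl, -, k⟩ := of_shpH a
    exact k (mem_shpC.1 b).2.1
  b2 := by have := h.B.2; change _ ≤ X.C.B; omega
  M2 := by
    have := h.M
    change 8 * X.C.B ≤ X.C.M
    nlinarith
  σ := by
    have a := h.sm.2.2
    have b := h.cb
    refine le_trans ?_ h.lam
    change 8 * (3 * X.G.n + 1 + 1) * X.P.s0 ≤ _
    calc _ ≤ 1000 * X.P.s0 * 1 * (3 * X.G.n + 4) := by nlinarith
      _ ≤ _ := by gcongr; omega
  arc := fun e he => by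
    obtain ⟨-, a, b, -⟩ := h.ip.view hI e he
    obtain ⟨o, c⟩ := ha.o1_c3 he
    have := h.sm.1
    unfold Dom at b
    exact ⟨a, o, c, by omega, by omega⟩
  kind := fun e he => ha.kind hc h.wf rfl he
  cons := fun v hv => sub_eq_zero.1 ((Op.dv_eq N v).symm.trans (Op.cons_of_circ ha.circ v hv))
  gh := fun v hv => by
    obtain ⟨u, rfl, a, b⟩ := of_shpH hv
    obtain ⟨p, q⟩ := ha.ghost a b
    exact ⟨_, p, q ▸ ⟨rfl, hv, rfl, rfl, rfl, rfl⟩, q ▸ rfl⟩
  sk := fun v hv => by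
    obtain ⟨u, rfl, a⟩ := of_shpC hv
    obtain ⟨p, q⟩ := ha.sink a
    exact ⟨_, p, q ▸ ⟨hv, rfl, rfl, Nat.mul_le_mul_left _ (Nat.succ_le_succ (hc.cw_le a).2), rfl,
      rfl⟩, q ▸ rfl⟩
  hout := fun v hv => by
    obtain ⟨u, rfl, -, b⟩ := of_shpH hv
    refine card_le_one.2 fun e he e' he' => ?_
    have a := ha.out_head hc h.wf b (mem_out.1 he).1 (mem_out.1 he).2
    have a' := ha.out_head hc h.wf b (mem_out.1 he').1 (mem_out.1 he').2
    omega
  hin := fun v hv => by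
    obtain ⟨u, rfl, a, b⟩ := of_shpH hv
    refine le_trans (card_le_card (t := insert (5 * u + 3)
      ((X.G.adj.get u).toFinset.image fun o => 5 * rv o)) fun e he => ?_) ?_
    · rcases ha.in_head hc b (mem_inn.1 he).1 (mem_inn.1 he).2 with k | ⟨o, k, k1, -, k2⟩
      · exact k ▸ mem_insert_self _ _
      · exact mem_insert_of_mem (mem_image.2 ⟨rv o, List.mem_toFinset.2
          ((h.wf.mem u a _).2 ⟨h.wf.rv_lt k1, k2⟩), by rw [rv_rv, k]⟩)
    · exact (card_insert_le _ _).trans (Nat.succ_le_succ (card_image_le.trans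
        ((List.toFinset_card_le _).trans (h.wf.deg u))))
  cin := fun v hv => by
    obtain ⟨u, rfl, a⟩ := of_shpC hv
    exact card_le_one.2 fun e he e' he' =>
      (ha.in_cls hc a (mem_inn.1 he).1 (mem_inn.1 he).2).trans
        (ha.in_cls hc a (mem_inn.1 he').1 (mem_inn.1 he').2).symm
  cout := fun v hv => by
    obtain ⟨u, rfl, a⟩ := of_shpC hv
    refine le_trans (card_le_card (t := insert (5 * u + 2)
      ((range X.G.nd).image fun o => 5 * o)) fun e he => ?_) ?_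
    · rcases ha.out_cls a (mem_out.1 he).1 (mem_out.1 he).2 with k | ⟨o, k, k1, -⟩
      · exact k ▸ mem_insert_self _ _
      · exact mem_insert_of_mem (mem_image.2 ⟨o, mem_range.2 k1, k.symm⟩)
    · exact (card_insert_le _ _).trans (Nat.succ_le_succ (card_image_le.trans
        ((card_range _).le.trans h.wf.nd_le)))

/-- **floor**: in a quiet state all flows and slacks are at least `10 lam` -/
theorem Ok.flo10 (h : X.Ok) (hI : X.I s N) (ha : Arcs X.P.D X.C X.G d N) (hc : Cmb X.G d)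
    (hq : Quiet X.P N) : Flo N (10 * X.C.lam) := fun e he => by
  have := (h.shp hI ha hc).floor hq (lam := 10 * X.C.lam) (le_trans ?_ h.lam) he
  · constructor <;> omega
  · have a := h.pb
    have b := h.cb
    change 10 * X.C.lam * (2 * (2 * (5 * X.C.Ph * X.C.Z) + 8 +
      2 * (X.C.Z * (X.G.n + 1) + 1) * (3 * X.G.n + 1 + 1) + X.Bd.cb)) ≤ _
    have c : X.C.Z * (X.G.n + 1) + 1 ≤ X.Bd.cb := by nlinarith
    calc _ ≤ 10 * X.C.lam * (2 * (2 * X.Bd.pb + 4 * X.Bd.cb +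
          2 * X.Bd.cb * (3 * X.G.n + 1 + 1) + X.Bd.cb)) := by gcongr; omega
      _ = X.C.lam * (40 * X.Bd.pb + X.Bd.cb * (120 * X.G.n + 180)) := by ring
      _ ≤ X.C.lam * (1000 * (3 * X.G.n + 4) * X.Bd.pb + X.Bd.cb * (1000 * (3 * X.G.n + 4))) :=
          Nat.mul_le_mul_left _ (Nat.add_le_add (Nat.mul_le_mul_right _ (by omega))
            (Nat.mul_le_mul_left _ (by omega)))
      _ = _ := by ring

theorem _root_.Crest.Agent.N325.P2.Flo.mono {l l' : ℕ} (h : Flo N l) (k : l' ≤ l) : Flo N l' :=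
  fun e he => by have := h e he; constructor <;> omega

theorem Ok.flo (h : X.Ok) (hI : X.I s N) (ha : Arcs X.P.D X.C X.G d N) (hc : Cmb X.G d)
    (hq : Quiet X.P N) : Flo N X.C.lam := (h.flo10 hI ha hc hq).mono (by omega)

theorem Inv.shp (i : X.Inv (s, d) N) (h : X.Ok) : Shp (P2.shp X.C X.G d) X.P X.Bd N :=
  h.shp i.il.1 i.arcs i.cmb
theorem Inv.flo10 {s : S T} (i : X.Inv s N) (h : X.Ok) (hq : Quiet X.P N) :
    Flo N (10 * X.C.lam) := h.flo10 i.il.1 i.arcs i.cmb hq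
theorem Inv.flo {s : S T} (i : X.Inv s N) (h : X.Ok) (hq : Quiet X.P N) : Flo N X.C.lam :=
  h.flo i.il.1 i.arcs i.cmb hq
/-- every flow is below the node capacity -/
theorem Inv.lt_B {s : S T} (i : X.Inv s N) (h : X.Ok) {e : ℕ} (he : e ∈ N.E) :
    0 < N.X e ∧ N.X e < X.C.B :=
  ⟨(h.shp i.il.1 i.arcs i.cmb).pos he, (h.shp i.il.1 i.arcs i.cmb).lt_b he⟩

end Cx

end Crest.Agent.N325.P2
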