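import Crest.Agent.N325.P2.Util
import Crest.Agent.N325.Ml.Defs
import Crest.Agent.N325.Op.Gap

/-!
# Row 325, part II (helper14): the generic read and the generic apply
-/

set_option autoImplicit false
open Finset

namespace Crest.Agent.N325.P2

open Crest.Agent.N325.Tw Crest.Agent.N325.Ip Crest.Agent.N325.Mt Crest.Agent.N325.Bf
open Crest.Agent.N325.Op

/-- presence of an arc -/
def hasB (G : Gf) (d : Dt) (e : ℕ) : Bool := decide (has G d e)
@[simp] theorem hasB_iff {G : Gf} {d : Dt} {e : ℕ} : hasB G d e = true ↔ has G d e :=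
  decide_eq_true_iff

section prog
variable {T : Type} (E : Env T)

/-- exact flows of the present arcs of `L` (zero elsewhere) -/
def rd (s : St T) (d : Dt) (L : List ℕ) : R (St T × Arr ℤ) :=
  grd E.run E.P (hasB E.G d) L (s, Arr.cst 0)

/-- replace the data by `d2`; the arcs of `L` are rewritten, with flows `x` -/
def app (s : S T) (d2 : Dt) (L : List ℕ) (x : Arr ℤ) : R (S T) := do
  let s' ← gap E.run E.P (hasB E.G s.2) (hasB E.G d2) (arcOf E.P.D E.C E.G d2) x L s.1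
  pure (s', d2)
end prog

namespace Cx
variable {T : Type} {X : Cx T} {s s' : St T} {N N' : Net} {d d2 : Dt} {L : List ℕ}

theorem Ok.big_le_X (h : X.Ok) : X.C.M * (X.C.Z * X.C.Ph) ≤ X.g.X := by
  have y1 : X.C.M * X.C.M * X.C.Z * X.C.Ph ≤ X.g.X :=
    le_trans (by rw [sq]; exact Nat.le_mul_self _) h.gX
  refine le_trans ?_ y1
  rw [mul_assoc (X.C.M * X.C.M)]
  exact Nat.mul_le_mul_right _ (Nat.le_mul_self _)

/-- the fields of the arcs are words -/
theorem Ok.wd (h : X.Ok) (hc : Cmb X.G d) {e : ℕ} (he : has X.G d e) :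
    Wd X.g.X (arcOf X.P.D X.C X.G d e) := by
  have z := h.Z_pos; have m1 := h.n_le_M; have m2 := h.BD_le; have y3 := h.M_le_X
  have p1 : 1 ≤ X.C.Ph := le_trans (by norm_num) h.Ph
  have y4 : 5 * X.C.Ph * X.C.Z ≤ X.g.X := by
    refine le_trans ?_ h.big_le_X
    rw [mul_assoc, mul_comm X.C.Ph]; exact Nat.mul_le_mul_right _ (by omega)
  have y5 : X.C.Z * (X.G.n + 2) + 2 ≤ X.g.X := by
    refine le_trans ?_ h.big_le_X
    have : X.C.Z * (X.G.n + 4) ≤ X.C.M * (X.C.Z * X.C.Ph) := by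
      rw [mul_comm]; exact Nat.mul_le_mul (by omega) (Nat.le_mul_of_pos_right _ p1)
    nlinarith
  have z2 : 2 * X.C.Z ≤ X.C.Z * (X.G.n + 2) := by nlinarith
  obtain ⟨i, rfl | rfl | rfl | rfl | rfl⟩ := id_cases e
  · rw [has0] at he
    have := hc.cls_lt (h.wf.tl_lt i he.1); have := h.wf.hd_lt he.1
    simp only [arcOf0, aP, capA, Wd]; omega
  · rw [has1] at he
    have := hc.cls_lt (hc.mt_lt he.1)
    simp only [arcOf1, aE, capA, Wd]; split_ifs <;> omega
  · rw [has2] at he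
    have a := (hc.cw_le he).2; have := he.1
    have : X.C.Z * (d.cw.get i + 1) ≤ X.C.Z * (X.G.n + 2) := Nat.mul_le_mul_left _ (by omega)
    simp only [arcOf2, snkA, Wd]; omega
  · rw [has3] at he
    simp only [arcOf3, aG, Wd]; omega
  · rw [has4] at he
    simp only [arcOf4, aU, Wd]; omega

/-- **read** -/
theorem sp_rd (h : X.Ok) (hI : X.IL s N) (hA : ∀ e, e ∈ N.E ↔ has X.G d e)
    (hF : X.Φ s + 2 * X.k.AU * L.length ≤ X.Bd.F) :
    Sp X.g (rd X.toEnv s d L) fun r t => X.IL r.1 N ∧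
      (∀ e, r.2.get e = if e ∈ L ∧ e ∈ N.E then N.X e else 0) ∧
      t + X.Pt r.1 ≤ X.Pt s + ((2 * X.k.AU + 3) * L.length + 3) ∧
      ∃ n, Up X.k X.Φ s r.1 N N n t ((2 * X.k.AU + 3) * L.length + 3) :=
  (sp_grd h.ip hI.1 _ hF fun e _ => by simp [hA]).mono
    fun _ _ ⟨a, b, n, u⟩ => ⟨hI.up a u, b, Pt_up u, n, u⟩

/-- **apply**, without the balance -/
theorem sp_app0 (h : X.Ok) {x : Arr ℤ} (hI : X.IL s N) (hA : Arcs X.P.D X.C X.G d N)
    (hc : Cmb X.G d2) (hF : X.Φ s + 2 * X.k.AU * L.length ≤ X.Bd.F)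
    (off : ∀ e, e ∉ L → (has X.G d2 e ↔ has X.G d e) ∧
      (has X.G d e → arcOf X.P.D X.C X.G d2 e = arcOf X.P.D X.C X.G d e))
    (on : ∀ e ∈ L, has X.G d2 e → Dom X.Bd (arcOf X.P.D X.C X.G d2 e) (x.get e)) :
    Sp X.g (app X.toEnv (s, d) d2 L x) fun r t => r.2 = d2 ∧ ∃ N', X.IL r.1 N' ∧
      (∀ e, e ∈ N'.E ↔ has X.G d2 e) ∧
      (∀ e ∈ N'.E, N'.arc e = arcOf X.P.D X.C X.G d2 e ∧
        N'.X e = if e ∈ L then x.get e else N.X e) ∧
      Rw N N' L.toFinset (hasB X.G d2) (arcOf X.P.D X.C X.G d2) x.get ∧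
      t + X.Pt r.1 ≤ X.Pt s + ((2 * X.k.AU + 4) * L.length + 4) ∧
      ∃ n, Up X.k X.Φ s r.1 N N' n t ((2 * X.k.AU + 4) * L.length + 4) := by
  refine (sp_gap h.ip hI.1 hF (fun e _ => by simp [hA.mem])
    fun e he c => ?_).bind fun s' t ⟨N', a, w, n, u⟩ => ⟨rfl, N', hI.up a u, ?_, ?_, w,
      by simpa using Pt_up u, n, by simpa using u⟩
  · have c := hasB_iff.1 c
    exact ⟨h.wd hc c, h.arc hc c, on e he c⟩
  · intro e
    by_cases q : e ∈ L
    · rw [w.mem e (List.mem_toFinset.2 q), hasB_iff]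
    · rw [(w.off e (by simpa using q)).1, hA.mem, (off e q).1]
  · intro e he
    by_cases q : e ∈ L
    · have q' := List.mem_toFinset.2 q
      rw [if_pos q]; exact w.on e q' ((w.mem e q').1 he)
    · obtain ⟨a, b, c⟩ := w.off e (by simpa using q)
      rw [if_neg q, b, hA.arc e (a.1 he), (off e q).2 ((hA.mem e).1 (a.1 he))]
      exact ⟨rfl, c⟩

/-- the value of `f` on the id `e` in the state `d` with flows `x` -/
def val (X : Cx T) {M : Type} [AddCommGroup M] (f : Arc → ℤ → M) (d : Dt) (x : ℕ → ℤ) (e : ℕ) : M :=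
  if has X.G d e then f (arcOf X.P.D X.C X.G d e) (x e) else 0

theorem val_old {M : Type} [AddCommGroup M] (f : Arc → ℤ → M) (hA : Arcs X.P.D X.C X.G d N)
    (e : ℕ) : old f N e = X.val f d N.X e := by
  unfold old val
  by_cases c : e ∈ N.E
  · rw [if_pos c, if_pos ((hA.mem e).1 c), hA.arc e c]
  · rw [if_neg c, if_neg fun q => c ((hA.mem e).2 q)]

theorem val_nw {M : Type} [AddCommGroup M] (f : Arc → ℤ → M) (x : ℕ → ℤ) (e : ℕ) :
    nwv f (hasB X.G d) (arcOf X.P.D X.C X.G d) x e = X.val f d x e := by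
  simp only [nwv, val, hasB_iff]

/-- **apply** -/
theorem sp_app (h : X.Ok) {x : Arr ℤ} (hI : X.IL s N) (hA : Arcs X.P.D X.C X.G d N)
    (hc : Cmb X.G d2) (hF : X.Φ s + 2 * X.k.AU * L.length ≤ X.Bd.F)
    (off : ∀ e, e ∉ L → (has X.G d2 e ↔ has X.G d e) ∧
      (has X.G d e → arcOf X.P.D X.C X.G d2 e = arcOf X.P.D X.C X.G d e))
    (on : ∀ e ∈ L, has X.G d2 e → Dom X.Bd (arcOf X.P.D X.C X.G d2 e) (x.get e))
    (bal : ∀ v, v ≠ 0 → ∑ e ∈ L.toFinset, X.val (ct v) d2 x.get e =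
      ∑ e ∈ L.toFinset, X.val (ct v) d N.X e) :
    Sp X.g (app X.toEnv (s, d) d2 L x) fun r t => r.2 = d2 ∧ ∃ N', X.IL r.1 N' ∧
      Arcs X.P.D X.C X.G d2 N' ∧ (∀ e ∈ N'.E, N'.X e = if e ∈ L then x.get e else N.X e) ∧
      pot X.P X.Bd N' = pot X.P X.Bd N + ∑ e ∈ L.toFinset,
        (X.val (bar X.P X.Bd) d2 x.get e - X.val (bar X.P X.Bd) d N.X e) ∧
      t + X.Pt r.1 ≤ X.Pt s + ((2 * X.k.AU + 4) * L.length + 4) ∧
      ∃ n, Up X.k X.Φ s r.1 N N' n t ((2 * X.k.AU + 4) * L.length + 4) :=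
  (sp_app0 h hI hA hc hF off on).mono fun r t ⟨a, N', b, c, e, w, f⟩ =>
    ⟨a, N', b, ⟨c, fun i hi => (e i hi).1, Cons.circ fun v hv => by
      have := w.tot (ct v)
      simp only [val_nw, val_old _ hA, sum_sub_distrib, bal v hv, sub_self, add_zero] at this
      exact this.trans (cons_of_circ hA.circ v hv)⟩, fun i hi => (e i hi).2, by
      have := w.tot (bar X.P X.Bd)
      simpa only [val_nw, val_old _ hA, pot_eq] using this, f⟩

end Cx

end Crest.Agent.N325.P2
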