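import Crest.Agent.N325.P2.Drop
import Crest.Agent.N325.P2.App

/-!
# Row 325, part II (helper73): DROP — the program
-/

set_option autoImplicit false
open Finset

namespace Crest.Agent.N325.P2

open Crest.Agent.N325.Tw Crest.Agent.N325.Ip Crest.Agent.N325.Mt Crest.Agent.N325.Bf

/-- add the flows of the plain arcs of `O` at the ids `τ o` -/
def accL (x0 : Arr ℤ) (τ : ℕ → ℕ) (O : List ℕ) (x : Arr ℤ) : R (Arr ℤ) :=
  foldL (fun o x => int (x.get (τ o) + x0.get (5 * o)) >>= fun v => pure (x.set (τ o) v)) O x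

/-- the flows on the new arcs at `v` -/
def frs (a b : ℤ) (v : ℕ) (x : Arr ℤ) : Arr ℤ :=
  (((x.set (5 * v + 1) a).set (5 * v + 2) a).set (5 * v + 3) b).set (5 * v + 4) b

/-- **DROP** the classes `Y` -/
def dropE {T : Type} (E : Env T) (s : S T) (Y : List ℕ) : R (S T) :=
  if Y = [] then pure s else
    drp E.G s.2 Y >>= fun r => rd E s.1 s.2 r.2.2 >>= fun u =>
    flatMapP E.G.adj.get r.2.1 >>= fun O => mapP rv O >>= fun O' =>
    accL u.2 (fun o => 5 * E.G.hd o + 3) O u.2 >>= fun x1 =>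
    accL u.2 (fun o => 5 * s.2.cls.get (E.G.tl.get o) + 2) O' x1 >>= fun x2 =>
    foldP (frs E.P.D E.C.lam) r.2.1 x2 >>= fun x => app E (u.1, s.2) r.1 r.2.2 x

theorem sp_accL {g : Gl} {x0 x : Arr ℤ} (τ : ℕ → ℕ) {O : List ℕ} {a b : ℕ} (hO : O.Nodup)
    (h0 : ∀ e, (x0.get e).natAbs ≤ b) (h1 : ∀ e, (x.get e).natAbs ≤ a)
    (hg : a + O.length * b ≤ g.X) : Sp g (accL x0 τ O x) fun r t =>
      (∀ e, r.get e = x.get e + ∑ o ∈ O.toFinset with τ o = e, x0.get (5 * o)) ∧
        (∀ e, (r.get e).natAbs ≤ a + O.length * b) ∧ t = O.length + 1 := by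
  induction O generalizing x a with
  | nil => exact ⟨Nat.zero_le _, by simp, by simpa using h1, rfl⟩
  | cons o O ih =>
    obtain ⟨n1, n2⟩ := List.nodup_cons.1 hO
    have k := (Int.natAbs_add_le (x.get (τ o)) (x0.get (5 * o))).trans
      (Nat.add_le_add (h1 _) (h0 _))
    rw [List.length_cons, add_mul, one_mul] at hg ⊢
    refine ⟨Nat.zero_le _, by omega, (ih (a := a + b) n2 (fun e => ?_) (by omega)).mono
      fun r t ⟨k1, k2, k3⟩ => ⟨fun e => ?_, fun e => (k2 e).trans (by omega), by omega⟩⟩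
    · rw [Arr.get_set]
      split_ifs
      exacts [k, (h1 e).trans (Nat.le_add_right _ _)]
    · rw [k1, Arr.get_set, List.toFinset_cons, filter_insert]
      by_cases c : τ o = e
      · rw [if_pos c.symm, if_pos c, sum_insert (by simp [n1]), c, add_assoc]
      · rw [if_neg (Ne.symm c), if_neg c]

theorem foldl_frs (a b : ℤ) (W : List ℕ) (x : Arr ℤ) (e : ℕ) :
    (W.foldl (fun x v => frs a b v x) x).get e =
      if e % 5 ≠ 0 ∧ e / 5 ∈ W then (if e % 5 ≤ 2 then a else b) else x.get e := by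
  induction W generalizing x with
  | nil => simp
  | cons v W ih =>
    rw [List.foldl_cons, ih]
    by_cases c : e % 5 ≠ 0 ∧ e / 5 ∈ W
    · rw [if_pos c, if_pos (c.imp_right (List.mem_cons_of_mem v))]
    · rw [if_neg c]
      simp only [frs, Arr.get_set, List.mem_cons]
      by_cases q : e % 5 ≠ 0 ∧ e / 5 = v
      · rw [if_pos (q.imp_right .inl)]
        split_ifs <;> first | rfl | omega
      · rw [if_neg (by omega), if_neg (by omega), if_neg (by omega), if_neg (by omega),
          if_neg fun k => k.2.elim (fun j => q ⟨k.1, j⟩) fun j => c ⟨k.1, j⟩]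

end Crest.Agent.N325.P2
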