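import Crest.Agent.N325.P2.Defs2
import Crest.Agent.N325.P2.Util
import Crest.Agent.N325.Mg.Defs
import Crest.Agent.N325.Mt.HallDm

/-!
# Row 325, part II (helper90): a minimal closed region of the edge search can be merged
-/

set_option autoImplicit false
open Finset

namespace Crest.Agent.N325.P2

open Crest.Agent.N325.Mt Crest.Agent.N325.Bf Crest.Agent.N325.Dm

variable {G : Gf} {d : Dt} {B : Bg} {o b : ℕ} {AX CX : List ℕ}

/-- `B` is the bipartite graph of the state -/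
structure IsBg (G : Gf) (d : Dt) (B : Bg) : Prop where
  mu : ∀ c, isC G d c → ∀ a, B.mu c = some a ↔ d.mt.get (d.bs.get c) = a ∧ a ≠ d.bs.get c
  nb : ∀ a < G.n, d.st.get a = 1 → ∀ c, B.Nb a c ↔ c = d.cls.get (d.mt.get a) ∨
    ∃ o < G.nd, G.hd o = a ∧ d.pr.get o = true ∧ d.cls.get (G.tl.get o) = c

theorem Cmb.bs_lt (h : Cmb G d) {c : ℕ} (k : isC G d c) : d.bs.get c < G.n ∧
    d.st.get (d.bs.get c) = 2 ∧ d.cls.get (d.bs.get c) = c := (h.mem c k _).1 (h.bs c k).1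

/-- the mate of a class is an inner vertex -/
theorem IsBg.inner (h : Cmb G d) (i : IsBg G d B) {c a : ℕ} (k : isC G d c) (e : B.mu c = some a) :
    a < G.n ∧ d.st.get a = 1 ∧ d.mt.get a = d.bs.get c ∧ d.cls.get (d.mt.get a) = c := by
  obtain ⟨rfl, n⟩ := (i.mu c k a).1 e
  have l := mem_range.2 (h.bs_lt k).1
  have := h.isM.inv l
  exact ⟨mem_range.1 (h.isM.mem l), (h.bs c k).2.resolve_left n, this, by
    rw [this, (h.bs_lt k).2.2]⟩

/-- an inner vertex is the mate of the class of its mate -/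
theorem IsBg.mu_cls (h : Cmb G d) (i : IsBg G d B) {a : ℕ} (l : a < G.n) (k : d.st.get a = 1) :
    isC G d (d.cls.get (d.mt.get a)) ∧ B.mu (d.cls.get (d.mt.get a)) = some a := by
  obtain ⟨x, y⟩ := h.inn a l k
  have c := h.out _ (mem_range.1 (h.isM.mem (mem_range.2 l))) x
  refine ⟨c, (i.mu _ c a).2 ⟨by rw [y, h.isM.inv (mem_range.2 l)], fun e => ?_⟩⟩
  rw [y] at e; rw [← e, k] at x; omega

/-- a neighbour class contains a neighbour -/
theorem IsBg.real (hG : G.WF) (h : Cmb G d) (i : IsBg G d B) {a c : ℕ} (l : a < G.n)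
    (k : d.st.get a = 1) (e : B.Nb a c) : isC G d c ∧ ∃ x ∈ d.mem.get c, G.E a x := by
  rcases (i.nb a l k c).1 e with rfl | ⟨o, lo, rfl, p, rfl⟩
  · have c := (i.mu_cls h l k).1
    obtain ⟨x, y⟩ := h.inn a l k
    refine ⟨c, _, (h.mem _ c _).2 ⟨h.mt_lt l, x, rfl⟩, h.isM.adj (mem_range.2 l) fun e => ?_⟩
    rw [e, k] at x; omega
  · have s := (h.pr o lo p).1
    have c := h.out _ (hG.tl_lt o lo) s
    exact ⟨c, _, (h.mem _ c _).2 ⟨hG.tl_lt o lo, s, rfl⟩, hG.symm _ _ ⟨o, lo, rfl, rfl⟩⟩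

theorem IsBg.wf (hG : G.WF) (h : Cmb G d) (i : IsBg G d B) : B.WF (isC G d) :=
  ⟨fun _ _ _ k k' e e' => (i.inner h k e).2.2.2.symm.trans (i.inner h k' e').2.2.2,
    fun c a k e => let ⟨x, y, _, z⟩ := i.inner h k e; (i.nb a x y c).2 (.inl z.symm),
    fun _ _ k ⟨_, e, n⟩ => let ⟨x, y, _⟩ := i.inner h k e; (i.real hG h x y n).1⟩

/-- **a minimal closed region can be merged** -/
theorem IsBg.mgb (hG : G.WF) (h : Cmb G d) (i : IsBg G d B) (hS : B.Surplus (isC G d))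
    (lo : o < G.nd) (nd : ¬Done G d o) (s2 : d.st.get (G.hd o) = 2) (nA : AX.Nodup)
    (nC : CX.Nodup) (k : B.Closed (isC G d) (d.cls.get (G.tl.get o)) (d.cls.get (G.hd o))
      AX.toFinset CX.toFinset b)
    (mn : ∀ A' ⊆ AX.toFinset, ∀ C' b', B.Closed (isC G d) (d.cls.get (G.tl.get o))
      (d.cls.get (G.hd o)) A' C' b' → A' = AX.toFinset) : Mgb G d o AX CX b := by
  have w := i.wf hG h
  simp only [Done, not_or, not_not, not_and] at nd
  have mate : ∀ a ∈ AX.toFinset, a < G.n ∧ d.st.get a = 1 ∧ d.cls.get (d.mt.get a) ∈ CX ∧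
      d.cls.get (d.mt.get a) ≠ b := fun a ha => by
    obtain ⟨c, x, y, e⟩ := k.mate w ha
    obtain ⟨p, q, -, r⟩ := i.inner h (k.cl c x) e
    rw [r]; exact ⟨p, q, List.mem_toFinset.1 x, y⟩
  have lh : G.hd o < G.n := hG.tl_lt _ (hG.rv_lt lo)
  refine ⟨nA, nC, ?_, fun a ha => mate a (List.mem_toFinset.2 ha), fun o' l p ha => ?_,
    fun c hc => ⟨k.cl c (List.mem_toFinset.2 hc), fun n => ?_⟩, List.mem_toFinset.1 k.hd,
    ⟨nd.1, List.mem_toFinset.1 k.hu⟩, ⟨s2, List.mem_toFinset.1 k.hu2⟩,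
    k.fc (x := G.tl.get o) (y := G.hd o) hG.symm w hS (fun A' C' b' q s => mn A' s C' b' q)
      (fun e => nd.2.2.2 s2 e.symm)
      (fun c hc => h.fc c (k.cl c hc)) (fun c hc c' hc' n => ?_) (fun a ha c hc q => ?_)
      (fun a ha c _ q => ?_) ?_ ?_ ⟨o, lo, rfl, rfl⟩⟩
  · rw [← List.toFinset_card_of_nodup nA, ← List.toFinset_card_of_nodup nC, k.card]
  · have ha := List.mem_toFinset.2 ha
    exact List.mem_toFinset.1 (k.nb _ ha _ ((i.nb _ (mate _ ha).1 (mate _ ha).2.1 _).2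
      (.inr ⟨o', l, rfl, p, rfl⟩)))
  · obtain ⟨a, x, e⟩ := k.mu c (List.mem_toFinset.2 hc) n
    rw [((i.mu c (k.cl c (List.mem_toFinset.2 hc)) a).1 e).1]; exact List.mem_toFinset.1 x
  · exact disjoint_left.2 fun v x y => n
      (((h.mem c (k.cl c hc) v).1 (List.mem_toFinset.1 x)).2.2.symm.trans
        ((h.mem c' (k.cl c' hc') v).1 (List.mem_toFinset.1 y)).2.2)
  · have := ((h.mem c (k.cl c hc) a).1 (List.mem_toFinset.1 q)).2.1
    have := (mate a ha).2.1; omega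
  · simpa using (i.real hG h (mate a ha).1 (mate a ha).2.1 q).2
  · exact List.mem_toFinset.2 ((h.mem _ (k.cl _ k.hu) _).2 ⟨hG.tl_lt o lo, nd.1, rfl⟩)
  · exact List.mem_toFinset.2 ((h.mem _ (k.cl _ k.hu2) _).2 ⟨lh, s2, rfl⟩)

theorem isBg_bgOf (hG : G.WF) (h : Cmb G d) : IsBg G d (bgOf G d) := by
  refine ⟨fun c _ a => ?_, fun a l k c => ⟨?_, ?_⟩⟩
  · simp only [bgOf]
    split_ifs with q
    · simp only [false_iff, not_and, not_not, reduceCtorEq]
      exact fun e => e.symm.trans q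
    · simp only [Option.some.injEq]
      exact ⟨fun e => ⟨e, e ▸ q⟩, fun e => e.1⟩
  · rintro ⟨e, x, y, rfl⟩
    have x := (hG.mem a l e).1 x
    simp only [bgOf, Bool.or_eq_true, decide_eq_true_eq] at y ⊢
    rcases y with y | y
    · exact .inr ⟨rv e, hG.rv_lt x.1, (G.hd_rv e).trans x.2, y, rfl⟩
    · exact .inl (by rw [y])
  · rintro (rfl | ⟨o, lo, rfl, p, rfl⟩)
    · obtain ⟨e, x, y, z⟩ := h.isM.adj (mem_range.2 l) fun e => by
        have := (h.inn a l k).1; rw [e, k] at this; omega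
      exact ⟨e, (hG.mem a l e).2 ⟨x, y⟩, by simp [bgOf, z], by simp [bgOf, z]⟩
    · exact ⟨rv o, (hG.mem _ l _).2 ⟨hG.rv_lt lo, rfl⟩, by simp [bgOf, p], by simp [bgOf]⟩

theorem wf_bgOf (hG : G.WF) (h : Cmb G d) : (bgOf G d).WF (isC G d) := (isBg_bgOf hG h).wf hG h

/-- **the hypotheses of MERGE from the result of the edge search** -/
theorem mgb_of_closed (hG : G.WF) (h : Cmb G d) (hS : (bgOf G d).Surplus (isC G d))
    (lo : o < G.nd) (nd : ¬Done G d o) (s2 : d.st.get (G.hd o) = 2) (nA : AX.Nodup)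
    (nC : CX.Nodup) (k : (bgOf G d).Closed (isC G d) (d.cls.get (G.tl.get o))
      (d.cls.get (G.hd o)) AX.toFinset CX.toFinset b)
    (mn : ∀ A' ⊆ AX.toFinset, ∀ C' b', (bgOf G d).Closed (isC G d) (d.cls.get (G.tl.get o))
      (d.cls.get (G.hd o)) A' C' b' → A' = AX.toFinset) : Mgb G d o AX CX b :=
  (isBg_bgOf hG h).mgb hG h hS lo nd s2 nA nC k mn

/-- the two ends of an undone dart between outer vertices lie in different classes -/
theorem ends_of_not_done (hG : G.WF) (h : Cmb G d) (lo : o < G.nd) (nd : ¬Done G d o)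
    (s2 : d.st.get (G.hd o) = 2) : d.st.get (G.tl.get o) = 2 ∧ isC G d (d.cls.get (G.tl.get o)) ∧
      isC G d (d.cls.get (G.hd o)) ∧ d.cls.get (G.tl.get o) ≠ d.cls.get (G.hd o) := by
  simp only [Done, not_or, not_not, not_and] at nd
  exact ⟨nd.1, h.out _ (hG.tl_lt o lo) nd.1, h.out _ (hG.hd_lt lo) s2,
    fun e => nd.2.2.2 s2 e.symm⟩

end Crest.Agent.N325.P2
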