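import Crest.Agent.N325.P2.Defs
import Crest.Agent.N325.On.Defs

/-!
# Row 325, part II (helper15): the bipartite view, specifications of DROP and AUGMENT
-/

set_option autoImplicit false
open Finset

namespace Crest.Agent.N325.P2

open Crest.Agent.N325.Tw Crest.Agent.N325.Ip Crest.Agent.N325.Mt Crest.Agent.N325.Bf
open Crest.Agent.N325.Dm Crest.Agent.N325.On

/-- the bipartite view: the entries of an inner vertex are the darts out of it whose reverse is a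
plain arc, and the matched dart -/
def bgOf (G : Gf) (d : Dt) : Bg where
  mu c := if d.mt.get (d.bs.get c) = d.bs.get c then none else some (d.mt.get (d.bs.get c))
  adj a := G.adj.get a
  ok a e := d.pr.get (rv e) || decide (G.hd e = d.mt.get a)
  hd _ e := d.cls.get (G.hd e)

/-- weight of a class -/
def wtC (d : Dt) (c : ℕ) : ℕ := d.cw.get c + 1

/-- flow on the plain arcs from the classes `Y` to heads that are not mates of bases in `Y` -/
def exitF (G : Gf) (d : Dt) (N : Net) (Y : Finset ℕ) : ℤ :=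
  ∑ o ∈ (range G.nd).filter (fun o => d.pr.get o = true ∧ d.cls.get (G.tl.get o) ∈ Y ∧
    ¬(d.st.get (G.hd o) = 1 ∧ d.cls.get (d.mt.get (G.hd o)) ∈ Y)), N.X (5 * o)

namespace Cx
variable {T : Type} (X : Cx T)

/-- room for `j` operations -/
def RoomN (s : S T) (j : ℕ) : Prop := X.Pt s.1 + j * (2 * X.k.AU) ≤ X.Bd.F

/-- DROP the classes `Y`: members and inner mates become unlabelled, a root restarts as `{root}` -/
def DropSpec (ev : S T → List ℕ → R (S T)) : Prop :=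
  ∀ s N Y, X.Inv s N → X.RoomN s (90 * (X.G.n + 1)) → Flo N X.C.lam → Y.Nodup →
    (∀ c ∈ Y, isC X.G s.2 c) → Sp X.g (ev s Y) fun s' t => ∃ N', X.Inv s' N' ∧ Flo N' X.C.lam ∧
      s'.2.mt = s.2.mt ∧ (∃ q, s'.2.Q = q ++ s.2.Q) ∧
      (∀ c ∈ Y, ∀ r ∈ s.2.mem.get c, s.2.mt.get r = r → isC X.G s'.2 r ∧ s'.2.mem.get r = [r] ∧
        ∀ o < X.G.nd, X.G.tl.get o = r → s'.2.pr.get o = false) ∧
      X.Pt s'.1 ≤ X.Pt s.1 + 80 * wsum (wtC s.2) Y * X.k.AU ∧
      t + X.Tot s' N' + X.κ * ∑ c ∈ Y.toFinset, (X.C.Z * wtC s.2 c : ℝ) *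
          (Real.log (wtC s.2 c * X.P.D / N.X (5 * c + 2)) - 15) ≤
        X.Tot s N + X.κ * (5 * X.C.Ph * X.C.Z * (exitF X.G s.2 N Y.toFinset : ℝ) / X.P.D + 1)

/-- AUGMENT along two paths of total class weight at most `Wa` (and pop the dart `o`) -/
def AugSpec (Wa : ℕ)
    (ev : S T → ℕ → List ℕ → ℕ × List (ℕ × ℕ) → ℕ × List (ℕ × ℕ) → R (S T)) : Prop :=
  ∀ s N o q p1 p2 ov, X.Inv s N → X.RoomN s (100 * (Wa + X.G.n + 1)) → Quiet X.P N →
    s.2.Q = o :: q → ¬Done X.G s.2 o → s.2.st.get (X.G.hd o) = 2 →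
    Flp (bgOf X.G s.2) (isC X.G s.2) (s.2.cls.get (X.G.tl.get o)) p1.1 p1.2 ov →
    (bgOf X.G s.2).mu p1.1 = none →
    (flip (bgOf X.G s.2) (s.2.cls.get (X.G.tl.get o)) ov).Pth (s.2.cls.get (X.G.hd o)) p2.1 p2.2 →
    (nds p2.1 p2.2).Nodup → s.2.cls.get (X.G.tl.get o) ∉ nds p2.1 p2.2 →
    (flip (bgOf X.G s.2) (s.2.cls.get (X.G.tl.get o)) ov).mu p2.1 = none →
    wsum (wtC s.2) (nds p1.1 p1.2) + wsum (wtC s.2) (nds p2.1 p2.2) ≤ Wa →
    Sp X.g (ev s o q p1 p2) fun s' t => ∃ N', X.Inv s' N' ∧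
      t + X.Tot s' N' + X.κ * X.Au ≤ X.Tot s N

/-- the numeric condition of AUGMENT -/
def AugNum (Wa : ℕ) : Prop :=
  (X.C.Z * (20 * X.C.Ph * X.C.B / X.P.D + (X.Lg + 100) * (Wa + 10)) : ℝ) ≤ X.Au

end Cx

end Crest.Agent.N325.P2
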