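import Crest.Agent.N325.P2.App
import Crest.Agent.N325.P2.Defs2
import Crest.Agent.N325.Op.Clo
import Crest.Agent.N325.Bf.Impl0

/-!
# Row 325, part II (helper14): representations; the basic programs are implementable
-/

set_option autoImplicit false

namespace Crest.Agent.N325.P2

open Crest.Agent.N325.Tw Crest.Agent.N325.Ip Crest.Agent.N325.Mt Crest.Agent.N325.Bf
open Crest.Agent.N325.Op

instance : Rp Gf := Rp.via fun G => (G.n, G.nd, G.tl, G.adj, G.av)
instance : Rp Cf := Rp.via fun C => (C.Z, C.Ph, C.B, C.kb, C.M, C.lam, C.K, C.nu, C.ex, C.ts, C.L, C.fu)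
instance : Rp Dt := Rp.via fun d => (d.st, d.cls, d.mem, d.cw, d.bs, d.mt, d.pr, d.Q)
instance {T : Type} [Rp T] : Rp (Env T) := Rp.via fun E => (E.run, E.P, E.C, E.G)

variable {α T : Type} [Rp α] [Rp T] {σ : Bool}

section fields
variable {G : α → Gf} {C : α → Cf} {d : α → Dt} {E : α → Env T}
@[fun_prop] theorem Gf.pu_n (h : Pu σ G) : Pu σ fun x => (G x).n := by impl
@[fun_prop] theorem Gf.pu_nd (h : Pu σ G) : Pu σ fun x => (G x).nd := by impl
@[fun_prop] theorem Gf.pu_tl (h : Pu σ G) : Pu σ fun x => (G x).tl := by impl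
@[fun_prop] theorem Gf.pu_adj (h : Pu σ G) : Pu σ fun x => (G x).adj := by impl
@[fun_prop] theorem Gf.pu_av (h : Pu σ G) : Pu σ fun x => (G x).av := by impl
@[fun_prop] theorem Cf.pu_Z (h : Pu σ C) : Pu σ fun x => (C x).Z := by impl
@[fun_prop] theorem Cf.pu_Ph (h : Pu σ C) : Pu σ fun x => (C x).Ph := by impl
@[fun_prop] theorem Cf.pu_B (h : Pu σ C) : Pu σ fun x => (C x).B := by impl
@[fun_prop] theorem Cf.pu_kb (h : Pu σ C) : Pu σ fun x => (C x).kb := by impl
@[fun_prop] theorem Cf.pu_M (h : Pu σ C) : Pu σ fun x => (C x).M := by impl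
@[fun_prop] theorem Cf.pu_lam (h : Pu σ C) : Pu σ fun x => (C x).lam := by impl
@[fun_prop] theorem Cf.pu_K (h : Pu σ C) : Pu σ fun x => (C x).K := by impl
@[fun_prop] theorem Cf.pu_nu (h : Pu σ C) : Pu σ fun x => (C x).nu := by impl
@[fun_prop] theorem Cf.pu_ex (h : Pu σ C) : Pu σ fun x => (C x).ex := by impl
@[fun_prop] theorem Cf.pu_ts (h : Pu σ C) : Pu σ fun x => (C x).ts := by impl
@[fun_prop] theorem Cf.pu_L (h : Pu σ C) : Pu σ fun x => (C x).L := by impl
@[fun_prop] theorem Cf.pu_fu (h : Pu σ C) : Pu σ fun x => (C x).fu := by impl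
@[fun_prop] theorem Dt.pu_st (h : Pu σ d) : Pu σ fun x => (d x).st := by impl
@[fun_prop] theorem Dt.pu_cls (h : Pu σ d) : Pu σ fun x => (d x).cls := by impl
@[fun_prop] theorem Dt.pu_mem (h : Pu σ d) : Pu σ fun x => (d x).mem := by impl
@[fun_prop] theorem Dt.pu_cw (h : Pu σ d) : Pu σ fun x => (d x).cw := by impl
@[fun_prop] theorem Dt.pu_bs (h : Pu σ d) : Pu σ fun x => (d x).bs := by impl
@[fun_prop] theorem Dt.pu_mt (h : Pu σ d) : Pu σ fun x => (d x).mt := by impl
@[fun_prop] theorem Dt.pu_pr (h : Pu σ d) : Pu σ fun x => (d x).pr := by impl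
@[fun_prop] theorem Dt.pu_Q (h : Pu σ d) : Pu σ fun x => (d x).Q := by impl
@[fun_prop] theorem Env.pu_run (h : Pu σ E) : Pu σ fun x => (E x).run :=
  Pu.fst (f := fun x => ((E x).run, (E x).P, (E x).C, (E x).G)) h
@[fun_prop] theorem Env.pu_P (h : Pu σ E) : Pu σ fun x => (E x).P := by impl
@[fun_prop] theorem Env.pu_C (h : Pu σ E) : Pu σ fun x => (E x).C := by impl
@[fun_prop] theorem Env.pu_G (h : Pu σ E) : Pu σ fun x => (E x).G := by impl
end fields

section pure
variable {G : α → Gf} {C : α → Cf} {d : α → Dt} {D o : α → ℕ}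

@[fun_prop] theorem Gf.pu_hd (hG : Pu σ G) (ho : Pu false o) : Pu σ fun a => (G a).hd (o a) := by
  unfold Gf.hd; impl
@[fun_prop] theorem pu_isC (hG : Pu false G) (hd : Pu false d) (ho : Pu false o) :
    Pu σ fun a => isC (G a) (d a) (o a) := by
  unfold isC; impl
@[fun_prop] theorem pu_has (hG : Pu false G) (hd : Pu false d) (ho : Pu false o) :
    Pu σ fun a => has (G a) (d a) (o a) := by
  unfold has; impl
@[fun_prop] theorem pu_hasB (hG : Pu false G) (hd : Pu false d) (ho : Pu false o) :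
    Pu σ fun a => hasB (G a) (d a) (o a) := by
  unfold hasB; impl
@[fun_prop] theorem pu_Done (hG : Pu false G) (hd : Pu false d) (ho : Pu false o) :
    Pu σ fun a => Done (G a) (d a) (o a) := by
  unfold Done; impl
@[fun_prop] theorem pu_trig {A : α → Arc} {r : α → ℤ} (hD : Pu false D) (hC : Pu false C)
    (hA : Pu false A) (hr : Pu false r) : Pu σ fun a => trig (D a) (C a) (A a) (r a) := by
  unfold trig; impl
@[fun_prop] theorem pu_aP (hC : Pu σ C) (hG : Pu σ G) (hd : Pu σ d) (ho : Pu false o) :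
    Pu σ fun a => aP (C a) (G a) (d a) (o a) := by
  have := hG.ar
  unfold aP capA; impl
@[fun_prop] theorem pu_aE (hC : Pu σ C) (hd : Pu σ d) (ho : Pu σ o) :
    Pu σ fun a => aE (C a) (d a) (o a) := by
  have := ho.ar; have := hd.ar
  unfold aE capA; impl
@[fun_prop] theorem pu_arcOf (hD : Pu false D) (hC : Pu false C) (hG : Pu false G)
    (hd : Pu false d) (ho : Pu false o) :
    Pu false fun a => arcOf (D a) (C a) (G a) (d a) (o a) := by
  unfold arcOf snkA aG aU; impl
@[fun_prop] theorem pu_wtC (hd : Pu σ d) (ho : Pu false o) : Pu σ fun a => wtC (d a) (o a) := by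
  unfold wtC; impl
end pure

variable {E : α → Env T}

@[fun_prop] theorem impl_rd {s : α → St T} {d : α → Dt} {L : α → List ℕ} (hE : Pu true E)
    (hs : Pu true s) (hd : Pu true d) (hL : Pu true L) :
    Impl fun a => rd (E a) (s a) (d a) (L a) :=
  implC_grd (Env.pu_run hE) (by impl) (by impl) hL (by impl)

@[fun_prop] theorem impl_app {s : α → S T} {d : α → Dt} {L : α → List ℕ} {x : α → Arr ℤ}
    (hE : Pu true E) (hs : Pu true s) (hd : Pu true d) (hL : Pu true L) (hx : Pu true x) :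
    Impl fun a => app (E a) (s a) (d a) (L a) (x a) :=
  Impl.bind (implC_gap (Env.pu_run hE) (by impl) (by impl) (by impl) (by impl) hx hL (by impl))
    (by impl)

end Crest.Agent.N325.P2
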