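import Crest.Agent.N325.P2.Dual
import Crest.Agent.N325.P2.Defs2

/-!
# Row 325, part II (helper74): the duals on the ball of UNLABEL
-/

set_option autoImplicit false
open Finset

namespace Crest.Agent.N325.P2

open Crest.Agent.N325.Tw Crest.Agent.N325.Ip Crest.Agent.N325.Mt Crest.Agent.N325.Bf
  Crest.Agent.N325.Du

/-- the plain darts from the classes `Y` to inner heads whose class is not in `Y` -/
def cutD (G : Gf) (d : Dt) (Y : Finset ℕ) : Finset ℕ :=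
  (range G.nd).filter fun o => d.pr.get o = true ∧ d.cls.get (G.tl.get o) ∈ Y ∧
    d.st.get (G.hd o) = 1 ∧ d.cls.get (d.mt.get (G.hd o)) ∉ Y

/-- at most three darts leave a member -/
theorem card_darts {G : Gf} {d : Dt} (w : G.WF) (c : Cmb G d) {Y : Finset ℕ}
    (hY : ∀ a ∈ Y, isC G d a) :
    #((range G.nd).filter fun o => d.pr.get o = true ∧ d.cls.get (G.tl.get o) ∈ Y) ≤
      3 * ∑ a ∈ Y, d.cw.get a := by
  refine (card_le_card (t := Y.biUnion fun a => (d.mem.get a).toFinset.biUnion fun v =>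
    (G.adj.get v).toFinset) fun o ho => ?_).trans (card_biUnion_le.trans ?_)
  · obtain ⟨a, b, e⟩ := mem_filter.1 ho
    rw [mem_range] at a
    exact mem_biUnion.2 ⟨_, e, mem_biUnion.2 ⟨G.tl.get o, List.mem_toFinset.2
      ((c.mem _ (hY _ e) _).2 ⟨w.tl_lt o a, (c.pr o a b).1, rfl⟩),
      List.mem_toFinset.2 ((w.mem _ (w.tl_lt o a) o).2 ⟨a, rfl⟩)⟩⟩
  · rw [mul_sum]
    refine sum_le_sum fun a ha => card_biUnion_le.trans ?_
    refine (sum_le_card_nsmul _ _ 3 fun v _ => (List.toFinset_card_le _).trans (w.deg v)).trans ?_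
    rw [smul_eq_mul, c.cw a (hY a ha), mul_comm]
    exact Nat.mul_le_mul_left _ (List.toFinset_card_le _)

namespace Cx
variable {T : Type} {X : Cx T} {s : S T} {N : Net} {y : ℕ → ℝ} {c o e : ℕ}

/-- reference flows are close to the flows -/
theorem Inv.rf_near (i : X.Inv s N) (h : X.Ok) (he : e ∈ N.E) :
    0 < s.1.rf.get e ∧ 100 * N.X e ≤ 101 * s.1.rf.get e ∧ 99 * s.1.rf.get e ≤ 100 * N.X e ∧
      s.1.rf.get e ≤ 2 * X.C.B := by
  obtain ⟨-, a, -, b, k⟩ := h.ip.view i.il.1 e he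
  have o1 := (i.arcs.o1_c3 he).1
  have := h.sm.1
  have l := (i.lt_B h he).2
  unfold Dom at b
  have q := (k.slack h.D_pos a (by omega) (by omega)).1
  rw [o1, Nat.cast_zero, add_zero, abs_le] at q
  have q1 : ((100 * N.X e : ℤ) : ℝ) ≤ (101 * s.1.rf.get e : ℤ) := by push_cast; linarith [q.2]
  have q2 : ((99 * s.1.rf.get e : ℤ) : ℝ) ≤ (100 * N.X e : ℤ) := by push_cast; linarith [q.1]
  have q3 := Int.cast_le.1 q1
  have q4 := Int.cast_le.1 q2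
  exact ⟨by omega, q3, q4, by omega⟩

theorem Inv.unl_s0 (i : X.Inv s N) (h : X.Ok) (hq : Quiet X.P N) (he : e ∈ N.E) :
    (X.P.s0 : ℤ) ≤ N.X e := by
  have := (i.flo h hq e he).1
  have := h.sm.2.2
  omega

theorem Ok.unl_PhZ (h : X.Ok) : (2 : ℝ) ^ 40 ≤ X.C.Ph ∧ (20000 : ℝ) ≤ X.C.Z ∧ (1 : ℝ) ≤ X.P.D :=
  ⟨by exact_mod_cast h.Ph, by exact_mod_cast h.Z_pos, by exact_mod_cast h.D_pos⟩

/-- the price at the starved class is high -/
theorem Inv.unl_start (i : X.Inv s N) (h : X.Ok) (hy : Dual X.P N y) (hc : isC X.G s.2 c)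
    (k : (99 * X.C.Ph : ℤ) * N.X (5 * c + 2) ≤ 100 * (s.2.cw.get c + 1) * X.P.D) :
    4 / 5 * ((X.C.Ph : ℝ) * X.C.Z) ≤ y (c + 1) := by
  obtain ⟨p, q⟩ := i.arcs.sink hc
  have S := h.shp i.il.1 i.arcs i.cmb
  have a := S.price_le hy p (q ▸ ⟨mem_shpC.2 hc, rfl, rfl,
    Nat.mul_le_mul_left _ (Nat.succ_le_succ (i.cmb.cw_le hc).2), rfl, rfl⟩)
  rw [q] at a
  change 9 / 10 * (((X.C.Z * (s.2.cw.get c + 1) : ℕ) : ℝ) * _) - _ ≤ y (c + 1) at a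
  have x0 : (0 : ℝ) < N.X (5 * c + 2) := by exact_mod_cast S.pos p
  have k' : (99 * X.C.Ph : ℝ) * N.X (5 * c + 2) ≤ 100 * (s.2.cw.get c + 1) * X.P.D := by
    exact_mod_cast k
  obtain ⟨h1, h2, -⟩ := h.unl_PhZ
  have b : (99 / 100 * X.C.Ph : ℝ) ≤ (s.2.cw.get c + 1) * (X.P.D / N.X (5 * c + 2)) := by
    rw [← mul_div_assoc, le_div_iff₀ x0]; linarith
  have b' := mul_le_mul_of_nonneg_left b (by linarith : (0 : ℝ) ≤ X.C.Z)
  push_cast at a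
  nlinarith

/-- the fall of the dual along a plain arc -/
theorem Inv.unl_fallP (i : X.Inv s N) (h : X.Ok) (hq : Quiet X.P N) (hy : Dual X.P N y)
    (ho : o < X.G.nd) (hp : s.2.pr.get o = true) :
    y (s.2.cls.get (X.G.tl.get o) + 1) - 11 / 10 * ((X.P.D : ℝ) / N.X (5 * o)) ≤
      y (X.G.hd o + 1) := by
  obtain ⟨p, q⟩ := i.arcs.plain ho hp
  obtain ⟨s1, s2, -⟩ := i.cmb.pr o ho hp
  have a := (h.shp i.il.1 i.arcs i.cmb).fall hy p (.inl (q ▸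
    ⟨mem_shpC.2 (i.cmb.out _ (h.wf.tl_lt o ho) s1), mem_shpH.2 ⟨h.wf.hd_lt ho, s2⟩, rfl, rfl, rfl,
      rfl⟩)) (i.unl_s0 h hq p)
  rwa [q] at a

/-- the flow of a plain arc continues on the arc out of its head -/
theorem Inv.unl_plainLe (i : X.Inv s N) (h : X.Ok) (ho : o < X.G.nd) (hp : s.2.pr.get o = true)
    (he : e ∈ N.E) (k : (N.arc e).a = X.G.hd o + 1) :
    (X.P.D : ℝ) / N.X e ≤ X.P.D / N.X (5 * o) := by
  obtain ⟨p, q⟩ := i.arcs.plain ho hp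
  have S := h.shp i.il.1 i.arcs i.cmb
  have a := S.in_le_out p he (q ▸ mem_shpH.2 ⟨h.wf.hd_lt ho, (i.cmb.pr o ho hp).2.1⟩)
    (by rw [k, q]; rfl)
  exact div_le_div_of_nonneg_left (Nat.cast_nonneg _) (by exact_mod_cast S.pos p)
    (by exact_mod_cast a)

/-- **the fall of the dual from class to class** -/
theorem Inv.unl_fall (i : X.Inv s N) (h : X.Ok) (hq : Quiet X.P N) (hy : Dual X.P N y)
    (ho : o < X.G.nd) (hp : s.2.pr.get o = true) (h1 : s.2.st.get (X.G.hd o) = 1) :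
    isC X.G s.2 (s.2.cls.get (s.2.mt.get (X.G.hd o))) ∧
      y (s.2.cls.get (X.G.tl.get o) + 1) - 9 / 4 * ((X.P.D : ℝ) / s.1.rf.get (5 * o)) ≤
        y (s.2.cls.get (s.2.mt.get (X.G.hd o)) + 1) := by
  have hv := h.wf.hd_lt ho
  have hc := (i.cmb.entry hv (.inl h1)).1
  refine ⟨hc, ?_⟩
  have ne : s.2.mt.get (X.G.hd o) ≠ X.G.hd o := fun k => by
    have := i.cmb.root_st hv k; omega
  obtain ⟨p, q⟩ := i.arcs.entry hv (.inl h1)
  have qa : (N.arc (5 * X.G.hd o + 1)).a = X.G.hd o + 1 := by rw [q]; exact if_neg ne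
  have a := (h.shp i.il.1 i.arcs i.cmb).fall hy p (.inr ⟨.inl (qa ▸ mem_shpH.2 ⟨hv, by omega⟩),
    q ▸ mem_shpC.2 hc, q ▸ rfl, q ▸ rfl, q ▸ rfl, q ▸ rfl⟩) (i.unl_s0 h hq p)
  rw [qa, show (N.arc (5 * X.G.hd o + 1)).b = s.2.cls.get (s.2.mt.get (X.G.hd o)) + 1 by
    rw [q]; rfl] at a
  have b := i.unl_fallP h hq hy ho hp
  have c1 := i.unl_plainLe h ho hp p qa
  obtain ⟨r0, -, r1, -⟩ := i.rf_near h (i.arcs.plain ho hp).1
  have r0' : (0 : ℝ) < s.1.rf.get (5 * o) := by exact_mod_cast r0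
  have r1' : (99 : ℝ) * s.1.rf.get (5 * o) ≤ 100 * N.X (5 * o) := by exact_mod_cast r1
  have D0 : (0 : ℝ) ≤ X.P.D := Nat.cast_nonneg _
  have c2 : (X.P.D : ℝ) / N.X (5 * o) ≤ X.P.D / (99 / 100 * s.1.rf.get (5 * o)) :=
    div_le_div_of_nonneg_left D0 (by positivity) (by linarith)
  rw [mul_comm (99 / 100 : ℝ), ← div_div] at c2
  have c3 : 0 ≤ (X.P.D : ℝ) / s.1.rf.get (5 * o) := by positivity
  linarith

/-- classes with a high dual have a high price -/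
theorem Inv.unl_price (i : X.Inv s N) (h : X.Ok) (hq : Quiet X.P N) (hy : Dual X.P N y)
    (hc : isC X.G s.2 c) (k : (X.C.Ph : ℝ) * X.C.Z / 2 ≤ y (c + 1)) :
    26 ≤ Real.log (wtC s.2 c * X.P.D / N.X (5 * c + 2)) := by
  obtain ⟨p, q⟩ := i.arcs.sink hc
  have S := h.shp i.il.1 i.arcs i.cmb
  have a := S.le_price hy p (q ▸ ⟨mem_shpC.2 hc, rfl, rfl,
    Nat.mul_le_mul_left _ (Nat.succ_le_succ (i.cmb.cw_le hc).2), rfl, rfl⟩) (i.unl_s0 h hq p)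
  rw [q] at a
  change y (c + 1) ≤ 11 / 10 * (((X.C.Z * wtC s.2 c : ℕ) : ℝ) * _) at a
  obtain ⟨h1, h2, -⟩ := h.unl_PhZ
  rw [Nat.cast_mul, mul_assoc, ← mul_div_assoc] at a
  have b : (2 : ℝ) ^ 38 ≤ wtC s.2 c * X.P.D / N.X (5 * c + 2) := by
    by_contra! b
    nlinarith
  have := Real.log_le_log (by positivity) b
  rw [Real.log_pow] at this
  have := Real.log_two_gt_d9
  push_cast at *
  linarith

/-- little flow goes from an expensive class to a pending vertex -/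
theorem Inv.unl_pend (i : X.Inv s N) (h : X.Ok) (hq : Quiet X.P N) (hy : Dual X.P N y)
    (ho : o < X.G.nd) (hp : s.2.pr.get o = true) (h0 : s.2.st.get (X.G.hd o) = 0)
    (k : (X.C.Ph : ℝ) * X.C.Z / 2 ≤ y (s.2.cls.get (X.G.tl.get o) + 1)) :
    (X.C.Ph : ℝ) * X.C.Z * N.X (5 * o) ≤ 5 * X.P.D := by
  have hv := h.wf.hd_lt ho
  obtain ⟨p, q⟩ := i.arcs.pend hv h0
  have S := h.shp i.il.1 i.arcs i.cmb
  have a := S.pend_le hy p (q ▸ ⟨mem_shpH.2 ⟨hv, by omega⟩, rfl, rfl, rfl, rfl, rfl, rfl⟩)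
    (i.unl_s0 h hq p)
  have b := i.unl_fallP h hq hy ho hp
  have c1 := i.unl_plainLe h ho hp p (by rw [q]; rfl)
  rw [q] at a
  change y (X.G.hd o + 1) ≤ _ + 11 / 5 * (X.C.Z : ℝ) at a
  have x0 : (0 : ℝ) < N.X (5 * o) := by exact_mod_cast S.pos (i.arcs.plain ho hp).1
  obtain ⟨h1, h2, -⟩ := h.unl_PhZ
  have : (X.C.Ph : ℝ) * X.C.Z / 5 ≤ X.P.D / N.X (5 * o) := by nlinarith
  rw [le_div_iff₀ x0] at this
  linarith

/-- **the exits of an expensive set of classes** -/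
theorem Inv.unl_exit (i : X.Inv s N) (h : X.Ok) (hq : Quiet X.P N) (hy : Dual X.P N y)
    {Y : Finset ℕ} (hY : ∀ a ∈ Y, isC X.G s.2 a ∧ (X.C.Ph : ℝ) * X.C.Z / 2 ≤ y (a + 1)) :
    (X.C.Ph : ℝ) * X.C.Z * exitF X.G s.2 N Y ≤
      X.C.Ph * X.C.Z * (∑ o ∈ cutD X.G s.2 Y, N.X (5 * o) : ℤ) +
        15 * X.P.D * ∑ a ∈ Y, (s.2.cw.get a : ℝ) := by
  have a := card_darts h.wf i.cmb fun a ha => (hY a ha).1
  set A := (range X.G.nd).filter fun o => s.2.pr.get o = true ∧ s.2.cls.get (X.G.tl.get o) ∈ Y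
  have a' : (#A : ℝ) ≤ 3 * ∑ a ∈ Y, (s.2.cw.get a : ℝ) := by exact_mod_cast a
  have D0 : (0 : ℝ) ≤ X.P.D := Nat.cast_nonneg _
  have e1 : (X.C.Ph : ℝ) * X.C.Z * exitF X.G s.2 N Y = ∑ o ∈ A,
      if ¬(s.2.st.get (X.G.hd o) = 1 ∧ s.2.cls.get (s.2.mt.get (X.G.hd o)) ∈ Y) then
        (X.C.Ph : ℝ) * X.C.Z * N.X (5 * o) else 0 := by
    rw [← sum_filter, filter_filter, ← mul_sum, exitF]
    simp only [and_assoc, Int.cast_sum]
  have e2 : (X.C.Ph : ℝ) * X.C.Z * (∑ o ∈ cutD X.G s.2 Y, N.X (5 * o) : ℤ) = ∑ o ∈ A,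
      if s.2.st.get (X.G.hd o) = 1 ∧ s.2.cls.get (s.2.mt.get (X.G.hd o)) ∉ Y then
        (X.C.Ph : ℝ) * X.C.Z * N.X (5 * o) else 0 := by
    rw [← sum_filter, filter_filter, ← mul_sum, cutD]
    simp only [and_assoc, Int.cast_sum]
  have e3 : ∑ _o ∈ A, 5 * (X.P.D : ℝ) ≤ 15 * X.P.D * ∑ a ∈ Y, (s.2.cw.get a : ℝ) := by
    rw [sum_const, nsmul_eq_mul]; nlinarith
  rw [e1, e2]
  refine le_trans ?_ (add_le_add_right e3 _)
  rw [← sum_add_distrib]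
  refine sum_le_sum fun o ho => ?_
  obtain ⟨o1, o2, o3⟩ := mem_filter.1 ho
  rw [mem_range] at o1
  have s1 := (i.cmb.pr o o1 o2).2.1
  have s2 := i.cmb.st_le _ (h.wf.hd_lt o1)
  by_cases k : s.2.st.get (X.G.hd o) = 1
  · by_cases k' : s.2.cls.get (s.2.mt.get (X.G.hd o)) ∈ Y <;> simp [k, k']
  · have := i.unl_pend h hq hy o1 o2 (by omega) (hY _ o3).2
    simpa [k] using this

/-- **UNLABEL is paid**: `t1` = time of the search, `t2` = time of DROP -/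
theorem Inv.unl_post (i : X.Inv s N) (h : X.Ok) (hq : Quiet X.P N) (hy : Dual X.P N y)
    {Y : Finset ℕ} (hY : ∀ a ∈ Y, isC X.G s.2 a ∧ (X.C.Ph : ℝ) * X.C.Z / 2 ≤ y (a + 1))
    (ne : Y.Nonempty) (cut : X.C.Ph * ∑ o ∈ cutD X.G s.2 Y, N.X (5 * o) ≤
      (X.P.D * ∑ a ∈ Y, wtC s.2 a : ℕ)) {t1 t2 : ℕ}
    (ht : t1 ≤ X.κ * X.C.Z * ∑ a ∈ Y, wtC s.2 a) {A : ℝ}
    (hd : t2 + A + X.κ * ∑ c ∈ Y, (X.C.Z * wtC s.2 c : ℝ) *
          (Real.log (wtC s.2 c * X.P.D / N.X (5 * c + 2)) - 15) ≤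
        X.Tot s N + X.κ * (5 * X.C.Ph * X.C.Z * (exitF X.G s.2 N Y : ℝ) / X.P.D + 1)) :
    ((t1 + t2 : ℕ) : ℝ) + A + X.κ ≤ X.Tot s N := by
  obtain ⟨h1, h2, h3⟩ := h.unl_PhZ
  have a := i.unl_exit h hq hy hY
  set W : ℝ := ∑ a ∈ Y, (wtC s.2 a : ℝ) with hW
  have w1 : ∑ a ∈ Y, (s.2.cw.get a : ℝ) ≤ W :=
    sum_le_sum fun a _ => by unfold wtC; push_cast; linarith
  have w2 : 1 ≤ W := by
    obtain ⟨a, ha⟩ := ne
    refine le_trans ?_ (single_le_sum (f := fun a => (wtC s.2 a : ℝ))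
      (fun _ _ => Nat.cast_nonneg _) ha)
    exact_mod_cast Nat.succ_le_succ (Nat.zero_le _)
  have c1 : (X.C.Ph : ℝ) * (∑ o ∈ cutD X.G s.2 Y, N.X (5 * o) : ℤ) ≤ X.P.D * W := by
    rw [hW]; exact_mod_cast cut
  have t1' : (t1 : ℝ) ≤ X.κ * (X.C.Z * W) := by rw [hW, ← mul_assoc]; exact_mod_cast ht
  have p : 11 * (X.C.Z * W) ≤ ∑ c ∈ Y, (X.C.Z * wtC s.2 c : ℝ) *
      (Real.log (wtC s.2 c * X.P.D / N.X (5 * c + 2)) - 15) := by
    rw [hW, mul_sum, mul_sum]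
    refine sum_le_sum fun c hc => ?_
    have := i.unl_price h hq hy (hY c hc).1 (hY c hc).2
    have : (0 : ℝ) ≤ X.C.Z * wtC s.2 c := by positivity
    nlinarith
  have q : 5 * X.C.Ph * X.C.Z * (exitF X.G s.2 N Y : ℝ) / X.P.D ≤ 5 * (X.C.Z * W) + 75 * W := by
    rw [div_le_iff₀ (by linarith)]
    have := mul_le_mul_of_nonneg_left c1 (by linarith : (0 : ℝ) ≤ X.C.Z)
    have := mul_le_mul_of_nonneg_left w1 (by linarith : (0 : ℝ) ≤ X.P.D)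
    linarith
  have r : 5 * (X.C.Z * W) + 75 * W + 1 + 1 + X.C.Z * W ≤ 11 * (X.C.Z * W) := by nlinarith
  have κ0 : (0 : ℝ) ≤ X.κ := Nat.cast_nonneg _
  have r' := mul_le_mul_of_nonneg_left (r.trans p) κ0
  have q' := mul_le_mul_of_nonneg_left q κ0
  push_cast
  linarith

end Cx

end Crest.Agent.N325.P2
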