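import Crest.Agent.N325.P2.Dual
import Crest.Agent.N325.P2.Clo

/-!
# Row 325, part II (helper61): good states — small ghosts, surplus, weight of closed regions
-/

set_option autoImplicit false
open Finset

namespace Crest.Agent.N325.P2

open Crest.Agent.N325.Ip Crest.Agent.N325.Mt Crest.Agent.N325.Bf Crest.Agent.N325.Du
  Crest.Agent.N325.Dm

section kinds
variable {C : Cf} {G : Gf} {d : Dt} {P : Pm} {v : ℕ}

theorem shp_G (hv : v < G.n) (k : d.st.get v ≠ 2) : (shp C G d).G (aG C v) :=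
  ⟨rfl, mem_shpH.2 ⟨hv, k⟩, rfl, rfl, rfl, rfl⟩
theorem shp_U (hv : v < G.n) (k : d.st.get v = 0) : (shp C G d).U P (aU P.D C v) :=
  ⟨mem_shpH.2 ⟨hv, by omega⟩, rfl, rfl, rfl, rfl, rfl, rfl⟩
theorem shp_K (c : Cmb G d) (k : isC G d v) : (shp C G d).K (snkA C v (d.cw.get v + 1)) :=
  ⟨mem_shpC.2 k, rfl, rfl, Nat.mul_le_mul_left _ (Nat.succ_le_succ (c.cw_le k).2), rfl, rfl⟩
theorem shp_A (w : G.WF) (c : Cmb G d) (ho : v < G.nd) (k : d.pr.get v = true) :
    (shp C G d).A (aP C G d v) :=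
  ⟨mem_shpC.2 (c.out _ (w.tl_lt v ho) (c.pr v ho k).1), mem_shpH.2 ⟨w.hd_lt ho, (c.pr v ho k).2.1⟩,
    rfl, rfl, rfl, rfl⟩
theorem aE_a (c : Cmb G d) (hv : v < G.n) (k : d.st.get v = 1) : (aE C d v).a = v + 1 :=
  if_neg fun e => by have := (c.inn v hv k).1; rw [e, k] at this; omega
theorem shp_N (c : Cmb G d) (hv : v < G.n) (k : d.st.get v = 1) : (shp C G d).N (aE C d v) :=
  ⟨.inl (by rw [aE_a c hv k]; exact mem_shpH.2 ⟨hv, by omega⟩),
    mem_shpC.2 (c.entry hv (.inl k)).1, rfl, rfl, rfl, rfl⟩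

end kinds

namespace Cx
variable {T : Type} {X : Cx T} {N : Net} {s : S T} {v : ℕ} {y : ℕ → ℝ}

theorem Inv.shp' (i : X.Inv s N) (h : X.Ok) : Shp (P2.shp X.C X.G s.2) X.P X.Bd N :=
  h.shp i.il.1 i.arcs i.cmb

theorem Inv.clm (i : X.Inv s N) (h : X.Ok) (g : X.Good s.2 N) :
    Clm (P2.shp X.C X.G s.2) X.P N (X.C.Ph * X.C.Z) where
  π := mul_assoc _ _ _
  Z := Nat.le_mul_of_pos_left _ (lt_of_lt_of_le (by norm_num) h.Ph)
  Q1 := by have := h.PZ_pos; omega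
  σ := by
    have := h.lam_le
    have := Nat.mul_le_mul_left (X.C.Ph * X.C.Z) h.sm.2.2
    rw [mul_assoc]; omega
  snk := fun e he k => by
    obtain ⟨c, a, b⟩ := of_shpC k.1
    rcases i.arcs.out_cls b he a with rfl | ⟨o, rfl, p, q, -⟩
    · have := mul_le_mul_of_nonneg_left (g.2.snk c b) (Nat.cast_nonneg (α := ℤ) X.C.Z)
      rw [(i.arcs.sink b).2]
      simp only [snkA]; push_cast; linarith
    · have := k.2.1
      rw [(i.arcs.plain p q).2] at this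
      exact absurd this (Nat.succ_ne_zero _)

/-- **ghosts are small in a good state** -/
theorem Inv.ghost_le (i : X.Inv s N) (h : X.Ok) (g : X.Good s.2 N) (hv : v < X.G.n)
    (k : s.2.st.get v ≠ 2) : (X.C.Ph * X.C.Z : ℤ) * N.X (5 * v + 3) ≤ X.P.D := by
  obtain ⟨a, b⟩ := i.arcs.ghost hv k
  exact_mod_cast (i.shp' h).ghost_le g.1 (i.clm h g) a (b ▸ shp_G hv k)

/-- inner vertices `A`, classes `C` containing their neighbours, all classes outside `R` have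
their mates in `A` -/
theorem Inv.closed (i : X.Inv s N) (h : X.Ok) (g : X.Good s.2 N) {B : Bg} (b : IsBg X.G s.2 B)
    {A C R : Finset ℕ} (hA : ∀ a ∈ A, a < X.G.n ∧ s.2.st.get a = 1) (hC : ∀ c ∈ C, isC X.G s.2 c)
    (hR : R ⊆ C) (nb : ∀ a ∈ A, ∀ c, B.Nb a c → c ∈ C)
    (mu : ∀ c ∈ C, c ∉ R → ∃ a ∈ A, B.mu c = some a) :
    X.C.Z * (∑ c ∈ C, wtC s.2 c) * X.P.D ≤
      8 * #A * X.P.D + 2 * (X.C.Ph * X.C.Z) * #R * X.C.B := by
  have inj : Function.Injective fun x : ℕ => x + 1 := Nat.succ_injective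
  have := (i.shp' h).closed g.1 (i.clm h g) (A := A.image (· + 1)) (C := C.image (· + 1))
    (R := R.image fun c => 5 * s.2.mt.get (s.2.bs.get c) + 1)
    (w := fun x => X.C.Z * wtC s.2 (x - 1)) (fun x k => ?_) (fun x k => ?_) (fun x k => ?_)
    (fun e he k => ?_) fun e he k q => ?_
  · rw [sum_image fun _ _ _ _ e => inj e, card_image_of_injective _ inj, ← mul_sum] at this
    exact this.trans (Nat.add_le_add_left (Nat.mul_le_mul_right _
      (Nat.mul_le_mul_left _ card_image_le)) _)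
  · obtain ⟨a, p, rfl⟩ := mem_image.1 k
    exact mem_shpH.2 ⟨(hA a p).1, by have := (hA a p).2; omega⟩
  · obtain ⟨c, p, rfl⟩ := mem_image.1 k
    exact mem_shpC.2 (hC c p)
  · obtain ⟨c, p, rfl⟩ := mem_image.1 k
    obtain ⟨u, w, -⟩ := i.cmb.ent (hC c (hR p))
    exact (i.arcs.entry u w).1
  · rcases mem_union.1 k with k | k
    · obtain ⟨a, p, q⟩ := mem_image.1 k
      obtain ⟨a1, a2⟩ := hA a p
      rcases i.arcs.in_head i.cmb (by omega) he q.symm with rfl | ⟨o, rfl, o1, o2, o3⟩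
      · exact .inr (.inl ((i.arcs.ghost a1 (by omega)).2 ▸ shp_G a1 (by omega)))
      · rw [(i.arcs.plain o1 o2).2]
        exact .inl (mem_union_right _ (mem_image.2 ⟨_, nb a p _ ((b.nb a a1 a2 _).2
          (.inr ⟨o, o1, o3, o2, rfl⟩)), rfl⟩))
    · obtain ⟨c, p, q⟩ := mem_image.1 k
      obtain rfl := i.arcs.in_cls i.cmb (hC c p) he q.symm
      by_cases r : c ∈ R
      · exact .inr (.inr (mem_image.2 ⟨c, r, rfl⟩))
      · obtain ⟨a, a0, m⟩ := mu c p r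
        obtain ⟨a1, a2⟩ := hA a a0
        rw [((b.mu c (hC c p) a).1 m).1, (i.arcs.entry a1 (.inl a2)).2, aE_a i.cmb a1 a2]
        exact .inl (mem_union_left _ (mem_image.2 ⟨a, a0, rfl⟩))
  · obtain ⟨c, p, q⟩ := mem_image.1 q
    rcases i.arcs.out_cls (hC c p) he q.symm with rfl | ⟨o, rfl, o1, o2, -⟩
    · rw [(i.arcs.sink (hC c p)).2]; exact le_rfl
    · have := k.2.1
      rw [(i.arcs.plain o1 o2).2] at this
      exact absurd this (Nat.succ_ne_zero _)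

theorem two_le_wtC {G : Gf} {d : Dt} (c : Cmb G d) {C : Finset ℕ} (hC : ∀ x ∈ C, isC G d x) :
    2 * #C ≤ ∑ x ∈ C, wtC d x := by
  rw [mul_comm, ← smul_eq_mul]
  exact card_nsmul_le_sum _ _ _ fun x k => Nat.succ_le_succ (c.cw_le (hC x k)).1

/-- **surplus** -/
theorem Inv.surplus' (i : X.Inv s N) (h : X.Ok) (g : X.Good s.2 N) {B : Bg}
    (b : IsBg X.G s.2 B) : B.Surplus (isC X.G s.2) := by
  intro A C ne hA nb
  have inner : ∀ a ∈ A, a < X.G.n ∧ s.2.st.get a = 1 := fun a k => by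
    obtain ⟨c, p, q⟩ := hA a k
    exact ⟨(b.inner i.cmb p q).1, (b.inner i.cmb p q).2.1⟩
  by_contra le
  set C' := A.image fun a => s.2.cls.get (s.2.mt.get a)
  have cd : #C' = #A := card_image_of_injOn fun a p a' p' e => by
    have u := (b.mu_cls i.cmb (inner a p).1 (inner a p).2).2
    have u' := (b.mu_cls i.cmb (inner a' p').1 (inner a' p').2).2
    rw [e, u'] at u
    exact (Option.some.inj u).symm
  have sub : C' ⊆ C := fun c k => by
    obtain ⟨a, p, rfl⟩ := mem_image.1 k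
    exact nb a p _ ((b.nb a (inner a p).1 (inner a p).2 _).2 (.inl rfl))
  have eq : C' = C := eq_of_subset_of_card_le sub (by omega)
  have hC : ∀ c ∈ C', isC X.G s.2 c := fun c k => by
    obtain ⟨a, p, rfl⟩ := mem_image.1 k
    exact (b.mu_cls i.cmb (inner a p).1 (inner a p).2).1
  have := i.closed h g b (R := ∅) inner hC (empty_subset _) (eq ▸ nb) fun c k _ => by
    obtain ⟨a, p, rfl⟩ := mem_image.1 k
    exact ⟨a, p, (b.mu_cls i.cmb (inner a p).1 (inner a p).2).2⟩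
  have w := two_le_wtC i.cmb hC
  rw [card_empty, mul_zero, zero_mul, add_zero] at this
  have := Nat.le_of_mul_le_mul_right this h.D_pos
  have := h.Z_pos
  have := ne.card_pos
  nlinarith

theorem Inv.surplus (i : X.Inv s N) (h : X.Ok) (g : X.Good s.2 N) :
    (bgOf X.G s.2).Surplus (isC X.G s.2) := i.surplus' h g (isBg_bgOf h.wf i.cmb)

/-- **closed regions are light** -/
theorem Inv.closed_wt (i : X.Inv s N) (h : X.Ok) (g : X.Good s.2 N) {u u2 b : ℕ}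
    {A C : Finset ℕ} (k : (bgOf X.G s.2).Closed (isC X.G s.2) u u2 A C b) :
    (∑ c ∈ C, wtC s.2 c) * X.P.D ≤ 3 * X.C.Ph * X.C.B ∧ 2 * #A < ∑ c ∈ C, wtC s.2 c ∧
      (bgOf X.G s.2).vol A ≤ 4 * #A := by
  have bg := isBg_bgOf h.wf i.cmb
  have inner : ∀ a ∈ A, a < X.G.n ∧ s.2.st.get a = 1 := fun a p => by
    obtain ⟨c, x, -, e⟩ := k.mate (bg.wf h.wf i.cmb) p
    exact ⟨(bg.inner i.cmb (k.cl c x) e).1, (bg.inner i.cmb (k.cl c x) e).2.1⟩
  have := i.closed h g bg (R := {b}) inner k.cl (singleton_subset_iff.2 k.hd) k.nb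
    fun c p q => k.mu c p (notMem_singleton.1 q)
  have w := two_le_wtC i.cmb k.cl
  have c := k.card
  refine ⟨?_, by omega, ?_⟩
  · rw [card_singleton, mul_one, mul_assoc X.C.Z] at this
    have z := h.Z_pos
    have a : 8 * #A * X.P.D ≤ 4 * ((∑ c ∈ C, wtC s.2 c) * X.P.D) := by
      rw [← mul_assoc]; exact Nat.mul_le_mul_right _ (by omega)
    refine Nat.le_of_mul_le_mul_left (c := X.C.Z) ?_ (by omega)
    generalize (∑ c ∈ C, wtC s.2 c) * X.P.D = W at *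
    have e : X.C.Z * (3 * X.C.Ph * X.C.B) = 3 * (X.C.Ph * X.C.Z * X.C.B) := by ring
    have e' : 2 * (X.C.Ph * X.C.Z) * X.C.B = 2 * (X.C.Ph * X.C.Z * X.C.B) := by ring
    have := Nat.mul_le_mul_right W z
    omega
  · rw [Bg.vol, mul_comm, ← smul_eq_mul]
    exact sum_le_card_nsmul _ _ _ fun a _ => by
      have := h.wf.deg a
      change 1 + (X.G.adj.get a).length ≤ 4
      omega

/-- a single class is light -/
theorem Inv.cls_wt (i : X.Inv s N) (h : X.Ok) (g : X.Good s.2 N) (k : isC X.G s.2 v) :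
    wtC s.2 v * X.P.D ≤ 2 * X.C.Ph * X.C.B := by
  have a := g.2.snk v k
  have b := (i.lt_B h (i.arcs.sink k).1).2.le
  have c := mul_le_mul_of_nonneg_left b (by positivity : (0 : ℤ) ≤ 2 * X.C.Ph)
  unfold wtC
  exact_mod_cast a.trans c

/-! ### the duals in the names of the data -/

theorem Ok.s0_le (h : X.Ok) (f : Flo N X.C.lam) {e : ℕ} (he : e ∈ N.E) :
    (X.P.s0 : ℤ) ≤ N.X e := by have := (f e he).1; have := h.sm.2.2; omega

/-- fall along a plain arc -/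
theorem Inv.fall_plain (i : X.Inv s N) (h : X.Ok) (q : Quiet X.P N) (hy : Dual X.P N y) {o : ℕ}
    (ho : o < X.G.nd) (k : s.2.pr.get o = true) :
    y (s.2.cls.get (X.G.tl.get o) + 1) - 11 / 10 * ((X.P.D : ℝ) / N.X (5 * o)) ≤
      y (X.G.hd o + 1) := by
  obtain ⟨a, b⟩ := i.arcs.plain ho k
  have := (i.shp' h).fall hy a (.inl (b ▸ shp_A h.wf i.cmb ho k)) (h.s0_le (i.flo h q) a)
  rwa [b] at this

/-- fall along a node arc -/
theorem Inv.fall_node (i : X.Inv s N) (h : X.Ok) (q : Quiet X.P N) (hy : Dual X.P N y)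
    (hv : v < X.G.n) (k : s.2.st.get v = 1) :
    y (v + 1) - 11 / 10 * ((X.P.D : ℝ) / N.X (5 * v + 1)) ≤
      y (s.2.cls.get (s.2.mt.get v) + 1) := by
  obtain ⟨a, b⟩ := i.arcs.entry hv (.inl k)
  have := (i.shp' h).fall hy a (.inr (b ▸ shp_N i.cmb hv k)) (h.s0_le (i.flo h q) a)
  rwa [b, aE_a i.cmb hv k] at this

/-- the dual of a class is its price -/
theorem Inv.price (i : X.Inv s N) (h : X.Ok) (q : Quiet X.P N) (hy : Dual X.P N y)
    (k : isC X.G s.2 v) :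
    9 / 10 * (X.C.Z * wtC s.2 v * ((X.P.D : ℝ) / N.X (5 * v + 2))) - 1 / 400 ≤ y (v + 1) ∧
      y (v + 1) ≤ 11 / 10 * (X.C.Z * wtC s.2 v * ((X.P.D : ℝ) / N.X (5 * v + 2))) := by
  obtain ⟨a, b⟩ := i.arcs.sink k
  have u := (i.shp' h).price_le hy a (b ▸ shp_K i.cmb k)
  have l := (i.shp' h).le_price hy a (b ▸ shp_K i.cmb k) (h.s0_le (i.flo h q) a)
  rw [b] at u l
  simp only [snkA] at u l
  unfold wtC
  push_cast at u l ⊢
  exact ⟨u, l⟩

/-- the dual of a pending vertex -/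
theorem Inv.pend_le (i : X.Inv s N) (h : X.Ok) (q : Quiet X.P N) (hy : Dual X.P N y)
    (hv : v < X.G.n) (k : s.2.st.get v = 0) :
    y (v + 1) ≤ 11 / 10 * ((X.P.D : ℝ) / N.X (5 * v + 4)) + 11 / 5 * X.C.Z := by
  obtain ⟨a, b⟩ := i.arcs.pend hv k
  have := (i.shp' h).pend_le hy a (b ▸ shp_U hv k) (h.s0_le (i.flo h q) a)
  rwa [b] at this

theorem Inv.le_pend (i : X.Inv s N) (h : X.Ok) (g : X.Good s.2 N) (hy : Dual X.P N y)
    (hv : v < X.G.n) (k : s.2.st.get v = 0) : 6 / 7 * (X.C.Z : ℝ) - 1 ≤ y (v + 1) := by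
  obtain ⟨a, b⟩ := i.arcs.pend hv k
  have p := g.2.pnd v hv k
  have := (i.shp' h).le_pend hy a (b ▸ shp_U hv k) (by omega)
  rwa [b] at this

/-- a plain arc carries at most the flow of the arc that leaves its head -/
theorem Inv.plain_le_node (i : X.Inv s N) (h : X.Ok) {o : ℕ} (ho : o < X.G.nd)
    (k : s.2.pr.get o = true) (k1 : s.2.st.get (X.G.hd o) = 1) :
    N.X (5 * o) ≤ N.X (5 * X.G.hd o + 1) := by
  obtain ⟨a, b⟩ := i.arcs.plain ho k
  obtain ⟨c, d⟩ := i.arcs.entry (h.wf.hd_lt ho) (.inl k1)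
  exact (i.shp' h).in_le_out a c (b ▸ (shp_A h.wf i.cmb ho k).2.1)
    (by rw [b, d, aE_a i.cmb (h.wf.hd_lt ho) k1]; rfl)

theorem Inv.plain_le_pend (i : X.Inv s N) (h : X.Ok) {o : ℕ} (ho : o < X.G.nd)
    (k : s.2.pr.get o = true) (k0 : s.2.st.get (X.G.hd o) = 0) :
    N.X (5 * o) ≤ N.X (5 * X.G.hd o + 4) := by
  obtain ⟨a, b⟩ := i.arcs.plain ho k
  obtain ⟨c, d⟩ := i.arcs.pend (h.wf.hd_lt ho) k0
  exact (i.shp' h).in_le_out a c (b ▸ (shp_A h.wf i.cmb ho k).2.1) (by rw [b, d]; rfl)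

end Cx

end Crest.Agent.N325.P2
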