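import Crest.Agent.N325.P2.Clo
import Crest.Agent.N325.Mg.Defs
import Crest.Agent.N325.Dm.Test
import Crest.Agent.N325.On.Opn

/-!
# Row 325, part II (helper95): the EDGE event — merge or augment
-/

set_option autoImplicit false
open Finset

namespace Crest.Agent.N325.P2

open Crest.Agent.N325.Tw Crest.Agent.N325.Ip Crest.Agent.N325.Mt Crest.Agent.N325.Bf
open Crest.Agent.N325.Dm Crest.Agent.N325.On

variable {T : Type}

/-- **the EDGE event** -/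
def edgeE (E : Env T) (mg : S T → List ℕ → List ℕ → ℕ → List ℕ → R (S T))
    (ag : S T → ℕ → List ℕ → ℕ × List (ℕ × ℕ) → ℕ × List (ℕ × ℕ) → R (S T))
    (wk : Dt → List ℕ × List ℕ × Ip.St T → R (List (List ℕ) × Ip.St T))
    (s : S T) (o : ℕ) (q : List ℕ) : R (S T) :=
  nat (8 * E.C.nu + 2) >>= fun m =>
  dom (bgOf E.G s.2) (s.2.cls.get (E.G.tl.get o)) (s.2.cls.get (E.G.hd o)) m.size >>= fun r =>
  Option.casesOn r
    (opn (bgOf E.G s.2) (fun a => s.2.cls.get (s.2.mt.get a))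
      (fun c => min (s.2.cw.get c + 1) E.C.M) (wk s.2) E.C.nu
      (s.2.cls.get (E.G.tl.get o)) (s.2.cls.get (E.G.hd o)) s.1 >>= fun w =>
        ag (w.2.2, s.2) o q w.1 w.2.1)
    fun z => mg s z.1 z.2.1 z.2.2 q

namespace Cx
variable (X : Cx T)

/-- the walks in a good state: weight `bud` each, amortised time `A` -/
def WkStmt (wk : Dt → List ℕ × List ℕ × Ip.St T → R (List (List ℕ) × Ip.St T))
    (bud md A : ℕ) : Prop :=
  ∀ (s : S T) N, X.Inv s N → X.Good s.2 N → X.Pt s.1 + 2 * A ≤ X.Bd.F →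
    WkSpec X.g (bgOf X.G s.2) (isC X.G s.2) (wtC s.2) (wk s.2) X.C.nu X.C.L bud md
      fun i s' t => X.IL s' N ∧ t + X.Pt s' ≤ X.Pt s.1 + i * A

/-- surplus and light classes in a good state -/
def SurStmt (wm : ℕ) : Prop :=
  ∀ (s : S T) N, X.Inv s N → X.Good s.2 N → (bgOf X.G s.2).Surplus (isC X.G s.2) ∧
    ∀ c, isC X.G s.2 c → wtC s.2 c ≤ wm

/-- the numeric conditions of the EDGE event -/
structure EdgeNum (bud md A wm Wb : ℕ) : Prop where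
  hW : X.C.nu + 3 * wm + 2 * (X.C.L * bud) ≤ Wb
  hmd : Wb ≤ md
  gX : 16 * Wb + 4 ≤ X.g.X
  Rm : 2 * A + 100 * (2 * Wb + X.G.n + 1) * (2 * X.k.AU) ≤ X.Rm * (2 * X.k.AU)
  Au : 2 * A + 700 * (Wb + X.C.L + 1) + X.κ ≤ X.κ * X.Au

end Cx

theorem wkSpec_congr {σ : Type} {g : Gl} {G : Bg} {Cl : ℕ → Prop} {wt wt' : ℕ → ℕ}
    {wk : List ℕ × List ℕ × σ → R (List (List ℕ) × σ)} {nw L bud md : ℕ} {I : ℕ → σ → ℕ → Prop}
    (hG : G.WF Cl) (e : ∀ c, Cl c → wt' c = wt c) (h : WkSpec g G Cl wt wk nw L bud md I) :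
    WkSpec g G Cl wt' wk nw L bud md I := by
  have ws : ∀ A : List ℕ, (∀ c ∈ A, Cl c) → On.wsum wt' A = On.wsum wt A := fun A k =>
    congrArg _ (List.map_congr_left fun c i => e c (k c i))
  intro i X D s t a b c d f k m
  rw [ws X c] at k m
  exact (h i X D s t a b c d f k m).mono fun r t' ⟨p1, p2, p3, p4, p5⟩ => ⟨p1, p2, p3,
    fun W j => ⟨(p4 W j).1, by
      obtain ⟨x, u, v⟩ := (p4 W j).1
      rw [ws W (v.cl hG (c x u))]; exact (p4 W j).2⟩, p5⟩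

/-- **EDGE** -/
theorem Cx.edgeSpec_of {X : Cx T} (h : X.Ok) {mg : S T → List ℕ → List ℕ → ℕ → List ℕ → R (S T)}
    {ag : S T → ℕ → List ℕ → ℕ × List (ℕ × ℕ) → ℕ × List (ℕ × ℕ) → R (S T)}
    {wk : Dt → List ℕ × List ℕ × Ip.St T → R (List (List ℕ) × Ip.St T)} {bud md A wm Wb : ℕ}
    (hm : X.MergeSpec mg) (ha : X.AugSpec (2 * Wb) ag) (hk : X.WkStmt wk bud md A)
    (hs : X.SurStmt wm) (hn : X.EdgeNum bud md A wm Wb) :
    X.EdgeSpec (edgeE X.toEnv mg ag wk) := by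
  intro s N o q i rm gd eq nd s2
  have lo : o < X.G.nd := i.q.lt o (eq ▸ List.mem_cons_self)
  obtain ⟨-, c1, c2, ne⟩ := ends_of_not_done h.wf i.cmb lo nd s2
  have wf := wf_bgOf h.wf i.cmb
  obtain ⟨su, lt⟩ := hs s N i gd
  have n1 := hn.hW
  have n2 := hn.gX
  have sz : 8 * X.C.nu + 2 < 2 ^ (8 * X.C.nu + 2).size := Nat.lt_size_self _
  have sz' : 2 ^ (8 * X.C.nu + 2).size ≤ 2 * (8 * X.C.nu + 2) := by
    have a : 0 < (8 * X.C.nu + 2).size := Nat.size_pos.2 (by omega)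
    have b := Nat.lt_size.1 (Nat.sub_lt a one_pos)
    rw [show (8 * X.C.nu + 2).size = (8 * X.C.nu + 2).size - 1 + 1 by omega, pow_succ]
    omega
  have k1 : (1 : ℝ) ≤ X.κ := by
    have := h.κ_le; exact_mod_cast (by omega : 1 ≤ X.κ)
  rw [edgeE, sp_bind, sp_nat]
  refine ⟨by omega, (sp_dom wf su c1 c2 ne (by omega)).bind ?_⟩
  rintro (_ | ⟨A', C', b⟩) t ⟨d1, d2, d3⟩
  · have ew : ∀ c, isC X.G s.2 c → min (s.2.cw.get c + 1) X.C.M = wtC s.2 c := fun c k =>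
      min_eq_left (by have := (i.cmb.cw_le k).2; have := h.n_le_M; omega)
    have ws : ∀ A : List ℕ, (∀ c ∈ A, isC X.G s.2 c) →
        On.wsum (fun c => min (s.2.cw.get c + 1) X.C.M) A = On.wsum (wtC s.2) A := fun A k =>
      congrArg _ (List.map_congr_left fun c i => ew c (k c i))
    have r1 : (2 * A + 100 * (2 * Wb + X.G.n + 1) * (2 * X.k.AU) : ℝ) ≤ X.Rm * (2 * X.k.AU) := by
      exact_mod_cast hn.Rm
    have r0 : (0 : ℝ) ≤ 100 * (2 * Wb + X.G.n + 1) * (2 * X.k.AU) := by positivity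
    have r2 : X.Pt s.1 + X.Rm * (2 * X.k.AU) ≤ X.Bd.F := rm
    refine (sp_opn (wm := wm) wf h.wf.deg
      (fun c a k e => ((isBg_bgOf h.wf i.cmb).inner i.cmb k e).2.2.2.symm)
      (fun c k => by rw [ew c k]; exact ⟨Nat.le_add_left _ _, lt c k⟩)
      (wkSpec_congr wf ew (hk s N i gd (by linarith))) c1 c2 ne.symm
      (fun A C d k => by have := d2 rfl A C d k; omega) n1 hn.hmd (by omega)
      ⟨i.il, by simp⟩).bind ?_
    rintro w t1 ⟨⟨ov, tw⟩, j, hj, t2, ⟨il, pt⟩, tt⟩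
    have j2 : (j : ℝ) * A ≤ 2 * A :=
      mul_le_mul_of_nonneg_right (by exact_mod_cast hj) (Nat.cast_nonneg _)
    have t0 : (0 : ℝ) ≤ t2 := Nat.cast_nonneg _
    have w1 := tw.w1
    have w2 := tw.w2
    rw [ws _ (pth_cl wf c1 tw.flp.pth)] at w1
    rw [ws _ (pth_cl tw.flp.wf' c2 tw.pth)] at w2
    refine (ha (w.2.2, s.2) N o q w.1 w.2.1 ov ⟨il, i.arcs, i.cmb, i.q⟩
      (by unfold Cx.RoomN; push_cast; linarith) gd.1 eq nd s2 tw.flp tw.rt1 tw.pth tw.nd tw.off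
      tw.rt2 (by dsimp only; omega)).mono ?_
    rintro s' t3 ⟨N', i', e⟩
    refine ⟨N', i', ?_⟩
    have a1 : (2 * A + 700 * (Wb + X.C.L + 1) + X.κ : ℝ) ≤ X.κ * X.Au := by exact_mod_cast hn.Au
    have a2 : ((t + t1 : ℕ) : ℝ) ≤ (t2 + 700 * (Wb + X.C.L + 1) : ℕ) := by
      exact_mod_cast (by omega : t + t1 ≤ t2 + 700 * (Wb + X.C.L + 1))
    simp only [Cx.Tot] at e ⊢
    push_cast at a2 ⊢
    linarith
  · obtain ⟨r, e1, -⟩ := d1 A' C' b rfl
    refine (hm s N o q A' C' b i rm gd eq (mgb_of_closed h.wf i.cmb su lo nd s2 r.ndA r.ndC r.cl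
      fun A s C b q => r.min A C b q s)).mono ?_
    rintro s' t3 ⟨N', i', e⟩
    refine ⟨N', i', ?_⟩
    have v : (bgOf X.G s.2).vol A'.toFinset ≤ 4 * A'.length := by
      refine (sum_le_card_nsmul _ _ 4 fun a _ => ?_).trans ?_
      · have := h.wf.deg a; change 1 + (X.G.adj.get a).length ≤ 4; omega
      · rw [smul_eq_mul, mul_comm]; exact Nat.mul_le_mul_left _ (List.toFinset_card_le _)
    have a2 : (t : ℝ) ≤ 1000 * A'.length := by exact_mod_cast (by omega : t ≤ 1000 * A'.length)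
    have a3 := mul_le_mul_of_nonneg_right k1 (by positivity : (0 : ℝ) ≤ 1000 * A'.length)
    push_cast
    linarith

end Crest.Agent.N325.P2
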