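import Crest.Agent.N325.P2.DropF1
import Crest.Agent.N325.Lb.Bar

/-!
# Row 325, part II (helper73): DROP — bounds on the new flows, the barrier
-/

set_option autoImplicit false
open Finset

namespace Crest.Agent.N325.P2

open Crest.Agent.N325.Tw Crest.Agent.N325.Ip Crest.Agent.N325.Mt Crest.Agent.N325.Bf
  Crest.Agent.N325.Lb

theorem adX_ne {D : ℕ} {C : Cf} {G : Gf} {d d' : Dt} {W : List ℕ} {N : Net} {e : ℕ}
    (k : adX G d W N e ≠ 0) : (arcOf D C G d' e).o3 = C.M ∧ (arcOf D C G d' e).c3 = 1 := by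
  by_contra c
  refine k ?_
  rw [adX, sum_eq_zero, sum_eq_zero, add_zero] <;> intro o ho <;> refine absurd ?_ c <;>
    rw [← (mem_filter.1 ho).2]
  · rw [arcOf2]; exact ⟨rfl, rfl⟩
  · rw [arcOf3]; exact ⟨rfl, rfl⟩

namespace Cx
variable {T : Type} {X : Cx T} {s : St T} {d d' : Dt} {W Y : List ℕ} {N N' : Net} {e v : ℕ}

theorem Inv.sumJ (i : X.Inv (s, d) N) (h : X.Ok) {J : Finset ℕ}
    (hJ : ∀ o ∈ J, o < X.G.nd ∧ d.pr.get o = true) :
    0 ≤ ∑ o ∈ J, N.X (5 * o) ∧ ∑ o ∈ J, N.X (5 * o) ≤ 3 * X.G.n * X.C.B := by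
  have k := fun o ho => i.lt_B h (i.arcs.plain (hJ o ho).1 (hJ o ho).2).1
  refine ⟨sum_nonneg fun o ho => (k o ho).1.le, (sum_le_card_nsmul _ _ _ fun o ho =>
    (k o ho).2.le).trans ?_⟩
  have : #J ≤ 3 * X.G.n := (card_le_card fun o ho => mem_range.2 (hJ o ho).1).trans
    ((card_range _).le.trans h.wf.nd_le)
  rw [nsmul_eq_mul]
  exact mul_le_mul_of_nonneg_right (by exact_mod_cast this) (by positivity)

theorem Ok.nB_le (h : X.Ok) : 100 * ((X.G.n : ℤ) * X.C.B + X.C.B + X.P.D) ≤ X.C.M := by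
  have : (100 * (X.G.n + 1) * (X.C.B + X.P.D) : ℤ) ≤ X.C.M := by exact_mod_cast h.M
  nlinarith [mul_nonneg (Int.natCast_nonneg X.G.n) (Int.natCast_nonneg X.P.D)]

theorem Inv.adX_bd (i : X.Inv (s, d) N) (h : X.Ok) (e : ℕ) :
    0 ≤ adX X.G d W N e ∧ adX X.G d W N e ≤ 6 * (X.G.n * X.C.B) := by
  have a := i.sumJ h (J := (dJ1 X.G d W).filter fun o => 5 * X.G.hd o + 3 = e) fun o ho =>
    have := mem_dJ1.1 (mem_filter.1 ho).1; ⟨this.1, this.2.1⟩
  have b := i.sumJ h (J := (dJ2 X.G d W).filter fun o => 5 * d.cls.get (X.G.tl.get o) + 2 = e)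
    fun o ho => have := mem_dJ2.1 (mem_filter.1 ho).1; ⟨this.1, this.2.1⟩
  unfold adX
  constructor <;> linarith [a.1, a.2, b.1, b.2]

/-- the new flows are above the floor -/
theorem Inv.flo_nX (i : X.Inv (s, d) N) (h : X.Ok) (f : Flo N X.C.lam) (p : Drp X.G d W d')
    (w : Wk X.G d W) (k : has X.G d' e) : (X.C.lam : ℤ) ≤ nX X.P.D X.C X.G d W N e ∧
      nX X.P.D X.C X.G d W N e + X.C.lam ≤ (arcOf X.P.D X.C X.G d' e).o3 := by
  have := h.lam_le'; have := h.B.2; have := h.BD_le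
  unfold nX
  by_cases c : Fr W e
  · rw [if_pos c]
    obtain ⟨v, rfl | rfl | rfl | rfl | rfl⟩ := id_cases e
    · exact absurd c fr0
    · rw [if_pos (by omega), arcOf1]; simp only [aE, capA]; omega
    · rw [if_pos (by omega), arcOf2]; simp only [snkA]; omega
    · rw [if_neg (by omega), arcOf3]; simp only [aG]; omega
    · rw [if_neg (by omega), arcOf4]; simp only [aU]; omega
  · obtain ⟨k1, k2⟩ := p.kept (D := X.P.D) (C := X.C) w h.wf i.cmb c
    have m := (i.arcs.mem e).2 (k1.1 k).1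
    have a := f e m
    have b := i.adX_bd (W := W) h e
    rw [if_neg c]
    refine ⟨by omega, ?_⟩
    by_cases z : adX X.G d W N e = 0
    · rw [z, add_zero, (k2 k).1, ← i.arcs.arc e m]; exact a.2
    · have := i.lt_B h m; have := h.nB_le
      rw [(adX_ne z).1]; omega

theorem Ok.lM_eq (h : X.Ok) : lM X.P X.Bd = X.Lg - Real.log X.P.D := by
  have a := h.D_pos; have b := h.n_le_M
  rw [h.Mu] at b
  exact Real.log_div (Nat.cast_ne_zero.2 (by omega)) (Nat.cast_ne_zero.2 (by omega))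

/-- the barriers of the new arcs -/
theorem Ok.bar_fresh (h : X.Ok) (k : v < X.G.n) :
    bar X.P X.Bd (capA 0 (v + 1) X.C.B) X.P.D + bar X.P X.Bd (snkA X.C v 2) X.P.D ≤
        1 + 4 * X.Lg + 2 * X.C.Z * lM X.P X.Bd ∧
      bar X.P X.Bd (aG X.C v) X.C.lam + bar X.P X.Bd (aU X.P.D X.C v) X.C.lam ≤
        1 + 4 * X.Lg + 2 * X.C.Z * lM X.P X.Bd := by
  have := h.ids; have := h.nb; have := h.pb; have := h.cb; have := h.Mu; have := h.BD_le
  have := h.Z_pos; have := h.lam_le'; have := h.B.2; have := h.lam_pos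
  have z : X.C.Z * 2 ≤ X.C.Z * (X.G.n + 2) := Nat.mul_le_mul_left _ (by omega)
  have a1 := bar_le_all (e := 0) (B := X.Bd) (A := capA 0 (v + 1) X.C.B) (x := X.P.D) h.D_pos
    h.s0_pos (by simp only [capA, Bn.arc]; omega)
    (h.big rfl (by omega) (by simp only [capA]; omega))
  have a2 := bar_le_fst (e := 0) (B := X.Bd) (A := snkA X.C v 2) (x := X.P.D) h.D_pos
    h.s0_pos (by simp only [snkA, Bn.arc]; omega)
    (h.big rfl (by omega) (by simp only [snkA]; omega))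
  have a3 := bar_le_all (e := 0) (B := X.Bd) (A := aG X.C v) (x := X.C.lam) h.D_pos
    h.s0_pos (by simp only [aG, Bn.arc]; omega) (h.big rfl le_rfl (by simp only [aG]; omega))
  have a4 := Big.bar_eq (e := 0) (B := X.Bd) (A := aU X.P.D X.C v) (x := X.C.lam) h.D_pos
    h.s0_pos (by simp only [aU, Bn.arc]; omega) (h.big rfl le_rfl (by simp only [aU]; omega))
  have d0 : (0 : ℝ) < X.P.D := by exact_mod_cast h.D_pos
  have l1 : (1 : ℝ) ≤ X.C.lam := by exact_mod_cast h.lam_pos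
  have l2 : 20000 * (X.C.lam : ℝ) ≤ X.P.D := by exact_mod_cast h.lam_le'
  have l3 : 20000 * ((X.C.Ph : ℝ) * X.C.Z * X.C.lam) ≤ X.P.D := by exact_mod_cast h.lam_le
  have b1 := Real.log_nonneg l1
  have b2 := Real.log_nonneg (show (1 : ℝ) ≤ 2 * X.P.D - X.C.lam by linarith)
  have b3 := mul_le_mul_of_nonneg_left (Real.log_le_log d0 (show _ ≤ (X.C.lam : ℝ) + X.P.D by
    linarith)) (Nat.cast_nonneg (α := ℝ) X.C.Z)
  have b4 : 5 * (X.C.Ph : ℝ) * X.C.Z * (X.C.lam / X.P.D) ≤ 1 := by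
    rw [← mul_div_assoc, div_le_one d0]; linarith
  have := h.Lg_nonneg
  simp only [capA, snkA, aG, aU, barL] at a1 a2 a3 a4 ⊢
  rw [h.lM_eq]
  simp only [Lg] at *
  push_cast at *
  simp only [add_zero, zero_mul] at *
  constructor <;> linarith

/-- the barrier of an arc that is kept -/
theorem Inv.bar_keep (i : X.Inv (s, d) N) (h : X.Ok) (f : Flo N X.C.lam) (p : Drp X.G d W d')
    (w : Wk X.G d W) (n : DrN X.P.D X.C X.G d d' W N N') (he : e ∈ N'.E.filter (¬Fr W ·)) :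
    bar X.P X.Bd (N'.arc e) (N'.X e) ≤ bar X.P X.Bd (N.arc e) (N.X e) +
      adX X.G d W N e * (((N'.arc e).p : ℝ) / X.P.D + 2 / X.C.M) := by
  obtain ⟨a, b, c⟩ := n.keep p w h.wf i.cmb i.arcs he
  have m := (mem_filter.1 he).1
  by_cases z : adX X.G d W N e = 0
  · rw [b, c, z]; simp
  have g := i.flo_nX h f p w ((n.mem e).1 m)
  have o := adX_ne (D := X.P.D) (C := X.C) (d' := d') z
  have o1 := arcOf_o1 (D := X.P.D) (C := X.C) (G := X.G) (d := d') e
  rw [← n.X e m, ← n.arc e m, b] at g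
  rw [← n.arc e m, b] at o o1
  have q := Inv.pos h i.il.1 a
  have := i.lt_B h a; have := h.nB_le; have u := i.adX_bd (W := W) h e
  have u1 : (0 : ℝ) ≤ adX X.G d W N e := by exact_mod_cast u.1
  have u2 : 2 * ((N.X e : ℝ) + adX X.G d W N e) ≤ X.C.M := by
    exact_mod_cast (by omega : 2 * (N.X e + adX X.G d W N e) ≤ X.C.M)
  have M0 : (0 : ℝ) < X.C.M := by have := h.n_le_M; exact_mod_cast (by omega : 0 < X.C.M)
  have t := bar_move h.D_pos h.s0_pos (h.ip.view i.il.1 e a).2.1 q.1 q.2 (h.big o1 g.1 g.2)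
    (t := 0) (u := adX X.G d W N e * (2 / X.C.M)) le_rfl (by rw [c]; push_cast; linarith) (by
      rw [c, o.1]; push_cast
      have : (1 : ℝ) ≤ 2 / X.C.M * (X.C.M - (N.X e + adX X.G d W N e)) := by
        rw [div_mul_eq_mul_div, le_div_iff₀ M0]; linarith
      nlinarith [mul_le_mul_of_nonneg_left this u1])
  rw [b]
  refine t.trans (le_of_eq ?_)
  rw [c, o.2]; push_cast; ring

/-- **the barrier after DROP** -/
theorem Inv.pot_drop (i : X.Inv (s, d) N) (h : X.Ok) (f : Flo N X.C.lam)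
    (hY : ∀ c ∈ Y, isC X.G d c) (p : Drp X.G d (drW d Y) d')
    (n : DrN X.P.D X.C X.G d d' (drW d Y) N N') :
    pot X.P X.Bd N' + ∑ c ∈ Y.toFinset, (X.C.Z * wtC d c : ℝ) * (X.Lg - Real.log (N.X (5 * c + 2)))
      ≤ pot X.P X.Bd N + #(drW d Y).toFinset * (1 + 4 * X.Lg + 2 * X.C.Z * lM X.P X.Bd) +
        (5 * X.C.Ph * X.C.Z * (exitF X.G d N Y.toFinset : ℝ) / X.P.D + 1 / 2) := by
  have hc : Cmb X.G d := i.cmb
  have w := wk_drW hc hY
  have M0 : (0 : ℝ) < X.C.M := by have := h.n_le_M; exact_mod_cast (by omega : 0 < X.C.M)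
  have x0 : ∀ o < X.G.nd, d.pr.get o = true → (0 : ℝ) ≤ N.X (5 * o) * (2 / X.C.M) := fun o a b =>
    mul_nonneg (by exact_mod_cast (i.lt_B h (i.arcs.plain a b).1).1.le) (by positivity)
  have a1 : ∑ e ∈ N'.E with Fr (drW d Y) e, bar X.P X.Bd (N'.arc e) (N'.X e) ≤
      #(drW d Y).toFinset * (1 + 4 * X.Lg + 2 * X.C.Z * lM X.P X.Bd) := by
    rw [n.sum_fresh p w, ← nsmul_eq_mul]
    refine sum_le_card_nsmul _ _ _ fun v hv => ?_
    have := h.bar_fresh (w.lt v (List.mem_toFinset.1 hv)).1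
    split_ifs
    exacts [this.1, this.2]
  have a2 := sum_le_sum fun e he => i.bar_keep (e := e) h f p w n he
  have a3 : ∑ e ∈ N'.E with ¬Fr (drW d Y) e, bar X.P X.Bd (N.arc e) (N.X e) +
      ∑ c ∈ Y.toFinset, bar X.P X.Bd (N.arc (5 * c + 2)) (N.X (5 * c + 2)) ≤ pot X.P X.Bd N := by
    rw [← sum_image (f := fun e => bar X.P X.Bd (N.arc e) (N.X e)) (g := (5 * · + 2))
      fun _ _ _ _ k => by simpa using k, ← sum_union]
    · refine sum_le_sum_of_subset_of_nonneg (union_subset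
        (fun e he => (n.keep p w h.wf i.cmb i.arcs he).1) fun e he => ?_)
        fun e he _ => Inv.bar_nonneg h i.il.1 he
      obtain ⟨c, b, rfl⟩ := mem_image.1 he
      exact (i.arcs.sink (hY c (List.mem_toFinset.1 b))).1
    · refine disjoint_left.2 fun e he k => (mem_filter.1 he).2 ?_
      obtain ⟨c, b, rfl⟩ := mem_image.1 k
      exact (fr_add (by omega) (by omega)).2 ((isC_drW i.cmb hY).2 (List.mem_toFinset.1 b)).1
  have a4 : ∑ c ∈ Y.toFinset, (X.C.Z * wtC d c : ℝ) * (X.Lg - Real.log (N.X (5 * c + 2))) ≤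
      ∑ c ∈ Y.toFinset, bar X.P X.Bd (N.arc (5 * c + 2)) (N.X (5 * c + 2)) :=
    sum_le_sum fun c hc => by
      obtain ⟨a, b⟩ := i.arcs.sink (hY c (List.mem_toFinset.1 hc))
      have q := Inv.pos h i.il.1 a
      have := (le_bar h.D_pos h.s0_pos (h.ip.view i.il.1 _ a).2.1 q.1 q.2).1
      refine le_trans (le_of_eq ?_) this
      rw [b]; simp [snkA, wtC, Lg]
  have t1 := sum_fib (N'.E.filter (¬Fr (drW d Y) ·)) (dJ1 X.G d (drW d Y))
    (fun o => 5 * X.G.hd o + 3) (fun o => N.X (5 * o))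
    fun e => ((N'.arc e).p : ℝ) / X.P.D + 2 / X.C.M
  have t2 := sum_fib (N'.E.filter (¬Fr (drW d Y) ·)) (dJ2 X.G d (drW d Y))
    (fun o => 5 * d.cls.get (X.G.tl.get o) + 2) (fun o => N.X (5 * o))
    fun e => ((N'.arc e).p : ℝ) / X.P.D + 2 / X.C.M
  have t3 := t1.trans_le (sum_le_sum (g := fun o => (if X.G.hd o ∉ drW d Y then (N.X (5 * o) : ℝ)
      else 0) * (5 * X.C.Ph * X.C.Z / X.P.D) + N.X (5 * o) * (2 / X.C.M)) fun o ho => by
    obtain ⟨b1, b2, -⟩ := mem_dJ1.1 ho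
    obtain ⟨k1, k2⟩ := n.tg1 p h.wf i.cmb b1 b2
    by_cases q : X.G.hd o ∉ drW d Y
    · rw [if_pos (k1.2 q), if_pos q, k2 q]; simp only [aG]; push_cast; linarith
    · rw [if_neg (mt k1.1 q), if_neg q, zero_mul, zero_add]; exact x0 o b1 b2)
  have t4 := t2.trans_le (sum_le_sum (g := fun o => (N.X (5 * o) : ℝ) * (2 / X.C.M)) fun o ho => by
    obtain ⟨b1, b2, -⟩ := mem_dJ2.1 ho
    obtain ⟨k1, k2⟩ := n.tg2 p w h.wf i.cmb b1 b2
    by_cases q : X.G.tl.get o ∉ drW d Y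
    · obtain ⟨x, k⟩ := k2 q
      rw [if_pos (k1.2 q), k]; simp [snkA]
    · rw [if_neg (mt k1.1 q)]; exact x0 o b1 b2)
  have t5 : ∑ o ∈ dJ1 X.G d (drW d Y), (if X.G.hd o ∉ drW d Y then (N.X (5 * o) : ℝ) else 0) =
      exitF X.G d N Y.toFinset := by
    rw [exitF, Int.cast_sum, ← sum_filter, dJ1, filter_filter]
    refine sum_congr (filter_congr fun o ho => ?_) fun _ _ => rfl
    have a := mem_range.1 ho
    rw [and_assoc]
    refine and_congr_right fun b => ?_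
    obtain ⟨c1, c2, -⟩ := hc.pr o a b
    simp [mem_drW hc hY, h.wf.tl_lt o a, h.wf.hd_lt a, c1, c2]
  have b1 := (i.sumJ h (J := dJ1 X.G d (drW d Y)) fun o ho =>
    have := mem_dJ1.1 ho; ⟨this.1, this.2.1⟩).2
  have b2 := (i.sumJ h (J := dJ2 X.G d (drW d Y)) fun o ho =>
    have := mem_dJ2.1 ho; ⟨this.1, this.2.1⟩).2
  have b3 : ((∑ o ∈ dJ1 X.G d (drW d Y), N.X (5 * o) : ℤ) +
      (∑ o ∈ dJ2 X.G d (drW d Y), N.X (5 * o) : ℤ) : ℝ) * (2 / X.C.M) ≤ 1 / 2 := by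
    have := h.nB_le
    rw [← mul_div_assoc, div_le_div_iff₀ M0 two_pos]
    exact_mod_cast (by linarith [Int.natCast_nonneg X.C.B, Int.natCast_nonneg X.P.D] :
      (∑ o ∈ dJ1 X.G d (drW d Y), N.X (5 * o) + ∑ o ∈ dJ2 X.G d (drW d Y), N.X (5 * o)) * 2 * 2 ≤
        1 * (X.C.M : ℤ))
  rw [sum_add_distrib, ← sum_mul, ← sum_mul, t5, ← Int.cast_sum] at t3
  rw [← sum_mul, ← Int.cast_sum] at t4
  simp only [adX, Int.cast_add, add_mul, sum_add_distrib] at a2
  rw [pot, ← sum_filter_add_sum_filter_not _ (Fr (drW d Y) ·), mul_div_right_comm]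
  linarith

end Cx

end Crest.Agent.N325.P2
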