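import Crest.Agent.N325.P2.DropE
import Crest.Agent.N325.P2.DropF2
import Crest.Agent.N325.P2.DropP

/-!
# Row 325, part II (helper73): DROP meets its specification
-/

set_option autoImplicit false
open Finset

namespace Crest.Agent.N325.P2.Cx

open Crest.Agent.N325.Tw Crest.Agent.N325.Ip Crest.Agent.N325.Mt Crest.Agent.N325.Bf
  Crest.Agent.N325.On

variable {T : Type} {X : Cx T} {s : St T} {d d' : Dt} {Y : List ℕ} {N N' : Net}

/-- the balance of the potential -/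
theorem Inv.bal_drop (i : X.Inv (s, d) N) (h : X.Ok) (f : Flo N X.C.lam)
    (hY : ∀ c ∈ Y, isC X.G d c) (nd : Y.Nodup) (p : Drp X.G d (drW d Y) d')
    (n : DrN X.P.D X.C X.G d d' (drW d Y) N N') :
    wsum (wtC d) Y + (pot X.P X.Bd N' + X.Ψ d') + ∑ c ∈ Y.toFinset, (X.C.Z * wtC d c : ℝ) *
      (Real.log (wtC d c * X.P.D / N.X (5 * c + 2)) - 15) ≤ pot X.P X.Bd N + X.Ψ d +
        (5 * X.C.Ph * X.C.Z * (exitF X.G d N Y.toFinset : ℝ) / X.P.D + 1) := by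
  have hc : Cmb X.G d := i.cmb
  have a := i.pot_drop h f hY p n
  have b := Psi_drop (p.drD hc i.q hY nd) hc fun c k => hY c (List.mem_toFinset.1 k)
  have c : ∑ c ∈ Y.toFinset, (X.C.Z * wtC d c : ℝ) *
      (Real.log (wtC d c * X.P.D / N.X (5 * c + 2)) - 15) =
      ∑ c ∈ Y.toFinset, (X.C.Z * wtC d c : ℝ) * (X.Lg - Real.log (N.X (5 * c + 2))) -
        ∑ c ∈ Y.toFinset, (X.C.Z * wtC d c : ℝ) * (lM X.P X.Bd - Real.log (wtC d c)) -
          15 * X.C.Z * wsum (wtC d) Y := by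
    rw [On.wsum, ← List.sum_toFinset _ nd, Nat.cast_sum, mul_sum, ← sum_sub_distrib, ← sum_sub_distrib]
    refine sum_congr rfl fun c k => ?_
    have x0 : (0 : ℝ) < N.X (5 * c + 2) := by
      exact_mod_cast (i.lt_B h (i.arcs.sink (hY c (List.mem_toFinset.1 k))).1).1
    have d0 : (0 : ℝ) < X.P.D := by exact_mod_cast h.D_pos
    have w0 : (0 : ℝ) < wtC d c := by exact_mod_cast Nat.succ_pos _
    rw [Real.log_div (by positivity) x0.ne', Real.log_mul w0.ne' d0.ne', h.lM_eq]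
    ring
  rw [List.toFinset_card_of_nodup (nodup_drW hc hY nd), ← card_drUR hc hY nd] at a
  rw [c, ← card_dr hc hY nd]
  have l := h.Lg_le
  have z : (20000 : ℝ) ≤ X.C.Z := by exact_mod_cast h.Z_pos
  have k : (X.C.K : ℝ) ≤ X.C.Z := by have := h.Z.1; exact_mod_cast (by omega : X.C.K ≤ X.C.Z)
  have l2 := mul_le_mul_of_nonneg_left (Real.log_two_lt_d9.le.trans (by norm_num : _ ≤ (1 : ℝ)))
    (Nat.cast_nonneg (α := ℝ) X.C.Z)
  have u := mul_le_mul_of_nonneg_left (show 2 + 4 * X.Lg ≤ X.C.Z by linarith)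
    (Nat.cast_nonneg (α := ℝ) #(drU X.G d Y.toFinset))
  have r := mul_le_mul_of_nonneg_left (show 3 + 4 * X.Lg + (2 * X.C.Z * Real.log 2 + X.C.K) ≤
    24 * X.C.Z by linarith) (Nat.cast_nonneg (α := ℝ) #(drR X.G d Y.toFinset))
  push_cast at a ⊢
  linarith

/-- **DROP** -/
theorem dropSpec (h : X.Ok) : X.DropSpec (dropE X.toEnv) := by
  rintro ⟨s, d⟩ N Y i rm f nd hY
  unfold dropE
  split_ifs with e
  · subst e
    exact ⟨N, i, f, rfl, ⟨[], rfl⟩, by simp, by simp [On.wsum], by simp [exitF]⟩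
  have hc : Cmb X.G d := i.cmb
  have hG := h.wf
  have w := wk_drW hc hY
  have hW : ∀ v ∈ drW d Y, v < X.G.n := fun v hv => (w.lt v hv).1
  have ndW := nodup_drW hc hY nd
  have lW : (drW d Y).length ≤ X.G.n := by
    rw [← List.toFinset_card_of_nodup ndW]
    exact (card_le_card fun v hv => mem_range.2 (hW v (List.mem_toFinset.1 hv))).trans
      (card_range _).le
  have lw := length_drW hc hY
  have w1 := (List.length_pos_iff.2 e).trans_le (length_le_wsum d Y)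
  have lL := length_drI hG d (drW d Y)
  have gX := h.M_le_X
  have au : (100 : ℝ) ≤ X.k.AU := by exact_mod_cast h.AU
  have L1 : ((drI X.G d (drW d Y)).length : ℝ) ≤ 16 * X.G.n := by
    exact_mod_cast (by omega : (drI X.G d (drW d Y)).length ≤ 16 * X.G.n)
  have L2 : ((drI X.G d (drW d Y)).length : ℝ) ≤ 16 * wsum (wtC d) Y := by
    exact_mod_cast (by omega : (drI X.G d (drW d Y)).length ≤ 16 * wsum (wtC d) Y)
  have L3 := mul_le_mul_of_nonneg_left L1 (Nat.cast_nonneg (α := ℝ) X.k.AU)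
  have L4 := mul_le_mul_of_nonneg_left L2 (Nat.cast_nonneg (α := ℝ) X.k.AU)
  have n0 := mul_le_mul_of_nonneg_left au (Nat.cast_nonneg (α := ℝ) X.G.n)
  have n1 := Nat.cast_nonneg (α := ℝ) X.G.n
  simp only [RoomN] at rm
  push_cast at rm
  refine (sp_drp hG hc i.q hY nd (by have := h.n_le_M; omega)).bind
    fun ⟨d', W, L⟩ t1 ⟨e1, e2, p, dd, k1⟩ => ?_
  dsimp only at e1 e2 p dd ⊢
  subst e2 e1
  refine (sp_rd h i.il i.arcs.mem (by have := phi_le_Pt (X := X) (s := s); linarith)).bind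
    fun ⟨s1, x0⟩ t2 ⟨il, hx, k2, _⟩ => (sp_flatMapP _ _).bind fun O t3 ⟨eO, k3⟩ =>
    (sp_mapP rv O).bind fun O' t4 ⟨eO', k4⟩ => ?_
  dsimp only at il hx k2 ⊢
  have mO : ∀ o, o ∈ O ↔ o < X.G.nd ∧ X.G.tl.get o ∈ drW d Y := fun o => eO ▸ mem_drO hG hW
  have mO' : ∀ o, o ∈ O' ↔ o < X.G.nd ∧ X.G.hd o ∈ drW d Y := fun o => by
    rw [eO', List.mem_map]
    exact ⟨fun ⟨x, k, j⟩ => j ▸ ⟨hG.rv_lt ((mO x).1 k).1, by rw [Gf.hd_rv]; exact ((mO x).1 k).2⟩,
      fun k => ⟨rv o, (mO _).2 ⟨hG.rv_lt k.1, k.2⟩, rv_rv o⟩⟩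
  have lO : O.length ≤ 3 * (drW d Y).length := eO ▸ length_drO hG _
  have lO' : O'.length = O.length := by rw [eO', List.length_map]
  have ndO : O.Nodup := eO ▸ List.nodup_flatMap.2 ⟨fun v hv => hG.nodup v (hW v hv),
    List.Pairwise.imp_of_mem (fun {a b} ha hb ne o k1 k2 => ne
      (((hG.mem a (hW a ha) o).1 k1).2.symm.trans ((hG.mem b (hW b hb) o).1 k2).2)) ndW⟩
  have ndO' : O'.Nodup := eO' ▸ ndO.map fun a b k => by rw [← rv_rv a, k, rv_rv]
  have hb : ∀ e, (x0.get e).natAbs ≤ X.C.B := fun e => by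
    rw [hx]
    split_ifs with c
    · have := i.lt_B h c.2; omega
    · exact Nat.zero_le _
  have oB : O.length * X.C.B ≤ 3 * (X.G.n * X.C.B) := by
    rw [← mul_assoc]; exact Nat.mul_le_mul_right _ (by omega)
  have nB := h.nB_le
  refine (sp_accL _ ndO hb hb (by omega)).bind fun x1 t5 ⟨a1, b1, k5⟩ =>
    (sp_accL _ ndO' hb b1 (by rw [lO']; omega)).bind fun x2 t6 ⟨a2, _, k6⟩ =>
    (sp_foldP _ _ _).bind fun x t7 ⟨a3, k7⟩ => ?_
  have mL := @mem_drI X.G d _ hG hW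
  have key : ∀ (O : List ℕ) (J : Finset ℕ) (τ : ℕ → ℕ) (e : ℕ),
      (∀ o ∈ O, 5 * o ∈ drI X.G d (drW d Y)) → (∀ o, o ∈ J ↔ o ∈ O ∧ 5 * o ∈ N.E) →
      ∑ o ∈ O.toFinset with τ o = e, x0.get (5 * o) = ∑ o ∈ J with τ o = e, N.X (5 * o) :=
    fun O J τ e a b => (sum_subset_zero_on_sdiff (filter_subset_filter _ fun o k =>
      List.mem_toFinset.2 ((b o).1 k).1) (fun o k => by
        obtain ⟨k1, k2⟩ := mem_sdiff.1 k
        rw [mem_filter] at k1 k2
        rw [hx, if_neg fun c => k2 ⟨(b o).2 ⟨List.mem_toFinset.1 k1.1, c.2⟩, k1.2⟩])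
      fun o k => by
        have := (b o).1 (mem_filter.1 k).1
        rw [hx, if_pos ⟨a o this.1, this.2⟩]).symm
  have hX : ∀ e, has X.G d' e → (if e ∈ drI X.G d (drW d Y) then x.get e else N.X e) =
      nX X.P.D X.C X.G d (drW d Y) N e := fun e k => by
    unfold nX
    by_cases c : Fr (drW d Y) e
    · rw [if_pos c, if_pos (mL.2 (.inl c)), a3, foldl_frs]; exact if_pos c
    rw [if_neg c]
    split_ifs with m
    · rw [a3, foldl_frs, if_neg (show ¬(_ ∧ _) from c), a2, a1, hx, if_pos ⟨m, (i.arcs.mem e).2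
        ((p.kept (D := 0) (C := X.C) w hG hc c).1.1 k).1⟩, adX, add_assoc,
        key O (dJ1 X.G d (drW d Y)) _ e (fun o ho => mL.2 (.inr ⟨o, ((mO o).1 ho).1,
          ((mO o).1 ho).2, .inl rfl⟩)) fun o => by rw [mem_dJ1, mO, i.arcs.mem, has0]; tauto,
        key O' (dJ2 X.G d (drW d Y)) _ e (fun o ho => mL.2 (.inr ⟨rv o, hG.rv_lt ((mO' o).1 ho).1,
          ((mO' o).1 ho).2, .inr (.inl (by rw [rv_rv]))⟩))
          fun o => by rw [mem_dJ2, mO', i.arcs.mem, has0]; tauto]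
    · rw [adX, sum_eq_zero, sum_eq_zero, add_zero, add_zero] <;> intro o ho <;>
        refine absurd (mL.2 (.inr ?_)) m <;> obtain ⟨ho, q⟩ := mem_filter.1 ho
      · rw [mem_dJ2] at ho
        exact ⟨rv o, hG.rv_lt ho.1, ho.2.2, .inr (.inr (.inr (by rw [Gf.hd_rv, q])))⟩
      · rw [mem_dJ1] at ho
        exact ⟨o, ho.1, ho.2.2, .inr (.inr (.inl q.symm))⟩
  refine (sp_app0 h il i.arcs dd.cmb (by have := phi_le_Pt (X := X) (s := s1); linarith)
    (fun e => p.off w hG hc _ _) fun e he k => ?_).mono fun r t8 ⟨er, N', il', m1, m2, _, k8, _⟩ => ?_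
  · have := i.flo_nX h f p w k
    rw [← hX e k, if_pos he] at this
    exact h.dom (h.big (arcOf_o1 e) this.1 this.2)
  have n : DrN X.P.D X.C X.G d d' (drW d Y) N N' :=
    ⟨m1, fun e he => (m2 e he).1, fun e he => (m2 e he).2.trans (hX e ((m1 e).1 he))⟩
  obtain ⟨s', d2⟩ := r
  obtain rfl : d2 = d' := er
  have w2 : (1 : ℝ) ≤ wsum (wtC d) Y := by exact_mod_cast w1
  have w3 := mul_le_mul_of_nonneg_left au (zero_le_one.trans w2)
  have t2' := Nat.cast_nonneg (α := ℝ) t2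
  have t8' := Nat.cast_nonneg (α := ℝ) t8
  refine ⟨N', ⟨il', ⟨m1, n.arc, n.circ p w hG hc i.arcs⟩, dd.cmb, dd.qok⟩, fun e he => ?_, dd.mt,
    dd.q.imp fun _ k => k.1, fun c k r hr er => ?_, by dsimp only at k8 ⊢; linarith, ?_⟩
  · rw [n.X e he, n.arc e he]; exact i.flo_nX h f p w ((m1 e).1 he)
  · obtain ⟨r1, r2, r3⟩ := (hc.mem c (hY c k) r).1 hr
    have q : r ∈ drW d Y := (mem_drW hc hY).2 ⟨r1, .inl ⟨r2, r3 ▸ k⟩⟩
    refine ⟨(p.isC_iff w).2 (.inl ⟨q, er⟩), by rw [p.mem, if_pos q], fun o ho eo => ?_⟩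
    exact Bool.eq_false_iff.2 fun j => ((p.pr o ho).1 j).2.1 (eo ▸ q)
  · have b := mul_le_mul_of_nonneg_left (i.bal_drop h f hY nd p n) (Nat.cast_nonneg (α := ℝ) X.κ)
    have k := mul_le_mul_of_nonneg_left h.AU_le (zero_le_one.trans w2)
    rw [← eO] at k3
    have : ((t1 + t3 + t4 + t5 + t6 + t7 : ℕ) : ℝ) ≤ (200 * wsum (wtC d) Y : ℕ) := by
      exact_mod_cast (by omega : t1 + t3 + t4 + t5 + t6 + t7 ≤ 200 * wsum (wtC d) Y)
    simp only [Tot] at k8 ⊢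
    push_cast at this ⊢
    linarith

end Crest.Agent.N325.P2.Cx
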