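import Crest.Agent.N325.Ml.Defs
import Crest.Agent.N325.P2.Dual
import Crest.Agent.N325.En.Cnt2

/-!
# Row 325, part II (helper32): the end of a phase — the matching is nearly maximum
-/

set_option autoImplicit false
open Finset

namespace Crest.Agent.N325.P2

open Crest.Agent.N325.Tw Crest.Agent.N325.Ip Crest.Agent.N325.Mt Crest.Agent.N325.Bf
  Crest.Agent.N325.Ipm

namespace End

variable {D : ℕ} {C : Cf} {G : Gf} {d : Dt} {N : Net}

theorem fc_odd {S : Finset ℕ} {E : ℕ → ℕ → Prop} (h : FC S E) {v : ℕ} (hv : v ∈ S) : Odd #S := by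
  obtain ⟨m, hm, ne⟩ := h v hv
  have := even_card_of_invol (S.erase v) m (fun u hu => hm.mem hu) (fun u hu => hm.inv hu) ne
  rw [← card_erase_add_one hv]; exact this.add_one

theorem a0 (h : Arcs D C G d N) {o : ℕ} (ho : o < G.nd) (hp : d.pr.get o = true) :
    5 * o ∈ N.E ∧ N.arc (5 * o) = aP C G d o := by
  have e1 : 5 * o % 5 = 0 := by omega
  have e2 : 5 * o / 5 = o := by omega
  have a : 5 * o ∈ N.E := (h.mem _).2 (by simp only [has, e1, e2, if_true]; exact ⟨ho, hp⟩)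
  exact ⟨a, by rw [h.arc _ a]; simp only [arcOf, e1, e2, if_true]⟩

theorem a1 (h : Arcs D C G d N) {v : ℕ} (hv : v < G.n) (hp : d.st.get v = 1 ∨ d.mt.get v = v) :
    5 * v + 1 ∈ N.E ∧ N.arc (5 * v + 1) = aE C d v := by
  have e1 : (5 * v + 1) % 5 = 1 := by omega
  have e2 : (5 * v + 1) / 5 = v := by omega
  have a : 5 * v + 1 ∈ N.E := (h.mem _).2 (by simpa [has, e1, e2] using ⟨hv, hp⟩)
  exact ⟨a, by rw [h.arc _ a]; simp [arcOf, e1, e2]⟩

theorem a4 (h : Arcs D C G d N) {v : ℕ} (hv : v < G.n) (hp : d.st.get v = 0) :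
    5 * v + 4 ∈ N.E ∧ N.arc (5 * v + 4) = aU D C v := by
  have e1 : (5 * v + 4) % 5 = 4 := by omega
  have e2 : (5 * v + 4) / 5 = v := by omega
  have a : 5 * v + 4 ∈ N.E := (h.mem _).2 (by simpa [has, e1, e2] using ⟨hv, hp⟩)
  exact ⟨a, by rw [h.arc _ a]; simp [arcOf, e1, e2]⟩

/-- what the end count needs of one arc -/
theorem kind (h : Arcs D C G d N) (hB : C.B ≤ C.M) (hn : G.nd ≤ 3 * G.n) {e : ℕ} (he : e ∈ N.E) :
    (N.arc e).o1 = 0 ∧ e < 15 * G.n ∧ (e % 5 = 2 → isC G d (e / 5)) ∧ (e % 5 = 4 → e / 5 < G.n) ∧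
    (C.B ≤ (N.arc e).o3 ∨ ∃ v < G.n, d.st.get v = 0 ∧ N.arc e = aU D C v) ∧
    (11 / 9 * ((N.arc e).c1 + (N.arc e).c2) + (N.arc e).c3 : ℝ) ≤ 20 / 9 + 11 / 9 * C.Z *
      (((if e % 5 = 4 then 2 else 0) + if e % 5 = 2 then d.cw.get (e / 5) + 1 else 0 : ℕ) : ℝ) := by
  have a := (h.mem e).1 he
  rw [h.arc e he]
  have k : e % 5 = 0 ∨ e % 5 = 1 ∨ e % 5 = 2 ∨ e % 5 = 3 ∨ e % 5 = 4 := by omega
  rcases k with k | k | k | k | k <;> simp only [has, arcOf, k] at a ⊢ <;> norm_num at a ⊢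
  · exact ⟨rfl, by omega, .inl hB, by norm_num [aP, capA]⟩
  · exact ⟨rfl, by omega, .inl le_rfl, by norm_num [aE, capA]⟩
  · refine ⟨rfl, by have := a.1; omega, a, .inl hB, ?_⟩
    simp only [snkA]; push_cast; linarith
  · exact ⟨rfl, by omega, .inl hB, by norm_num [aG]⟩
  · refine ⟨rfl, by omega, a.1, .inr ⟨_, a.1, a.2, rfl⟩, ?_⟩
    simp only [aU]; push_cast; linarith

/-- the classes are disjoint -/
theorem sum_cw (h : Cmb G d) : ∑ c ∈ (range G.n).filter (isC G d), (d.cw.get c + 1) ≤ 2 * G.n := by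
  have a : ∑ c ∈ (range G.n).filter (isC G d), d.cw.get c ≤ G.n := by
    have := card_eq_sum_card_fiberwise (s := (range G.n).filter (d.st.get · = 2))
      (t := (range G.n).filter (isC G d)) (f := d.cls.get) fun v hv => by
        have k := mem_filter.1 (mem_coe.1 hv)
        have q := h.out v (mem_range.1 k.1) k.2
        exact mem_coe.2 (mem_filter.2 ⟨mem_range.2 q.1, q⟩)
    refine le_trans (le_of_eq ?_) (this.symm.trans_le ((card_filter_le _ _).trans_eq (card_range _)))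
    refine sum_congr rfl fun c hc => ?_
    have q := (mem_filter.1 hc).2
    rw [h.cw c q, ← List.toFinset_card_of_nodup (h.nodup c q)]
    congr 1; ext v
    simp only [List.mem_toFinset, h.mem c q, mem_filter, mem_range, and_assoc]
  have b : #((range G.n).filter (isC G d)) ≤ G.n := (card_filter_le _ _).trans_eq (card_range _)
  rw [sum_add_distrib, sum_const, smul_eq_mul]; omega

/-- the total weight of the barriers -/
theorem sum_wt (h : Arcs D C G d N) (hc : Cmb G d) (hB : C.B ≤ C.M) (hn : G.nd ≤ 3 * G.n)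
    (hZ : 300 ≤ C.Z) :
    ∑ e ∈ N.E, (11 / 9 * ((N.arc e).c1 + (N.arc e).c2) + (N.arc e).c3 : ℝ) ≤ 5 * C.Z * G.n := by
  have k := fun e he => kind h hB hn (e := e) he
  have c0 : #N.E ≤ 15 * G.n :=
    (card_le_card fun e he => mem_range.2 (k e he).2.1).trans_eq (card_range _)
  have c4 : ∑ e ∈ N.E, (if e % 5 = 4 then 2 else 0) ≤ 2 * G.n := by
    rw [← sum_filter, sum_const, smul_eq_mul, mul_comm]
    refine Nat.mul_le_mul_left _ ((card_le_card_of_injOn (t := range G.n) (· / 5) (fun e he => ?_)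
      fun e he e' he' q => ?_).trans_eq (card_range _))
    · have := mem_filter.1 (mem_coe.1 he)
      exact mem_coe.2 (mem_range.2 ((k e this.1).2.2.2.1 this.2))
    · have := (mem_filter.1 (mem_coe.1 he)).2
      have := (mem_filter.1 (mem_coe.1 he')).2
      simp only at q; omega
  have c2 : ∑ e ∈ N.E, (if e % 5 = 2 then d.cw.get (e / 5) + 1 else 0) ≤ 2 * G.n := by
    rw [← sum_filter, ← sum_image (f := fun c => d.cw.get c + 1) (g := (· / 5))
      fun e he e' he' q => by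
        have := (mem_filter.1 (mem_coe.1 he)).2
        have := (mem_filter.1 (mem_coe.1 he')).2
        simp only at q; omega]
    refine le_trans (sum_le_sum_of_subset fun c q => ?_) (sum_cw hc)
    obtain ⟨e, he, rfl⟩ := mem_image.1 q
    have := (k e (mem_filter.1 he).1).2.2.1 (mem_filter.1 he).2
    exact mem_filter.2 ⟨mem_range.2 this.1, this⟩
  refine (sum_le_sum fun e he => (k e he).2.2.2.2.2).trans ?_
  rw [sum_add_distrib, ← mul_sum, ← Nat.cast_sum, sum_add_distrib, sum_const, nsmul_eq_mul]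
  have c0' : (#N.E : ℝ) ≤ 15 * G.n := by exact_mod_cast c0
  have c6 : ((∑ e ∈ N.E, (if e % 5 = 4 then 2 else 0) +
      ∑ e ∈ N.E, (if e % 5 = 2 then d.cw.get (e / 5) + 1 else 0) : ℕ) : ℝ) ≤ 4 * G.n := by
    exact_mod_cast (by omega)
  have z : (300 : ℝ) ≤ C.Z := by exact_mod_cast hZ
  have n0 : (0 : ℝ) ≤ G.n := Nat.cast_nonneg _
  nlinarith [mul_le_mul_of_nonneg_left c6 (by linarith : (0 : ℝ) ≤ C.Z),
    mul_le_mul_of_nonneg_right z n0]

/-- exposed vertices are outer -/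
theorem root_st (h : Cmb G d) {v : ℕ} (hv : v < G.n) (e : d.mt.get v = v) : d.st.get v = 2 := by
  have a := h.st_le v hv
  have b : d.st.get v ≠ 0 := fun k => (h.unl v hv k).2 e
  have c : d.st.get v ≠ 1 := fun k => by
    have := (h.inn v hv k).1
    rw [e] at this; omega
  omega

/-- the mate of an inner or exposed vertex is a base -/
theorem ent_bs (h : Cmb G d) {v : ℕ} (hv : v < G.n) (e : d.st.get v = 1 ∨ d.mt.get v = v) :
    d.st.get (d.mt.get v) = 2 ∧ d.bs.get (d.cls.get (d.mt.get v)) = d.mt.get v := by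
  refine e.elim (h.inn v hv) fun e => ?_
  have a := root_st h hv e
  have c := h.out v hv a
  rw [e]
  exact ⟨a, by_contra fun k => (h.inside _ c v ((h.mem _ c v).2 ⟨hv, a, rfl⟩) (Ne.symm k)).2 e⟩

/-- the shape at the end -/
theorem shp (h : Arcs D C G d N) (hc : Cmb G d) (hq : QOk G d) (q : d.Q = []) :
    En.Shp2 (range G.n) G.E N (((range G.n).filter (isC G d)).image (· + 1))
      (fun c => (d.mem.get (c - 1)).toFinset) ((range G.n).filter (d.st.get · = 1)) (· + 1)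
      (5 * · + 1) (exs (range G.n) d.mt.get) fun x => ∃ v < G.n, d.st.get v = 0 ∧ x = v + 1 := by
  have mC : ∀ c ∈ ((range G.n).filter (isC G d)).image (· + 1), ∃ a, isC G d a ∧ c = a + 1 :=
    fun c k => let ⟨a, k1, k2⟩ := mem_image.1 k; ⟨a, (mem_filter.1 k1).2, k2.symm⟩
  have mA : ∀ u ∈ (range G.n).filter (d.st.get · = 1) ∪ exs (range G.n) d.mt.get,
      u < G.n ∧ (d.st.get u = 1 ∨ d.mt.get u = u) := fun u k => (mem_union.1 k).elim
    (fun k => ⟨mem_range.1 (mem_filter.1 k).1, .inl (mem_filter.1 k).2⟩)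
    fun k => ⟨mem_range.1 (mem_exs.1 k).1, .inr (mem_exs.1 k).2⟩
  have ar := fun u k => a1 h (mA u k).1 (mA u k).2
  have nA : ∀ u ∈ (range G.n).filter (d.st.get · = 1), d.mt.get u ≠ u := fun u k e => by
    have := root_st hc (mem_range.1 (mem_filter.1 k).1) e
    have := (mem_filter.1 k).2
    omega
  refine ⟨fun c k v hv => ?_, fun c k => ?_, fun c k c' k' ne => ?_, fun c k v hv u hu hn e => ?_,
    fun u hu u' hu' e => ?_, disjoint_left.2 fun u k k' => nA u k (mem_exs.1 k').2,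
    fun u k => ?_, fun u k => ?_, fun u k => ?_⟩
  · obtain ⟨a, ha, rfl⟩ := mC c k
    exact mem_range.2 ((hc.mem a ha v).1 (List.mem_toFinset.1 hv)).1
  · obtain ⟨a, ha, rfl⟩ := mC c k
    exact fc_odd (hc.fc a ha) (List.mem_toFinset.2 (hc.bs a ha).1)
  · obtain ⟨a, ha, rfl⟩ := mC c k
    obtain ⟨a', ha', rfl⟩ := mC c' k'
    refine disjoint_left.2 fun v x x' => ne ?_
    rw [← ((hc.mem a ha v).1 (List.mem_toFinset.1 x)).2.2,
      ← ((hc.mem a' ha' v).1 (List.mem_toFinset.1 x')).2.2]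
  · obtain ⟨a, ha, rfl⟩ := mC c k
    obtain ⟨o, ho, rfl, rfl⟩ := e
    simp only [Nat.add_sub_cancel, List.mem_toFinset] at hv hn
    obtain ⟨v1, v2, v3⟩ := (hc.mem a ha _).1 hv
    have u1 := mem_range.1 hu
    have dn : Done G d o := by simpa [q] using hq.cmp o ho
    rcases dn with x | x | x | x
    · exact absurd v2 x
    · have y := a0 h ho x
      have z := (hc.pr o ho x).2.1
      have := hc.st_le _ u1
      refine .inr ⟨?_, _, y.1, by rw [y.2, ← v3]; rfl, by rw [y.2]; rfl, by rw [y.2]; rfl⟩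
      by_cases w : d.st.get (G.hd o) = 1
      exacts [.inl (mem_filter.2 ⟨hu, w⟩), .inr ⟨_, u1, by omega, rfl⟩]
    · have b : G.tl.get o = d.bs.get a := by_contra fun w => hn (x ▸ (hc.inside a ha _ hv w).1)
      have s : d.st.get (G.hd o) = 1 := by
        rcases (hc.bs a ha).2 with w | w <;> rw [← b, x] at w
        · exact absurd (w ▸ hv) hn
        · exact w
      refine .inl ⟨mem_filter.2 ⟨hu, s⟩, ?_⟩
      rw [(a1 h u1 (.inl s)).2, ← x, ← v3]
      simp only [aE, capA, hc.isM.inv (mem_range.2 v1)]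
    · exact absurd ((hc.mem a ha _).2 ⟨u1, x.1, x.2.trans v3⟩) hn
  · have x := mA u hu
    have x' := mA u' hu'
    simp only [(ar u hu).2, (ar u' hu').2, aE, capA, add_left_inj] at e
    have := (ent_bs hc x.1 x.2).2
    rw [e, (ent_bs hc x'.1 x'.2).2] at this
    rw [← hc.isM.inv (mem_range.2 x.1), ← this, hc.isM.inv (mem_range.2 x'.1)]
  · have x := mA u k
    have y := hc.out _ (mem_range.1 (hc.isM.mem (mem_range.2 x.1))) (ent_bs hc x.1 x.2).1
    refine ⟨(ar u k).1, by rw [(ar u k).2]; rfl, ?_⟩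
    rw [(ar u k).2]
    exact mem_image_of_mem (· + 1) (mem_filter.2 ⟨mem_range.2 y.1, y⟩)
  · rw [(ar u (mem_union_left _ k)).2]
    simp only [aE, capA, nA u k, if_false]
  · rw [(ar u (mem_union_right _ k)).2]
    simp only [aE, capA, (mem_exs.1 k).2, if_true]

/-- the dual of a pending vertex is high -/
theorem pend {P : Pm} {y : ℕ → ℝ} (hD : 1 ≤ P.D) (hs : 1 ≤ P.s0) (hy : En.Du P N y) (y0 : y 0 = 0)
    (hf : En.Fat P N) {e v : ℕ} (he : e ∈ N.E) (a : N.arc e = aU P.D C v)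
    (x : 50 * N.X e ≤ 51 * P.D) (hZ : 300 ≤ C.Z) : 4 / 5 * (C.Z : ℝ) ≤ y (v + 1) := by
  have k := hy.le he
  obtain ⟨-, a2, a3, a4, -⟩ := hf.s1 hD he
  have σ := σ0_pos hD hs
  have w1 := wt_pos (s0 := σ0 P) (σ.trans_le a2)
  have w2 := one_div_le_wt (s0 := σ0 P) (σ.trans_le (a2.trans a3))
  have p2 := σ.trans_le (a2.trans a3)
  rw [wt_of_le a4] at k
  have d0 : (0 : ℝ) < P.D := by exact_mod_cast hD
  have x' : (50 : ℝ) * N.X e ≤ 51 * P.D := by exact_mod_cast x
  have b2 : s2 P (N.arc e) (N.X e) ≤ 101 / 50 := by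
    rw [s2, a, div_le_iff₀ d0]; simp only [aU]; linarith
  have b3 : 49 / 50 ≤ s3 P (N.arc e) (N.X e) := by
    rw [s3, a, le_div_iff₀ d0]; simp only [aU]; push_cast; linarith
  have w2' := (one_div_le_one_div_of_le p2 b2).trans w2
  have w3 := one_div_le_one_div_of_le (by norm_num) b3
  have z : (300 : ℝ) ≤ C.Z := by exact_mod_cast hZ
  have := mul_le_mul_of_nonneg_left w2' (by linarith : (0 : ℝ) ≤ C.Z)
  generalize s1 P (N.arc e) (N.X e) = t1 at *
  generalize s2 P (N.arc e) (N.X e) = t2 at *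
  generalize s3 P (N.arc e) (N.X e) = t3 at *
  rw [a] at k
  simp only [aU, y0] at k
  push_cast at k
  norm_num at this w3 k ⊢
  linarith

end End

namespace Cx
variable {T : Type} {X : Cx T} {s : S T} {N : Net} {m : ℕ → ℕ}

/-- **the end of a phase**, with the floor as a hypothesis -/
theorem Ok.end_le' (h : X.Ok) (hi : X.Inv s N) (hg : X.Good s.2 N) (hf : Flo N X.C.lam)
    (hq : s.2.Q = []) (hm : IsM (range X.G.n) X.G.E m) :
    ex (range X.G.n) s.2.mt.get * X.C.B ≤ ex (range X.G.n) m * X.C.B + 20 * X.G.n * X.P.D := by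
  have hs : 1 ≤ X.P.s0 := h.sm.1.trans h.sm.2.1
  have hD : 1 ≤ X.P.D := by
    have a := h.cb
    have b := hs.trans h.sm.2.2
    exact le_trans (Nat.mul_pos (Nat.mul_pos (by omega) (by omega)) (by omega)) h.lam
  have hB : X.C.B ≤ X.C.M := le_trans (by nlinarith) h.M
  have hZ : 300 ≤ X.C.Z := by have := h.Z.1; omega
  have z : (300 : ℝ) ≤ X.C.Z := by exact_mod_cast hZ
  have k := fun e he => End.kind hi.arcs hB h.wf.nd_le (e := e) he
  have fat : En.Fat X.P N := fun e he => by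
    have a := hf e he
    have b : (X.P.s0 : ℤ) ≤ X.C.lam := by exact_mod_cast h.sm.2.2
    exact ⟨(k e he).1, by omega, by omega⟩
  obtain ⟨y, hy, y0⟩ := En.quiet_norm hg.1
  have pd : ∀ v < X.G.n, s.2.st.get v = 0 → 4 / 5 * (X.C.Z : ℝ) ≤ y (v + 1) := fun v hv e =>
    End.pend hD hs hy y0 fat (End.a4 hi.arcs hv e).1 (End.a4 hi.arcs hv e).2 (hg.2.pnd v hv e) hZ
  have c := En.endCount2 (End.shp hi.arcs hi.cmb hi.q hq) hD hs hi.arcs.circ hy fat (b := X.C.B)
    (fun e he => (k e he).2.2.2.2.1.imp_right fun ⟨v, hv, a, b⟩ => by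
      have := pd v hv a
      rw [b]; simp only [aU, y0]; linarith) (θ := 4 / 5 * X.C.Z) (by linarith) y0
    (fun _ ⟨v, hv, a, b⟩ => b ▸ pd v hv a) hm
  have w := End.sum_wt hi.arcs hi.cmb hB h.wf.nd_le hZ
  have d0 : (0 : ℝ) ≤ X.P.D := Nat.cast_nonneg _
  have n0 : (0 : ℝ) ≤ X.G.n * X.P.D := by positivity
  have r : ((ex (range X.G.n) s.2.mt.get : ℝ) - ex (range X.G.n) m) * X.C.B * X.C.Z ≤
      20 * X.G.n * X.P.D * X.C.Z := by
    have := mul_le_mul_of_nonneg_left w d0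
    have := mul_nonneg n0 (by linarith : (0 : ℝ) ≤ X.C.Z)
    rw [ex]; linarith
  have r' := le_of_mul_le_mul_right r (by linarith)
  have : (ex (range X.G.n) s.2.mt.get : ℝ) * X.C.B ≤
    ex (range X.G.n) m * X.C.B + 20 * X.G.n * X.P.D := by linarith
  exact_mod_cast this

/-- **END** from the floor theorem -/
theorem endSpec_of (h : X.Ok)
    (hf : ∀ s N, X.Inv s N → Quiet X.P N → Flo N (10 * X.C.lam)) {c0 : ℕ} (hc : 20 ≤ c0) :
    X.EndSpec c0 := fun s N hi hg hq _ hm =>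
  (h.end_le' hi hg (fun e he => by have := hf s N hi hg.1 e he; push_cast at this; omega) hq hm).trans
    (by gcongr)

/-- **END** -/
theorem endSpec (h : X.Ok) {c0 : ℕ} (hc : 20 ≤ c0) : X.EndSpec c0 :=
  endSpec_of h (fun _ _ i q => i.flo10 h q) hc

end Cx

end Crest.Agent.N325.P2
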