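import Crest.Agent.N325.P2.Ins
import Crest.Agent.N325.P2.Dual

/-! # Row 325, part II (helper19): the specification of INSERT -/

set_option autoImplicit false

namespace Crest.Agent.N325.P2.Cx

theorem insSpec {T : Type} {X : Cx T} (h : X.Ok) : X.InsSpec (insEv X.toEnv) :=
  insSpec_of h fun _ _ i q => i.flo10 h q

end Crest.Agent.N325.P2.Cx
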