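import Crest.Agent.N325.Ip.Defs
import Crest.Agent.N325.Mt.Fc
import Crest.Agent.N325.Mt.Cert
import Crest.Agent.N325.Mt.Search
import Crest.Agent.N325.Bf.Walk

/-!
# Row 325, part II (helper15): the machine — data, arcs, invariants, potential, event specifications

Vertices `0 … n-1` of degree at most `3`, darts `0 … nd-1` (`rv` = reverse dart).  Status `0` = unlabelled, `1` = inner,
`2` = outer.  Node names of the flow network: `0` = ground, `v+1` = vertex `v` / class `v`.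
Arc ids: `5o` plain arc of the dart `o`, `5v+1` entry arc (inner `v` to its class, or root arc of the
exposed vertex `v`), `5c+2` sink of the class `c`, `5v+3` ghost source, `5v+4` pending sink.
-/

set_option autoImplicit false
open Finset

namespace Crest.Agent.N325.P2

open Crest.Agent.N325.Tw Crest.Agent.N325.Ip Crest.Agent.N325.Mt Crest.Agent.N325.Bf

/-- the graph: tails of the darts, darts out of a vertex, neighbours of a vertex -/
structure Gf where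
  n : ℕ
  nd : ℕ
  tl : Arr ℕ
  adj : Arr (List ℕ)
  av : Arr (List ℕ)

namespace Gf
/-- head of a dart -/
def hd (G : Gf) (o : ℕ) : ℕ := G.tl.get (rv o)
/-- adjacency -/
def E (G : Gf) (a b : ℕ) : Prop := ∃ o, o < G.nd ∧ G.tl.get o = a ∧ G.hd o = b
/-- well-formed graphs -/
structure WF (G : Gf) : Prop where
  even : G.nd % 2 = 0
  tl_lt : ∀ o < G.nd, G.tl.get o < G.n
  ne : ∀ o < G.nd, G.tl.get o ≠ G.hd o
  simple : ∀ o < G.nd, ∀ o' < G.nd, G.tl.get o = G.tl.get o' → G.hd o = G.hd o' → o = o'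
  nodup : ∀ v < G.n, (G.adj.get v).Nodup
  mem : ∀ v < G.n, ∀ o, o ∈ G.adj.get v ↔ o < G.nd ∧ G.tl.get o = v
  deg : ∀ v, (G.adj.get v).length ≤ 3
  nd_le : G.nd ≤ 3 * G.n
  av : Adj (range G.n) G.E G.av
  av_deg : ∀ v, (G.av.get v).length ≤ 3
end Gf

/-- stored parameters: `Z = 1/ζ`, price bound, capacity `B = 2^kb`, far barrier, small flow,
`2^K > 64 n`, budget of the searches, walk parameters (bits, steps, number), fuel -/
structure Cf where
  Z : ℕ
  Ph : ℕ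
  B : ℕ
  kb : ℕ
  M : ℕ
  lam : ℕ
  K : ℕ
  nu : ℕ
  ex : ℕ
  ts : ℕ
  L : ℕ
  fu : ℕ

/-- the combinatorial state -/
structure Dt where
  st : Arr ℕ
  cls : Arr ℕ
  mem : Arr (List ℕ)
  cw : Arr ℕ
  bs : Arr ℕ
  mt : Arr ℕ
  pr : Arr Bool
  Q : List ℕ

section arcs
variable (D : ℕ) (C : Cf) (G : Gf) (d : Dt)

/-- class names -/
def isC (c : ℕ) : Prop := c < G.n ∧ d.st.get c = 2 ∧ d.cls.get c = c
instance (c : ℕ) : Decidable (isC G d c) := inferInstanceAs (Decidable (_ ∧ _))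

/-- a capacitated arc -/
def capA (a b u : ℕ) : Arc := ⟨a, b, 0, 1, 0, 0, 0, 1, u⟩
/-- plain arc -/
def aP (o : ℕ) : Arc := capA (d.cls.get (G.tl.get o) + 1) (G.hd o + 1) C.M
/-- entry arc -/
def aE (v : ℕ) : Arc := capA (if d.mt.get v = v then 0 else v + 1) (d.cls.get (d.mt.get v) + 1) C.B
/-- a sink of weight `x` -/
def snkA (c x : ℕ) : Arc := ⟨c + 1, 0, 0, C.Z * x, 0, 0, 0, 1, C.M⟩
/-- ghost source -/
def aG (v : ℕ) : Arc := ⟨0, v + 1, 5 * C.Ph * C.Z, 1, 0, 0, 0, 1, C.M⟩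
/-- pending sink -/
def aU (v : ℕ) : Arc := ⟨v + 1, 0, 0, 1, 0, 2 * C.Z, D, 1, 2 * D⟩

/-- the arcs of the network -/
def has (e : ℕ) : Prop :=
  if e % 5 = 0 then e / 5 < G.nd ∧ d.pr.get (e / 5) = true
  else if e % 5 = 1 then e / 5 < G.n ∧ (d.st.get (e / 5) = 1 ∨ d.mt.get (e / 5) = e / 5)
  else if e % 5 = 2 then isC G d (e / 5)
  else if e % 5 = 3 then e / 5 < G.n ∧ d.st.get (e / 5) ≠ 2
  else e / 5 < G.n ∧ d.st.get (e / 5) = 0
/-- the arc with a given id -/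
def arcOf (e : ℕ) : Arc :=
  if e % 5 = 0 then aP C G d (e / 5) else if e % 5 = 1 then aE C d (e / 5)
  else if e % 5 = 2 then snkA C (e / 5) (d.cw.get (e / 5) + 1) else if e % 5 = 3 then aG C (e / 5)
  else aU D C (e / 5)

/-- the network is the one of the data, the flow is a circulation -/
structure Arcs (N : Net) : Prop where
  mem : ∀ e, e ∈ N.E ↔ has G d e
  arc : ∀ e ∈ N.E, N.arc e = arcOf D C G d e
  circ : N.Circ N.X

/-- the combinatorial invariant (without the work list) -/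
structure Cmb : Prop where
  isM : IsM (range G.n) G.E d.mt.get
  st_le : ∀ v < G.n, d.st.get v ≤ 2
  cls_ne : ∀ v < G.n, d.st.get v ≠ 2 → d.cls.get v = v
  unl : ∀ v < G.n, d.st.get v = 0 → d.st.get (d.mt.get v) = 0 ∧ d.mt.get v ≠ v
  inn : ∀ v < G.n, d.st.get v = 1 → d.st.get (d.mt.get v) = 2 ∧
    d.bs.get (d.cls.get (d.mt.get v)) = d.mt.get v
  out : ∀ v < G.n, d.st.get v = 2 → isC G d (d.cls.get v)
  nodup : ∀ c, isC G d c → (d.mem.get c).Nodup
  mem : ∀ c, isC G d c → ∀ v, v ∈ d.mem.get c ↔ v < G.n ∧ d.st.get v = 2 ∧ d.cls.get v = c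
  cw : ∀ c, isC G d c → d.cw.get c = (d.mem.get c).length
  bs : ∀ c, isC G d c → d.bs.get c ∈ d.mem.get c ∧
    (d.mt.get (d.bs.get c) = d.bs.get c ∨ d.st.get (d.mt.get (d.bs.get c)) = 1)
  inside : ∀ c, isC G d c → ∀ v ∈ d.mem.get c, v ≠ d.bs.get c →
    d.mt.get v ∈ d.mem.get c ∧ d.mt.get v ≠ v
  fc : ∀ c, isC G d c → FC (d.mem.get c).toFinset G.E
  pr : ∀ o < G.nd, d.pr.get o = true → d.st.get (G.tl.get o) = 2 ∧
    d.st.get (G.hd o) ≠ 2 ∧ d.mt.get (G.tl.get o) ≠ G.hd o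

/-- the dart `o` needs no examination -/
def Done (o : ℕ) : Prop :=
  d.st.get (G.tl.get o) ≠ 2 ∨ d.pr.get o = true ∨ d.mt.get (G.tl.get o) = G.hd o ∨
    (d.st.get (G.hd o) = 2 ∧ d.cls.get (G.hd o) = d.cls.get (G.tl.get o))
instance (o : ℕ) : Decidable (Done G d o) := inferInstanceAs (Decidable (_ ∨ _))

/-- the work list is complete -/
structure QOk : Prop where
  lt : ∀ o ∈ d.Q, o < G.nd
  cmp : ∀ o < G.nd, o ∈ d.Q ∨ Done G d o ∨ (d.st.get (G.hd o) = 2 ∧ rv o ∈ d.Q)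

end arcs

/-- events of the log: a sink with a high price, a pending sink that is half full -/
def trig (D : ℕ) (C : Cf) (A : Arc) (r : ℤ) : Prop :=
  A.b = 0 ∧ (if A.c2 = 0 then C.Ph * C.Z * r < A.c1 * D else (A.o2 : ℤ) ≤ r)
instance (D : ℕ) (C : Cf) (A : Arc) (r : ℤ) : Decidable (trig D C A r) :=
  inferInstanceAs (Decidable (_ ∧ _))

/-- no price is high, no pending sink is half full (exact flows) -/
structure Calm (D : ℕ) (C : Cf) (G : Gf) (d : Dt) (N : Net) : Prop where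
  snk : ∀ c, isC G d c → ((d.cw.get c + 1) * D : ℤ) ≤ 2 * C.Ph * N.X (5 * c + 2)
  pnd : ∀ v < G.n, d.st.get v = 0 → 50 * N.X (5 * v + 4) ≤ 51 * D

/-- all flows and all slacks are at least `l` -/
def Flo (N : Net) (l : ℕ) : Prop := ∀ e ∈ N.E, (l : ℤ) ≤ N.X e ∧ N.X e + l ≤ (N.arc e).o3

/-! ## the context -/

/-- stored environment of the programs -/
structure Env (T : Type) where
  run : Cmd × T → R (T × Rep × Bool)
  P : Pm
  C : Cf
  G : Gf

/-- state of the machine -/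
abbrev S (T : Type) : Type := Ip.St T × Dt

/-- ghost context: `κ` = time per unit of potential, `Au` = potential of one augmentation,
`Rm` = bound on the number of operations of one event, `xm` = the least number of exposed vertices -/
structure Cx (T : Type) extends Env T where
  g : Gl
  Bd : Bn
  k : IC
  Sh : T → Prop
  I : Ip.St T → Net → Prop
  Φ : Ip.St T → ℝ
  κ : ℕ
  Au : ℕ
  Rm : ℕ
  xm : ℕ

namespace Cx
variable {T : Type} (X : Cx T)

/-- `log` of the far barrier -/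
noncomputable def Lg : ℝ := Real.log X.Bd.Mu

/-- the hypotheses on the context (numeric side conditions; events may ask for more) -/
structure Ok : Prop where
  ip : IpSpec X.g X.run X.P X.Bd X.k X.Sh X.I X.Φ
  wf : X.G.WF
  xm : ∀ m, IsM (range X.G.n) X.G.E m → X.xm ≤ ex (range X.G.n) m
  ids : 15 * X.G.n + 5 ≤ X.Bd.m
  nb : X.G.n + 1 ≤ X.Bd.nb
  pb : 5 * X.C.Ph * X.C.Z ≤ X.Bd.pb
  cb : X.C.Z * (X.G.n + 2) + 2 ≤ X.Bd.cb
  Mu : X.C.M = X.Bd.Mu
  sm : 1 ≤ X.Bd.sm ∧ X.Bd.sm ≤ X.P.s0 ∧ X.P.s0 ≤ X.C.lam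
  lam : 1000 * X.C.lam * (X.Bd.pb + X.Bd.cb) * (3 * X.G.n + 4) ≤ X.P.D
  B : X.C.B = 2 ^ X.C.kb ∧ 100 * X.P.D ≤ X.C.B
  M : 100 * (X.G.n + 1) * (X.C.B + X.P.D) ≤ X.C.M
  K : 64 * (X.G.n + 1) < 2 ^ X.C.K
  Z : 4000 * (X.C.K + 5) ≤ X.C.Z ∧ 100 * (X.Lg + 1) ≤ X.C.Z
  Ph : 2 ^ 40 ≤ X.C.Ph
  gX : (X.C.M * X.C.M * X.C.Z * X.C.Ph) ^ 2 ≤ X.g.X
  cl : 100 ≤ X.k.cl
  κ : X.k.AP + 1000 * (X.k.AU + X.k.AQ + X.k.cl + 1) * (X.C.K + 5) ^ 2 ≤ X.κ
  Rm : 100 * (X.G.n + 1) ≤ X.Rm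
  fu : 1000 * (X.C.K + 5) ^ 2 * (X.G.n + 1) ≤ X.C.fu
  AU : 100 ≤ X.k.AU

/-- the layer invariant with a complete log -/
def IL (s : Ip.St T) (N : Net) : Prop :=
  X.I s N ∧ ∀ e ∈ N.E, trig X.P.D X.C (N.arc e) (s.rf.get e) → e ∈ s.log
/-- time potential of the layer -/
noncomputable def Pt (s : Ip.St T) : ℝ := X.Φ s + X.k.cl * s.log.length

/-- the invariant between events -/
structure Inv (s : S T) (N : Net) : Prop where
  il : X.IL s.1 N
  arcs : Arcs X.P.D X.C X.G s.2 N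
  cmb : Cmb X.G s.2
  q : QOk X.G s.2

/-- number of vertices of status `i` -/
def nS (d : Dt) (i : ℕ) : ℕ := #((range X.G.n).filter (d.st.get · = i))
/-- normalisation of the sinks -/
noncomputable def offs (d : Dt) : ℝ :=
  ∑ c ∈ (range X.G.n).filter (isC X.G d),
      (X.C.Z * (d.cw.get c + 1) : ℝ) * (lM X.P X.Bd - Real.log (d.cw.get c + 1)) +
    X.nS d 0 * (2 * X.C.Z * lM X.P X.Bd)
/-- small-to-large potential -/
def Th (d : Dt) : ℕ := ∑ v ∈ (range X.G.n).filter (d.st.get · = 2),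
  (X.C.K - Nat.log 2 (d.cw.get (d.cls.get v)))
/-- credits of the data -/
noncomputable def Ψ (d : Dt) : ℝ :=
  2 * X.C.Z * X.G.n * X.Lg - X.offs d +
    X.C.Z * (8 * X.nS d 0 + 4 * X.nS d 1 + d.Q.length) + X.Th d +
    X.Au * ((ex (range X.G.n) d.mt.get : ℝ) - X.xm)
/-- the total potential -/
noncomputable def Tot (s : S T) (N : Net) : ℝ := X.Pt s.1 + X.κ * (pot X.P X.Bd N + X.Ψ s.2)
/-- room for the operations of one event -/
def Room (s : S T) : Prop := X.Pt s.1 + X.Rm * (2 * X.k.AU) ≤ X.Bd.F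
/-- result of an event: invariant, the time and one more unit are paid -/
def Post (s : S T) (N : Net) (s' : S T) (t : ℕ) : Prop :=
  ∃ N', X.Inv s' N' ∧ t + X.Tot s' N' + X.κ ≤ X.Tot s N
/-- quiescent and calm -/
def Good (d : Dt) (N : Net) : Prop := Quiet X.P N ∧ Calm X.P.D X.C X.G d N

/-- LABEL the pending vertex `v` (it becomes inner, its mate a new class) -/
def LabelSpec (ev : S T → ℕ → R (S T)) : Prop :=
  ∀ s N v, X.Inv s N → X.Room s → Quiet X.P N → v < X.G.n → s.2.st.get v = 0 →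
    (99 * X.P.D : ℤ) ≤ 100 * N.X (5 * v + 4) → Sp X.g (ev s v) (X.Post s N)
/-- UNLABEL the ball of the starved class `c` -/
def UnlabSpec (ev : S T → ℕ → R (S T)) : Prop :=
  ∀ s N c, X.Inv s N → X.Room s → Quiet X.P N → isC X.G s.2 c →
    (99 * X.C.Ph : ℤ) * N.X (5 * c + 2) ≤ 100 * (s.2.cw.get c + 1) * X.P.D →
    Sp X.g (ev s c) (X.Post s N)
/-- INSERT the plain arc of the head `o` of the work list (and pop it) -/
def InsSpec (ev : S T → ℕ → List ℕ → R (S T)) : Prop :=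
  ∀ s N o q, X.Inv s N → X.Room s → X.Good s.2 N → s.2.Q = o :: q →
    ¬Done X.G s.2 o → s.2.st.get (X.G.hd o) ≠ 2 → Sp X.g (ev s o q) (X.Post s N)
/-- EDGE between two classes at the head `o` of the work list (merge or augment, and pop it) -/
def EdgeSpec (ev : S T → ℕ → List ℕ → R (S T)) : Prop :=
  ∀ s N o q, X.Inv s N → X.Room s → X.Good s.2 N → s.2.Q = o :: q →
    ¬Done X.G s.2 o → s.2.st.get (X.G.hd o) = 2 → Sp X.g (ev s o q) (X.Post s N)

end Cx

end Crest.Agent.N325.P2
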