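import Crest.Agent.N325.P2.Defs2
import Crest.Agent.N325.P2.Util

/-!
# Row 325, part II (helper73): DROP — the description of the new data
-/

set_option autoImplicit false
open Finset

namespace Crest.Agent.N325.P2

/-- the vertices of the dropped classes and the inner mates of their bases -/
def Dr (G : Gf) (d : Dt) (Y : Finset ℕ) (v : ℕ) : Prop :=
  v < G.n ∧ (d.st.get v = 2 ∧ d.cls.get v ∈ Y ∨ d.st.get v = 1 ∧ d.cls.get (d.mt.get v) ∈ Y)
instance (G : Gf) (d : Dt) (Y : Finset ℕ) (v : ℕ) : Decidable (Dr G d Y v) :=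
  inferInstanceAs (Decidable (_ ∧ _))

/-- dropped vertices that become unlabelled -/
def drU (G : Gf) (d : Dt) (Y : Finset ℕ) : Finset ℕ :=
  (range G.n).filter fun v => Dr G d Y v ∧ d.mt.get v ≠ v
/-- dropped roots -/
def drR (G : Gf) (d : Dt) (Y : Finset ℕ) : Finset ℕ :=
  (range G.n).filter fun v => Dr G d Y v ∧ d.mt.get v = v

/-- `d'` arises from `d` by dropping the classes `Y` -/
structure DrD (G : Gf) (d d' : Dt) (Y : Finset ℕ) : Prop where
  mt : d'.mt = d.mt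
  off : ∀ v < G.n, ¬Dr G d Y v → d'.st.get v = d.st.get v ∧ d'.cls.get v = d.cls.get v
  cl : ∀ c, isC G d c → c ∉ Y → d'.cw.get c = d.cw.get c
  unl : ∀ v, Dr G d Y v → d.mt.get v ≠ v → d'.st.get v = 0
  root : ∀ v, Dr G d Y v → d.mt.get v = v →
    d'.st.get v = 2 ∧ d'.cls.get v = v ∧ d'.mem.get v = [v] ∧ d'.cw.get v = 1
  pr : ∀ o < G.nd, d'.pr.get o = true ↔
    d.pr.get o = true ∧ ¬Dr G d Y (G.tl.get o) ∧ ¬Dr G d Y (G.hd o)
  q : ∃ q, d'.Q = q ++ d.Q ∧ q.length ≤ 6 * (#(drU G d Y) + #(drR G d Y))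
  cmb : Cmb G d'
  qok : QOk G d'

end Crest.Agent.N325.P2
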