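import Crest.Agent.N325.P2.Drop
import Crest.Agent.N325.P2.Dual

/-!
# Row 325, part II (helper73): DROP — the new flows form a circulation
-/

set_option autoImplicit false
open Finset

namespace Crest.Agent.N325.P2

open Crest.Agent.N325.Tw Crest.Agent.N325.Ip Crest.Agent.N325.Mt Crest.Agent.N325.Bf

/-- ids of the arcs at the touched vertices -/
def Fr (W : List ℕ) (e : ℕ) : Prop := e % 5 ≠ 0 ∧ e / 5 ∈ W
instance (W : List ℕ) (e : ℕ) : Decidable (Fr W e) := inferInstanceAs (Decidable (_ ∧ _))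

/-- plain arcs with a touched tail -/
def dJ1 (G : Gf) (d : Dt) (W : List ℕ) : Finset ℕ :=
  (range G.nd).filter fun o => d.pr.get o = true ∧ G.tl.get o ∈ W
/-- plain arcs with a touched head -/
def dJ2 (G : Gf) (d : Dt) (W : List ℕ) : Finset ℕ :=
  (range G.nd).filter fun o => d.pr.get o = true ∧ G.hd o ∈ W
/-- the flow that is added on an arc -/
def adX (G : Gf) (d : Dt) (W : List ℕ) (N : Net) (e : ℕ) : ℤ :=
  ∑ o ∈ dJ1 G d W with 5 * G.hd o + 3 = e, N.X (5 * o) +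
    ∑ o ∈ dJ2 G d W with 5 * d.cls.get (G.tl.get o) + 2 = e, N.X (5 * o)
/-- the new flows -/
def nX (D : ℕ) (C : Cf) (G : Gf) (d : Dt) (W : List ℕ) (N : Net) (e : ℕ) : ℤ :=
  if Fr W e then (if e % 5 ≤ 2 then D else C.lam) else N.X e + adX G d W N e

/-- the new network -/
structure DrN (D : ℕ) (C : Cf) (G : Gf) (d d' : Dt) (W : List ℕ) (N N' : Net) : Prop where
  mem : ∀ e, e ∈ N'.E ↔ has G d' e
  arc : ∀ e ∈ N'.E, N'.arc e = arcOf D C G d' e
  X : ∀ e ∈ N'.E, N'.X e = nX D C G d W N e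

variable {D : ℕ} {C : Cf} {G : Gf} {d d' : Dt} {W : List ℕ} {N N' : Net} {e o v : ℕ}

theorem mem_dJ1 : o ∈ dJ1 G d W ↔ o < G.nd ∧ d.pr.get o = true ∧ G.tl.get o ∈ W := by
  rw [dJ1, mem_filter, mem_range]
theorem mem_dJ2 : o ∈ dJ2 G d W ↔ o < G.nd ∧ d.pr.get o = true ∧ G.hd o ∈ W := by
  rw [dJ2, mem_filter, mem_range]
theorem fr0 : ¬Fr W (5 * v) := fun k => k.1 (by omega)
theorem fr_add {j : ℕ} (h : 0 < j) (h' : j < 5) : Fr W (5 * v + j) ↔ v ∈ W := by
  rw [Fr, show (5 * v + j) / 5 = v by omega]; exact and_iff_right (by omega)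

/-- arcs that are kept -/
theorem Drp.kept (p : Drp G d W d') (w : Wk G d W) (hG : G.WF) (h : Cmb G d) (k : ¬Fr W e) :
    (has G d' e ↔ has G d e ∧ ¬(e % 5 = 0 ∧ (G.tl.get (e / 5) ∈ W ∨ G.hd (e / 5) ∈ W))) ∧
      (has G d' e → arcOf D C G d' e = arcOf D C G d e ∧ ∀ z : ℕ → ℤ,
        (if (arcOf D C G d e).b - 1 ∈ W then z 0 else z (arcOf D C G d e).b) -
          (if (arcOf D C G d e).a - 1 ∈ W then z 0 else z (arcOf D C G d e).a) =
            z (arcOf D C G d e).b - z (arcOf D C G d e).a) := by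
  obtain ⟨i, rfl | rfl | rfl | rfl | rfl⟩ := id_cases e
  · rw [has0, has0, arcOf0, arcOf0, show 5 * i / 5 = i by omega]
    refine ⟨?_, fun ⟨a, b⟩ => ?_⟩
    · by_cases a : i < G.nd
      · simp [p.pr i a, a]
      · simp [a]
    · obtain ⟨b1, b2, b3⟩ := (p.pr i a).1 b
      have := _root_.mt (w.out _ (hG.tl_lt i a) (h.pr i a b1).1).2 b2
      simp [aP, capA, p.cls, b2, b3, this]
  all_goals rw [fr_add (by omega) (by omega)] at k
  · rw [has1, has1, arcOf1, arcOf1, p.st, p.mt, if_neg k]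
    refine ⟨by simp [Nat.add_mod], fun ⟨a, b⟩ => ?_⟩
    have c := w.mt_not h a k
    have c' := _root_.mt (w.out _ (h.mt_lt a) (b.elim (fun b => (h.inn i a b).1)
      fun b => by rw [b]; exact h.root_st a b)).2 c
    refine ⟨by rw [aE, aE, p.mt, p.cls, if_neg c], fun z => ?_⟩
    by_cases r : d.mt.get i = i
    · simp only [aE, capA, if_pos r, Nat.add_sub_cancel, c', if_false, ite_self]
    · simp only [aE, capA, if_neg r, Nat.add_sub_cancel, c', k, if_false]
  · rw [has2, has2, arcOf2, arcOf2, p.isC_iff w, p.cw, if_neg k]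
    exact ⟨by simp [k, Nat.add_mod], fun _ => by simp [snkA, k]⟩
  · rw [has3, has3, arcOf3, arcOf3, p.st, if_neg k]
    exact ⟨by simp [Nat.add_mod], fun _ => by simp [aG, k]⟩
  · rw [has4, has4, arcOf4, arcOf4, p.st, if_neg k]
    exact ⟨by simp [Nat.add_mod], fun _ => by simp [aU, k]⟩

/-- arcs that become loops -/
theorem Wk.loop (w : Wk G d W) (h : Cmb G d) (k : Fr W e) (a : has G d e) (z : ℕ → ℤ) :
    (if (arcOf D C G d e).b - 1 ∈ W then z 0 else z (arcOf D C G d e).b) -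
      (if (arcOf D C G d e).a - 1 ∈ W then z 0 else z (arcOf D C G d e).a) = 0 := by
  obtain ⟨i, rfl | rfl | rfl | rfl | rfl⟩ := id_cases e
  · exact absurd k fr0
  all_goals rw [fr_add (by omega) (by omega)] at k
  · obtain ⟨a, b⟩ := has1.1 a
    have c := (w.out _ (h.mt_lt a) (b.elim (fun b => (h.inn i a b).1)
      fun b => by rw [b]; exact h.root_st a b)).1 (w.mt_mem h k)
    rw [arcOf1]
    by_cases r : d.mt.get i = i
    · simp only [aE, capA, if_pos r, Nat.add_sub_cancel, c, if_true, ite_self, sub_self]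
    · simp only [aE, capA, if_neg r, Nat.add_sub_cancel, c, k, if_true, sub_self]
  · simp [arcOf2, snkA, k]
  · simp [arcOf3, aG, k]
  · simp [arcOf4, aU, k]

/-- the ghost that takes over a plain arc -/
theorem DrN.tg1 (n : DrN D C G d d' W N N') (p : Drp G d W d') (hG : G.WF) (h : Cmb G d)
    (a : o < G.nd) (b : d.pr.get o = true) :
    (5 * G.hd o + 3 ∈ N'.E.filter (¬Fr W ·) ↔ G.hd o ∉ W) ∧
      (G.hd o ∉ W → N'.arc (5 * G.hd o + 3) = aG C (G.hd o)) := by
  have k : G.hd o ∉ W → 5 * G.hd o + 3 ∈ N'.E := fun k => (n.mem _).2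
    (has3.2 ⟨hG.hd_lt a, by rw [p.st, if_neg k]; exact (h.pr o a b).2.1⟩)
  rw [mem_filter, fr_add (by omega) (by omega)]
  exact ⟨and_iff_right_of_imp k, fun c => by rw [n.arc _ (k c), arcOf3]⟩

/-- the sink that takes over a plain arc -/
theorem DrN.tg2 (n : DrN D C G d d' W N N') (p : Drp G d W d') (w : Wk G d W) (hG : G.WF)
    (h : Cmb G d) (a : o < G.nd) (b : d.pr.get o = true) :
    (5 * d.cls.get (G.tl.get o) + 2 ∈ N'.E.filter (¬Fr W ·) ↔ G.tl.get o ∉ W) ∧
      (G.tl.get o ∉ W → ∃ x, N'.arc (5 * d.cls.get (G.tl.get o) + 2) =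
        snkA C (d.cls.get (G.tl.get o)) x) := by
  have s := (h.pr o a b).1
  have e := w.out _ (hG.tl_lt o a) s
  have k : G.tl.get o ∉ W → 5 * d.cls.get (G.tl.get o) + 2 ∈ N'.E := fun k => (n.mem _).2
    (has2.2 ((p.isC_iff w).2 (.inr ⟨mt e.2 k, h.out _ (hG.tl_lt o a) s⟩)))
  rw [mem_filter, fr_add (by omega) (by omega), ← e]
  exact ⟨and_iff_right_of_imp k, fun c => ⟨_, by rw [n.arc _ (k c), arcOf2]⟩⟩

/-- the new arcs -/
theorem Drp.fresh (p : Drp G d W d') (w : Wk G d W) (k : v ∈ W) :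
    (has G d' (5 * v + 1) ↔ d.mt.get v = v) ∧ (has G d' (5 * v + 2) ↔ d.mt.get v = v) ∧
      (has G d' (5 * v + 3) ↔ d.mt.get v ≠ v) ∧ (has G d' (5 * v + 4) ↔ d.mt.get v ≠ v) := by
  have := (w.lt v k).1
  rw [has1, has2, has3, has4, p.isC_iff w, p.st, p.mt]
  by_cases r : d.mt.get v = v <;> simp [k, r, this]

theorem DrN.sum_fresh {M : Type} [AddCommMonoid M] (n : DrN D C G d d' W N N') (p : Drp G d W d')
    (w : Wk G d W) (f : Arc → ℤ → M) : ∑ e ∈ N'.E with Fr W e, f (N'.arc e) (N'.X e) =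
      ∑ v ∈ W.toFinset, if d.mt.get v = v then f (capA 0 (v + 1) C.B) D + f (snkA C v 2) D
        else f (aG C v) C.lam + f (aU D C v) C.lam := by
  rw [← sum_fiberwise_of_maps_to (g := (· / 5)) (t := W.toFinset)
    fun e he => List.mem_toFinset.2 (mem_filter.1 he).2.2]
  refine sum_congr rfl fun v hv => ?_
  have k := List.mem_toFinset.1 hv
  obtain ⟨a1, a2, a3, a4⟩ := p.fresh w k
  have e : ∀ j, 0 < j → j < 5 → has G d' (5 * v + j) → f (N'.arc (5 * v + j)) (N'.X (5 * v + j)) =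
      f (arcOf D C G d' (5 * v + j)) (if j ≤ 2 then D else C.lam) := fun j a b c => by
    rw [n.arc _ ((n.mem _).2 c), n.X _ ((n.mem _).2 c), nX, if_pos ((fr_add a b).2 k),
      show (5 * v + j) % 5 = j by omega]
  have m : ∀ i, i ∈ (N'.E.filter (Fr W ·)).filter (· / 5 = v) ↔ has G d' i ∧
      (i = 5 * v + 1 ∨ i = 5 * v + 2 ∨ i = 5 * v + 3 ∨ i = 5 * v + 4) := fun i => by
    rw [mem_filter, mem_filter, n.mem, and_assoc, Fr]
    exact and_congr_right fun _ => ⟨fun c => by omega, fun c =>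
      ⟨⟨by omega, by rw [show i / 5 = v by omega]; exact k⟩, by omega⟩⟩
  split_ifs with r
  · rw [show (N'.E.filter (Fr W ·)).filter (· / 5 = v) = {5 * v + 1, 5 * v + 2} from ext fun i => by
      rw [m, mem_insert, mem_singleton]
      refine ⟨?_, ?_⟩
      · rintro ⟨c, rfl | rfl | rfl | rfl⟩
        exacts [.inl rfl, .inr rfl, absurd r (a3.1 c), absurd r (a4.1 c)]
      · rintro (rfl | rfl)
        exacts [⟨a1.2 r, .inl rfl⟩, ⟨a2.2 r, .inr (.inl rfl)⟩], sum_pair (by omega),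
      e 1 (by omega) (by omega) (a1.2 r), e 2 (by omega) (by omega) (a2.2 r), arcOf1, arcOf2, aE,
      p.mt, r, p.cls, p.cw]
    simp [k]
  · rw [show (N'.E.filter (Fr W ·)).filter (· / 5 = v) = {5 * v + 3, 5 * v + 4} from ext fun i => by
      rw [m, mem_insert, mem_singleton]
      refine ⟨?_, ?_⟩
      · rintro ⟨c, rfl | rfl | rfl | rfl⟩
        exacts [absurd (a1.1 c) r, absurd (a2.1 c) r, .inl rfl, .inr rfl]
      · rintro (rfl | rfl)
        exacts [⟨a3.2 r, by omega⟩, ⟨a4.2 r, by omega⟩], sum_pair (by omega),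
      e 3 (by omega) (by omega) (a3.2 r), e 4 (by omega) (by omega) (a4.2 r), arcOf3, arcOf4]
    simp

theorem sum_fib {K : Type} [CommRing K] (S J : Finset ℕ) (τ : ℕ → ℕ) (y : ℕ → ℤ) (c : ℕ → K) :
    ∑ e ∈ S, ((∑ o ∈ J with τ o = e, y o : ℤ) : K) * c e =
      ∑ o ∈ J, if τ o ∈ S then (y o : K) * c (τ o) else 0 := by
  rw [← sum_filter, ← sum_fiberwise_eq_sum_filter]
  refine sum_congr rfl fun e _ => ?_
  rw [Int.cast_sum, sum_mul]
  exact sum_congr rfl fun o ho => by rw [(mem_filter.1 ho).2]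

/-- the kept arcs -/
theorem DrN.keep (n : DrN D C G d d' W N N') (p : Drp G d W d') (w : Wk G d W) (hG : G.WF)
    (h : Cmb G d) (a : Arcs D C G d N) (he : e ∈ N'.E.filter (¬Fr W ·)) :
    e ∈ N.E ∧ N'.arc e = N.arc e ∧ N'.X e = N.X e + adX G d W N e := by
  obtain ⟨b, c⟩ := mem_filter.1 he
  obtain ⟨k1, k2⟩ := p.kept (D := D) (C := C) w hG h c
  have m := (a.mem e).2 (k1.1 ((n.mem e).1 b)).1
  exact ⟨m, by rw [n.arc e b, (k2 ((n.mem e).1 b)).1, a.arc e m], by rw [n.X e b, nX, if_neg c]⟩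

/-- **the new flows form a circulation** -/
theorem DrN.circ (n : DrN D C G d d' W N N') (p : Drp G d W d') (w : Wk G d W) (hG : G.WF)
    (h : Cmb G d) (a : Arcs D C G d N) : N'.Circ N'.X := fun z => by
  have c := a.circ fun u => if u - 1 ∈ W then z 0 else z u
  set F : ℕ → ℤ := fun e => N.X e * ((if (N.arc e).b - 1 ∈ W then z 0 else z (N.arc e).b) -
    if (N.arc e).a - 1 ∈ W then z 0 else z (N.arc e).a) with hF
  have pl : ∀ o < G.nd, d.pr.get o = true → F (5 * o) = N.X (5 * o) *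
      ((if G.hd o ∈ W then z 0 else z (G.hd o + 1)) -
        if G.tl.get o ∈ W then z 0 else z (d.cls.get (G.tl.get o) + 1)) := fun o b1 b2 => by
    simp only [hF, (a.plain b1 b2).2, aP, capA, Nat.add_sub_cancel,
      ← w.out _ (hG.tl_lt o b1) (h.pr o b1 b2).1]
  have s1 : ∑ e ∈ N.E, F e = ∑ e ∈ N'.E with ¬Fr W e, F e +
      ∑ o ∈ dJ1 G d W ∪ dJ2 G d W, F (5 * o) := by
    rw [← sum_image (g := (5 * ·)) fun _ _ _ _ k => by simpa using k, ← sum_union]
    · refine (sum_subset (union_subset (fun e he => (n.keep p w hG h a he).1) fun e he => ?_)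
        fun e he k => ?_).symm
      · obtain ⟨o, b, rfl⟩ := mem_image.1 he
        rw [mem_union, mem_dJ1, mem_dJ2] at b
        exact b.elim (fun b => (a.plain b.1 b.2.1).1) fun b => (a.plain b.1 b.2.1).1
      · have g := (a.mem e).1 he
        rw [mem_union, not_or, mem_filter, n.mem] at k
        by_cases f : Fr W e
        · simp only [hF, a.arc e he, w.loop h f g z, mul_zero]
        · have := mt (p.kept (D := D) (C := C) w hG h f).1.2 fun q => k.1 ⟨q, f⟩
          obtain ⟨q1, q2⟩ := of_not_not (mt (And.intro g) this)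
          obtain ⟨o, rfl⟩ : ∃ o, e = 5 * o := ⟨e / 5, by omega⟩
          rw [show 5 * o / 5 = o by omega] at q2
          obtain ⟨g1, g2⟩ := has0.1 g
          exact absurd (mem_image_of_mem _ (mem_union.2 (q2.imp
            (fun q => mem_dJ1.2 ⟨g1, g2, q⟩) fun q => mem_dJ2.2 ⟨g1, g2, q⟩))) k.2
    · refine disjoint_left.2 fun e he k => ?_
      obtain ⟨o, b, rfl⟩ := mem_image.1 k
      have := (has0.1 ((n.mem _).1 (mem_filter.1 he).1))
      have := (p.pr o this.1).1 this.2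
      rw [mem_union, mem_dJ1, mem_dJ2] at b
      exact b.elim (fun b => this.2.1 b.2.2) fun b => this.2.2 b.2.2
  have s2 := sum_union_inter (s₁ := dJ1 G d W) (s₂ := dJ2 G d W) (f := fun o => F (5 * o))
  rw [sum_eq_zero (s := _ ∩ _) fun o ho => by
    obtain ⟨b1, b2⟩ := mem_inter.1 ho
    rw [mem_dJ1] at b1
    rw [pl o b1.1 b1.2.1, if_pos b1.2.2, if_pos (mem_dJ2.1 b2).2.2, sub_self, mul_zero],
    add_zero] at s2
  rw [← sum_filter_add_sum_filter_not _ (Fr W ·),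
    n.sum_fresh p w fun A x => x * (z A.b - z A.a), sum_eq_zero fun v _ => by
      simp only [capA, snkA, aG, aU]; split_ifs <;> ring, zero_add, ← c, s1, s2, ← add_assoc]
  have t1 := sum_fib (N'.E.filter (¬Fr W ·)) (dJ1 G d W) (fun o => 5 * G.hd o + 3)
    (fun o => N.X (5 * o)) fun e => z (N'.arc e).b - z (N'.arc e).a
  have t2 := sum_fib (N'.E.filter (¬Fr W ·)) (dJ2 G d W) (fun o => 5 * d.cls.get (G.tl.get o) + 2)
    (fun o => N.X (5 * o)) fun e => z (N'.arc e).b - z (N'.arc e).a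
  rw [← sum_congr rfl fun o ho => (?_ : _ = F (5 * o)), ← t1,
    ← sum_congr rfl fun o ho => (?_ : _ = F (5 * o)), ← t2, ← sum_add_distrib, ← sum_add_distrib]
  · refine sum_congr rfl fun e he => ?_
    obtain ⟨b1, b2, b3⟩ := n.keep p w hG h a he
    obtain ⟨b4, b5⟩ := mem_filter.1 he
    simp only [hF, b2, b3, adX, a.arc e b1,
      ((p.kept (D := D) (C := C) w hG h b5).2 ((n.mem e).1 b4)).2 z, Int.cast_id]
    ring
  · rw [mem_dJ2] at ho
    obtain ⟨k1, k2⟩ := n.tg2 p w hG h ho.1 ho.2.1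
    rw [pl o ho.1 ho.2.1, if_pos ho.2.2]
    by_cases q : G.tl.get o ∈ W
    · rw [if_neg (mt k1.1 (not_not.2 q)), if_pos q, sub_self, mul_zero]
    · obtain ⟨x, k⟩ := k2 q
      rw [if_pos (k1.2 q), if_neg q, k]; rfl
  · rw [mem_dJ1] at ho
    obtain ⟨k1, k2⟩ := n.tg1 p hG h ho.1 ho.2.1
    rw [pl o ho.1 ho.2.1, if_pos ho.2.2]
    by_cases q : G.hd o ∈ W
    · rw [if_neg (mt k1.1 (not_not.2 q)), if_pos q, sub_self, mul_zero]
    · rw [if_pos (k1.2 q), if_neg q, k2 q]; rfl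

end Crest.Agent.N325.P2
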