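import Crest.Agent.N325.P2.Edge
import Crest.Agent.N325.P2.Rp
import Crest.Agent.N325.On.Impl

/-!
# Row 325, part II (helper95): the EDGE event is implementable
-/

set_option autoImplicit false

namespace Crest.Agent.N325.P2

open Crest.Agent.N325.Tw Crest.Agent.N325.Ip Crest.Agent.N325.Mt Crest.Agent.N325.Bf
open Crest.Agent.N325.Dm Crest.Agent.N325.On

theorem bgi_bgOf {α : Type} [Rp α] {G : α → Gf} {d : α → Dt} (hG : Pu true G) (hd : Pu true d) :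
    BgI fun a => bgOf (G a) (d a) := by
  have := hG.ar
  have := hd.ar
  refine ⟨?_, ?_, ?_, ?_⟩ <;> unfold bgOf <;> dsimp only <;> impl

theorem impl_edgeE {T : Type} [Rp T] {mg : Env T → S T → List ℕ → List ℕ → ℕ → List ℕ → R (S T)}
    {ag : Env T → S T → ℕ → List ℕ → ℕ × List (ℕ × ℕ) → ℕ × List (ℕ × ℕ) → R (S T)}
    {wk : Env T → Dt → List ℕ × List ℕ × Ip.St T → R (List (List ℕ) × Ip.St T)}
    (hm : Impl fun p : Env T × S T × List ℕ × List ℕ × ℕ × List ℕ =>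
      mg p.1 p.2.1 p.2.2.1 p.2.2.2.1 p.2.2.2.2.1 p.2.2.2.2.2)
    (ha : Impl fun p : Env T × S T × ℕ × List ℕ × (ℕ × List (ℕ × ℕ)) × ℕ × List (ℕ × ℕ) =>
      ag p.1 p.2.1 p.2.2.1 p.2.2.2.1 p.2.2.2.2.1 p.2.2.2.2.2)
    (hk : Impl fun p : Env T × Dt × List ℕ × List ℕ × Ip.St T => wk p.1 p.2.1 p.2.2) :
    Impl fun p : Env T × S T × ℕ × List ℕ =>
      edgeE p.1 (mg p.1) (ag p.1) (wk p.1) p.2.1 p.2.2.1 p.2.2.2 := by
  have hb : BgI fun p : Env T × Dt => bgOf p.1.G p.2 := bgi_bgOf (by impl) (by impl)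
  have h1 := impl_dom hb
  have h2 := impl_opn hb (pt := fun p a => p.2.cls.get (p.2.mt.get a))
    (wt := fun p c => min (p.2.cw.get c + 1) p.1.C.M) (wk := fun p => wk p.1 p.2)
    (by impl) (by impl) (by impl)
  obtain ⟨d1, e1⟩ : ∃ d : Env T × Dt → ℕ → ℕ → ℕ → R (Option (List ℕ × List ℕ × ℕ)),
    ∀ (E : Env T) x, dom (bgOf E.G x) = d (E, x) :=
    ⟨fun p => dom (bgOf p.1.G p.2), fun _ _ => rfl⟩
  obtain ⟨d2, e2⟩ : ∃ d : Env T × Dt → ℕ → ℕ → ℕ → Ip.St T →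
      R ((ℕ × List (ℕ × ℕ)) × (ℕ × List (ℕ × ℕ)) × Ip.St T),
    ∀ (E : Env T) x, opn (bgOf E.G x) (fun a => x.cls.get (x.mt.get a))
      (fun c => min (x.cw.get c + 1) E.C.M) (wk E x) = d (E, x) :=
    ⟨fun p => opn (bgOf p.1.G p.2) (fun a => p.2.cls.get (p.2.mt.get a))
      (fun c => min (p.2.cw.get c + 1) p.1.C.M) (wk p.1 p.2), fun _ _ => rfl⟩
  unfold edgeE
  simp only [e1, e2] at h1 h2 ⊢
  impl

end Crest.Agent.N325.P2
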