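import Crest.Agent.N325.P2.Ins
import Crest.Agent.N325.P2.Drop
import Crest.Agent.N325.P2.EdgeI
import Crest.Agent.N325.Ml.Impl
import Crest.Agent.N325.Lb.Impl
import Crest.Agent.N325.Bl.UnlI
import Crest.Agent.N325.Ag.RotI
import Crest.Agent.N325.Ag.FoldI
import Crest.Agent.N325.Mg.Impl

/-!
# Row 325, part II (helper14): INSERT and the data side of DROP are implementable; all `Impl` files
-/

set_option autoImplicit false

namespace Crest.Agent.N325.P2

open Crest.Agent.N325.Tw Crest.Agent.N325.Ip Crest.Agent.N325.Mt Crest.Agent.N325.Bf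
open Crest.Agent.N325.Op

variable {T : Type} [Rp T]

@[fun_prop] theorem impl_insEv :
    Impl fun p : Env T × S T × ℕ × List ℕ => insEv p.1 p.2.1 p.2.2.1 p.2.2.2 := by
  unfold insEv; impl

@[fun_prop] theorem impl_drp : Impl fun p : Gf × Dt × List ℕ => drp p.1 p.2.1 p.2.2 := by
  unfold drp; impl

@[fun_prop] theorem impl_drp0 : Impl fun p : Gf × Dt × List ℕ => drp0 p.1 p.2.1 p.2.2 := by
  unfold drp0; impl

end Crest.Agent.N325.P2
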