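import Crest.Agent.N325.P2.Util

/-!
# Row 325, part II (helper19): the event INSERT
-/

set_option autoImplicit false
open Finset

namespace Crest.Agent.N325.P2

open Crest.Agent.N325.Tw Crest.Agent.N325.Ip Crest.Agent.N325.Mt Crest.Agent.N325.Bf
  Crest.Agent.N325.Op

/-- insert the plain arc of the dart `o` with a small flow, taken from the sink of the tail and
given back to the ghost source of the head -/
def insEv {T : Type} (E : Env T) (s : S T) (o : ℕ) (q : List ℕ) : R (S T) := do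
  let i ← nat (5 * o)
  let k ← nat (5 * s.2.cls.get (E.G.tl.get o) + 2)
  let j ← nat (5 * E.G.hd o + 3)
  let s1 ← ins E.run E.P s.1 i (aP E.C E.G s.2 o) E.C.lam
  let s2 ← mv E.run E.P (k, -(E.C.lam : ℤ)) s1
  let s3 ← mv E.run E.P (j, -(E.C.lam : ℤ)) s2
  pure (s3, { s.2 with pr := s.2.pr.set o true, Q := q })

section pure
variable {G : Gf} {d : Dt} {o : ℕ} {q : List ℕ}

theorem ins_has (ho : o < G.nd) (e : ℕ) :
    has G { d with pr := d.pr.set o true, Q := q } e ↔ e = 5 * o ∨ has G d e := by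
  obtain ⟨v, rfl | rfl | rfl | rfl | rfl⟩ := id_cases e
  · rw [has0, has0]
    by_cases c : v = o
    · simp [c, ho]
    · simp [Arr.get_set_ne _ c, c]
  · rw [or_iff_right (by omega), has1, has1]
  · rw [or_iff_right (by omega), has2, has2]; rfl
  · rw [or_iff_right (by omega), has3, has3]
  · rw [or_iff_right (by omega), has4, has4]

theorem ins_cmb (c : Cmb G d) (a : d.st.get (G.tl.get o) = 2) (b : d.st.get (G.hd o) ≠ 2)
    (m : d.mt.get (G.tl.get o) ≠ G.hd o) : Cmb G { d with pr := d.pr.set o true, Q := q } :=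
  ⟨c.isM, c.st_le, c.cls_ne, c.unl, c.inn, c.out, c.nodup, c.mem, c.cw, c.bs, c.inside, c.fc,
    fun i hi k => by
      by_cases e : i = o
      · subst e; exact ⟨a, b, m⟩
      · exact c.pr i hi (by rwa [Arr.get_set_ne _ e] at k)⟩

theorem ins_q (c : QOk G d) (e : d.Q = o :: q) (b : d.st.get (G.hd o) ≠ 2) :
    QOk G { d with pr := d.pr.set o true, Q := q } := by
  refine ⟨fun i hi => c.lt i (e ▸ List.mem_cons_of_mem _ hi), fun i hi => ?_⟩
  by_cases k : i = o
  · exact .inr (.inl (.inr (.inl (by simp [k]))))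
  rcases c.cmp i hi with z | z | z
  · exact .inl ((List.mem_cons.1 (e ▸ z)).resolve_left k)
  · refine .inr (.inl (z.imp_right fun z => z.imp_left fun z => ?_))
    rwa [Arr.get_set_ne _ k]
  · rcases List.mem_cons.1 (e ▸ z.2) with y | y
    · exact .inr (.inl (.inl (by rw [← y, Gf.hd_rv] at b; exact b)))
    · exact .inr (.inr ⟨z.1, y⟩)
end pure

namespace Cx
variable {T : Type} {X : Cx T}

/-- taking the small flow from an arc that carries at least ten times as much -/
theorem Ok.bar_take (h : X.Ok) {e : ℕ} {A : Arc} {x : ℤ} (hA : X.Bd.arc e A) (o1 : A.o1 = 0)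
    (c2 : A.c2 = 0) (a : (10 * X.C.lam : ℕ) ≤ x) (b : x + (10 * X.C.lam : ℕ) ≤ A.o3)
    (w : (2 * A.c1 * X.C.lam : ℤ) ≤ x) :
    Big X.P A (x + -(X.C.lam : ℤ)) ∧
      bar X.P X.Bd A (x + -(X.C.lam : ℤ)) ≤ bar X.P X.Bd A x + 1 := by
  have l := h.lam_pos
  have big : Big X.P A (x + -(X.C.lam : ℤ)) := h.big o1 (by omega) (by omega)
  have l' : (1 : ℝ) ≤ X.C.lam := by exact_mod_cast l
  have a' : (10 * X.C.lam : ℝ) ≤ x := by exact_mod_cast a
  have w' : (2 * A.c1 * X.C.lam : ℝ) ≤ x := by exact_mod_cast w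
  have x0 : (0 : ℝ) < x := by linarith
  have := bar_move (t := 2 * X.C.lam / x) (u := 0) h.D_pos h.s0_pos hA (x := x) (by omega)
    (by omega) big (by positivity) ?_ (by push_cast; linarith)
  · refine ⟨big, this.trans ?_⟩
    have e1 : (A.p : ℝ) * ((((x + -(X.C.lam : ℤ) : ℤ) : ℝ) - x) / X.P.D) ≤ 0 :=
      mul_nonpos_of_nonneg_of_nonpos (by positivity)
        (div_nonpos_of_nonpos_of_nonneg (by push_cast; linarith) (by positivity))
    have e2 : ((A.c1 : ℝ) + A.c2) * (2 * X.C.lam / x) ≤ 1 := by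
      rw [c2, Nat.cast_zero, add_zero, ← mul_div_assoc, div_le_one x0]; linarith
    linarith
  · rw [o1]; push_cast
    have : (1 + 2 * (X.C.lam : ℝ) / x) * (x + -X.C.lam + 0) =
        x + X.C.lam * (x - 2 * X.C.lam) / x := by field_simp; ring
    rw [this, add_zero]
    exact le_add_of_nonneg_right (div_nonneg (mul_nonneg (by linarith) (by linarith)) x0.le)

/-- **INSERT** -/
theorem insSpec_of (h : X.Ok)
    (hf : ∀ s N, X.Inv s N → Quiet X.P N → Flo N (10 * X.C.lam)) : X.InsSpec (insEv X.toEnv) := by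
  rintro ⟨s, d⟩ N o q i room good eq nd hb
  have ho : o < X.G.nd := i.q.lt o (eq ▸ List.mem_cons_self)
  simp only [Done, not_or, not_not] at nd
  obtain ⟨ha, hp, hm, -⟩ := nd
  have tl := h.wf.tl_lt o ho
  have hd := h.wf.hd_lt ho
  have hc := i.cmb.out _ tl ha
  have cmb := ins_cmb (q := q) i.cmb ha hb hm
  have flo := hf _ _ i good.1
  have M := h.n_le_M; have MX := h.M_le_X; have ndl := h.wf.nd_le; have BD := h.BD_le
  have l1 := h.lam_le'; have l2 := h.lam_le; have l0 := h.lam_pos; have PZ := h.PZ_pos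
  set c := d.cls.get (X.G.tl.get o) with hcd
  have n0 : 5 * o ∉ N.E := fun k => hp (has0.1 ((i.arcs.mem _).1 k)).2
  have mk : 5 * c + 2 ∈ N.E := (i.arcs.mem _).2 (has2.2 hc)
  have mj : 5 * X.G.hd o + 3 ∈ N.E := (i.arcs.mem _).2 (has3.2 ⟨hd, hb⟩)
  have ak := (i.arcs.arc _ mk).trans arcOf2
  have aj := (i.arcs.arc _ mj).trans arcOf3
  have hA : X.Bd.arc (5 * o) (aP X.C X.G d o) := by
    have := h.arc cmb ((ins_has ho _).2 (.inl rfl)); rwa [arcOf0] at this
  have big : Big X.P (aP X.C X.G d o) X.C.lam :=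
    h.big rfl le_rfl (by change _ ≤ (X.C.M : ℤ); omega)
  obtain ⟨bk, pk⟩ := h.bar_take (h.ip.view i.il.1 _ mk).2.1 (by rw [ak]; rfl) (by rw [ak]; rfl)
    (flo _ mk).1 (flo _ mk).2 (by
      have a := good.2.snk c hc
      have b : (20000 * (X.C.Ph * X.C.Z * X.C.lam) : ℤ) ≤ X.P.D := by exact_mod_cast l2
      have p : (0 : ℤ) < X.C.Ph := by have := h.Ph; omega
      rw [ak]; change (2 * (X.C.Z * (d.cw.get c + 1) : ℕ) * X.C.lam : ℤ) ≤ _
      refine le_of_mul_le_mul_left ?_ (by positivity : (0 : ℤ) < 2 * X.C.Ph)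
      refine le_trans ?_ a
      have := mul_le_mul_of_nonneg_left b (by positivity : (0 : ℤ) ≤ d.cw.get c + 1)
      have : (0 : ℤ) ≤ (d.cw.get c + 1) * (X.C.Ph * X.C.Z * X.C.lam) := by positivity
      push_cast; linarith)
  obtain ⟨bj, pj⟩ := h.bar_take (h.ip.view i.il.1 _ mj).2.1 (by rw [aj]; rfl) (by rw [aj]; rfl)
    (flo _ mj).1 (flo _ mj).2 (by
      have := (flo _ mj).1
      rw [aj]; change (2 * (1 : ℕ) * X.C.lam : ℤ) ≤ _; omega)
  have rm := Room.le room (r := 3) (by have := h.Rm; omega)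
  have AU : (0 : ℝ) ≤ X.k.AU := by positivity
  have c1 := hc.1
  have k0 : 5 * c + 2 ≠ 5 * o := by omega
  have j0 : 5 * X.G.hd o + 3 ≠ 5 * o := by omega
  have jk : 5 * X.G.hd o + 3 ≠ 5 * c + 2 := by omega
  simp only [insEv, sp_bind, sp_nat, sp_pure]
  refine ⟨by omega, by omega, by omega, (sp_ins h.ip i.il.1 (by push_cast at rm; linarith) n0 hA
    (h.dom big)).mono fun s1 t1 ⟨i1, n1, _, u1⟩ => ?_⟩
  have mk1 : 5 * c + 2 ∈ (N.ins (5 * o) (aP X.C X.G d o) X.C.lam).E := mem_insert_of_mem mk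
  have mj1 : 5 * X.G.hd o + 3 ∈ (N.ins (5 * o) (aP X.C X.G d o) X.C.lam).E := mem_insert_of_mem mj
  refine (sp_mv h.ip h.Mu_le_X i1 (by have := u1.phi; push_cast at rm; linarith) (p := (_, _)) mk1
    (by simpa [k0] using h.dom bk)).mono fun s2 t2 ⟨i2, n2, _, u2⟩ => ?_
  have mj2 := (mvN_E (d := -(X.C.lam : ℤ)) mk1).symm ▸ mj1
  refine (sp_mv h.ip h.Mu_le_X i2 (by have := (u1.trans u2).phi; push_cast at rm; linarith)
    (p := (_, _)) mj2 (by simpa [j0, jk] using h.dom bj)).mono fun s3 t3 ⟨i3, n3, _, u3⟩ => ?_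
  refine Post.of' (r := 1) i i3 (((u1.trans u2).trans u3).mono (A' := 5 * X.k.AU) ?_) ?_ cmb
    (ins_q i.q eq hb) (by linarith [h.AU_le]) ?_
  · push_cast; linarith
  · refine .of (fun e => ?_) (fun e he => ?_) fun v hv => ?_
    · rw [mvN_E mj2, mvN_E mk1, ins_has ho, ins_E, mem_insert, i.arcs.mem]
    · rw [mvN_E mj2, mvN_E mk1, ins_E, mem_insert] at he
      rw [mvN_arc, mvN_arc, ins_arc]
      by_cases k : e = 5 * o
      · rw [k, Function.update_self, arcOf0]; rfl
      · rw [Function.update_of_ne k, i.arcs.arc e (he.resolve_left k)]; rfl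
    · rw [dv_mvN mj2, dv_mvN mk1, dv_ins n0, i.arcs.cons v hv]
      simp only [mvN_arc, ins_arc, Function.update_of_ne k0, Function.update_of_ne j0, ak, aj, ct,
        aP, capA, snkA, aG, ← hcd, hv.symm, if_false]
      split_ifs <;> ring
  · rw [Op.pot_mvN mj2, Op.pot_mvN mk1, Op.pot_ins n0, Psi_Q, eq]
    simp only [mvN_arc, mvN_X, ins_arc, ins_X, Function.update_of_ne k0, Function.update_of_ne j0,
      Function.update_of_ne jk]
    have b0 := h.bar_new hA big rfl
    have z := h.Lg_le; have := h.Lg_nonneg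
    have z' : (20000 : ℝ) ≤ X.C.Z := by exact_mod_cast h.Z_pos
    simp only [aP, capA] at b0 ⊢
    push_cast [List.length_cons] at b0 pk pj ⊢
    linarith

end Cx

end Crest.Agent.N325.P2
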