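import Crest.Agent.N325.P2.Edge
import Crest.Agent.N325.P2.Dual2

/-!
# Row 325, part II (helper95): surplus and light classes in a good state
-/

set_option autoImplicit false
open Finset

namespace Crest.Agent.N325.P2

open Crest.Agent.N325.Ip

variable {T : Type} {X : Cx T}

theorem Cx.Inv.wtC_le {N : Net} {s : S T} (i : X.Inv s N) (h : X.Ok) (g : X.Good s.2 N) {c : ℕ}
    (k : isC X.G s.2 c) : wtC s.2 c * X.P.D ≤ 2 * X.C.Ph * X.C.B := by
  have := i.closed h g (isBg_bgOf h.wf i.cmb) (A := ∅) (C := {c}) (R := {c})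
    (fun a p => absurd p (notMem_empty _)) (fun x p => mem_singleton.1 p ▸ k) subset_rfl
    (fun a p => absurd p (notMem_empty _)) fun x p q => absurd p q
  rw [sum_singleton, card_empty, card_singleton] at this
  have z := h.Z_pos
  refine Nat.le_of_mul_le_mul_left (c := X.C.Z) ?_ (by omega)
  calc X.C.Z * (wtC s.2 c * X.P.D) = X.C.Z * wtC s.2 c * X.P.D := (mul_assoc _ _ _).symm
    _ ≤ _ := this
    _ = _ := by ring

theorem Cx.surStmt (h : X.Ok) {wm : ℕ} (hw : 2 * X.C.Ph * X.C.B ≤ wm * X.P.D) : X.SurStmt wm :=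
  fun _ _ i g => ⟨i.surplus h g, fun _ k =>
    Nat.le_of_mul_le_mul_right ((i.wtC_le h g k).trans hw) h.D_pos⟩

end Crest.Agent.N325.P2
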